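import Mathlib

/-!
# The Prekopa-Leindler inequality (midpoint form) in dimension one and in `R^d`

(Copy of the team file `Vale/Agent/Lib/P074/helper89/PL.lean` by helper89, placed here so that
the P243 files do not depend on another problem's folder.)

If `f x * g y ≤ h ((x + y) / 2) ^ 2` for all `x, y`, then
the product of the integrals of `f` and `g` is at most the square of the integral of `h`.
-/

namespace Vale.Agent.Lib.P243.PL

open MeasureTheory Set ENNReal
open scoped Pointwise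

/-- One-dimensional Brunn-Minkowski for nonempty compact sets. -/
theorem bm_compact (A B : Set ℝ) (hA : IsCompact A) (hB : IsCompact B) (hA0 : A.Nonempty)
    (hB0 : B.Nonempty) : volume A + volume B ≤ volume (A + B) := by
  set a := sSup A with ha
  set b := sInf B with hb
  have haA : a ∈ A := hA.sSup_mem hA0
  have hbB : b ∈ B := hB.sInf_mem hB0
  have hAm : MeasurableSet A := hA.measurableSet
  have hBm : MeasurableSet B := hB.measurableSet
  have h1 : (fun x => x + b) '' A ⊆ A + B := by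
    rintro _ ⟨x, hx, rfl⟩
    exact Set.add_mem_add hx hbB
  have h2 : (fun x => a + x) '' B ⊆ A + B := by
    rintro _ ⟨x, hx, rfl⟩
    exact Set.add_mem_add haA hx
  have h3 : (fun x => x + b) '' A ∩ (fun x => a + x) '' B ⊆ {a + b} := by
    rintro _ ⟨⟨x, hx, rfl⟩, ⟨y, hy, hxy⟩⟩
    have hxa : x ≤ a := le_csSup hA.bddAbove hx
    have hyb : b ≤ y := csInf_le hB.bddBelow hy
    simp only [Set.mem_singleton_iff]
    have : a + y = x + b := hxy
    linarith
  have hm1 : MeasurableSet ((fun x => x + b) '' A) := by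
    have : (fun x => x + b) '' A = (fun x => x + -b) ⁻¹' A := Set.image_add_right
    rw [this]
    exact (measurable_add_const (-b)) hAm
  have hm2 : MeasurableSet ((fun x => a + x) '' B) := by
    have : (fun x => a + x) '' B = (fun x => -a + x) ⁻¹' B := Set.image_add_left
    rw [this]
    exact (measurable_const_add (-a)) hBm
  have hv1 : volume ((fun x => x + b) '' A) = volume A := by
    have : (fun x => x + b) '' A = (fun x => x + -b) ⁻¹' A := Set.image_add_right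
    rw [this, measure_preimage_add_right]
  have hv2 : volume ((fun x => a + x) '' B) = volume B := by
    have : (fun x => a + x) '' B = (fun x => -a + x) ⁻¹' B := Set.image_add_left
    rw [this, measure_preimage_add]
  have hv3 : volume ((fun x => x + b) '' A ∩ (fun x => a + x) '' B) = 0 :=
    measure_mono_null h3 (by simp)
  calc volume A + volume B
      = volume ((fun x => x + b) '' A) + volume ((fun x => a + x) '' B) := by rw [hv1, hv2]
    _ = volume ((fun x => x + b) '' A ∪ (fun x => a + x) '' B)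
          + volume ((fun x => x + b) '' A ∩ (fun x => a + x) '' B) :=
        (measure_union_add_inter _ hm2).symm
    _ = volume ((fun x => x + b) '' A ∪ (fun x => a + x) '' B) := by rw [hv3, add_zero]
    _ ≤ volume (A + B) := measure_mono (Set.union_subset h1 h2)

/-- One-dimensional Brunn-Minkowski, midpoint form, for measurable sets. -/
theorem bm_meas (A B C : Set ℝ) (hA : MeasurableSet A) (hB : MeasurableSet B)
    (hA0 : A.Nonempty) (hB0 : B.Nonempty) (hC : ∀ a ∈ A, ∀ b ∈ B, (a + b) / 2 ∈ C) :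
    volume A + volume B ≤ 2 * volume C := by
  obtain ⟨a0, ha0⟩ := hA0
  obtain ⟨b0, hb0⟩ := hB0
  have key : ∀ (K₁ : {K : Set ℝ // K ⊆ A ∧ IsCompact K}) (K₂ : {K : Set ℝ // K ⊆ B ∧ IsCompact K}),
      volume (K₁ : Set ℝ) + volume (K₂ : Set ℝ) ≤ 2 * volume C := by
    rintro ⟨K₁, hK₁, hc₁⟩ ⟨K₂, hK₂, hc₂⟩
    have e1 : IsCompact (insert a0 K₁) := hc₁.insert a0
    have e2 : IsCompact (insert b0 K₂) := hc₂.insert b0
    have s1 : insert a0 K₁ ⊆ A := Set.insert_subset ha0 hK₁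
    have s2 : insert b0 K₂ ⊆ B := Set.insert_subset hb0 hK₂
    have h := bm_compact _ _ e1 e2 (Set.insert_nonempty _ _) (Set.insert_nonempty _ _)
    have hsub : insert a0 K₁ + insert b0 K₂ ⊆ (fun x : ℝ => x * (1 / 2)) ⁻¹' C := by
      rintro _ ⟨x, hx, y, hy, rfl⟩
      have := hC x (s1 hx) y (s2 hy)
      simp only [Set.mem_preimage]
      convert this using 1
      ring
    have hvol : volume ((fun x : ℝ => x * (1 / 2)) ⁻¹' C) = 2 * volume C := by
      rw [Real.volume_preimage_mul_right (by norm_num : (1 / 2 : ℝ) ≠ 0)]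
      norm_num
    calc volume K₁ + volume K₂
        ≤ volume (insert a0 K₁) + volume (insert b0 K₂) :=
          add_le_add (measure_mono (Set.subset_insert _ _)) (measure_mono (Set.subset_insert _ _))
      _ ≤ volume (insert a0 K₁ + insert b0 K₂) := h
      _ ≤ volume ((fun x : ℝ => x * (1 / 2)) ⁻¹' C) := measure_mono hsub
      _ = 2 * volume C := hvol
  have hA' : volume A ≤ ⨆ K : {K : Set ℝ // K ⊆ A ∧ IsCompact K}, volume (K : Set ℝ) := by
    rw [hA.measure_eq_iSup_isCompact]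
    exact iSup_le fun K => iSup_le fun hK => iSup_le fun hKc =>
      le_iSup (fun K : {K : Set ℝ // K ⊆ A ∧ IsCompact K} => volume (K : Set ℝ)) ⟨K, hK, hKc⟩
  have hB' : volume B ≤ ⨆ K : {K : Set ℝ // K ⊆ B ∧ IsCompact K}, volume (K : Set ℝ) := by
    rw [hB.measure_eq_iSup_isCompact]
    exact iSup_le fun K => iSup_le fun hK => iSup_le fun hKc =>
      le_iSup (fun K : {K : Set ℝ // K ⊆ B ∧ IsCompact K} => volume (K : Set ℝ)) ⟨K, hK, hKc⟩
  have : Nonempty {K : Set ℝ // K ⊆ A ∧ IsCompact K} := ⟨⟨∅, Set.empty_subset _, isCompact_empty⟩⟩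
  have : Nonempty {K : Set ℝ // K ⊆ B ∧ IsCompact K} := ⟨⟨∅, Set.empty_subset _, isCompact_empty⟩⟩
  exact (add_le_add hA' hB').trans (ENNReal.iSup_add_iSup_le key)

/-- Layer-cake formula for a function truncated at height one. -/
theorem layer (Φ : ℝ → ℝ≥0∞) (hΦ : Measurable Φ) :
    ∫⁻ x, min (Φ x) 1 = ∫⁻ u in Ioo (0 : ℝ) 1, volume {x | ENNReal.ofReal u < Φ x} := by
  set f : ℝ → ℝ := fun x => (min (Φ x) 1).toReal with hf
  have hfin : ∀ x, min (Φ x) 1 ≠ ∞ := fun x =>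
    ne_top_of_le_ne_top one_ne_top (min_le_right _ _)
  have hf_nn : 0 ≤ᵐ[volume] f := Filter.Eventually.of_forall fun x => ENNReal.toReal_nonneg
  have hf_m : AEMeasurable f volume := (hΦ.min measurable_const).ennreal_toReal.aemeasurable
  have h1 := lintegral_eq_lintegral_meas_lt volume hf_nn hf_m
  have hL : ∀ x, ENNReal.ofReal (f x) = min (Φ x) 1 := fun x => ENNReal.ofReal_toReal (hfin x)
  have hR : ∀ t ∈ Ioi (0 : ℝ), volume {a | t < f a}
      = (Ioo (0 : ℝ) 1).indicator (fun u => volume {x | ENNReal.ofReal u < Φ x}) t := by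
    intro t ht
    have ht0 : (0 : ℝ) < t := ht
    by_cases h : t < 1
    · rw [Set.indicator_of_mem (Set.mem_Ioo.mpr ⟨ht0, h⟩)]
      congr 1
      ext x
      simp only [Set.mem_ofPred_eq, hf]
      rw [← ENNReal.ofReal_lt_iff_lt_toReal ht0.le (hfin x), lt_min_iff]
      constructor
      · exact fun h' => h'.1
      · intro h'
        refine ⟨h', ?_⟩
        rw [← ENNReal.ofReal_one]
        exact (ENNReal.ofReal_lt_ofReal_iff one_pos).mpr h
    · rw [Set.indicator_of_notMem (fun hh => h (Set.mem_Ioo.mp hh).2)]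
      have hempty : {a | t < f a} = ∅ := by
        ext x
        simp only [Set.mem_ofPred_eq, Set.mem_empty_iff_false, iff_false, not_lt, hf]
        have : (min (Φ x) 1).toReal ≤ (1 : ℝ≥0∞).toReal :=
          ENNReal.toReal_mono one_ne_top (min_le_right _ _)
        simp only [ENNReal.toReal_one] at this
        linarith
      rw [hempty, measure_empty]
  calc ∫⁻ x, min (Φ x) 1 = ∫⁻ x, ENNReal.ofReal (f x) := by simp only [hL]
    _ = ∫⁻ t in Ioi (0 : ℝ), volume {a | t < f a} := h1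
    _ = ∫⁻ t in Ioi (0 : ℝ),
          (Ioo (0 : ℝ) 1).indicator (fun u => volume {x | ENNReal.ofReal u < Φ x}) t :=
        setLIntegral_congr_fun measurableSet_Ioi hR
    _ = ∫⁻ u in Ioo (0 : ℝ) 1, volume {x | ENNReal.ofReal u < Φ x} := by
        rw [lintegral_indicator measurableSet_Ioo, Measure.restrict_restrict measurableSet_Ioo]
        congr 2
        ext u
        simp only [Set.mem_inter_iff, Set.mem_Ioo, Set.mem_Ioi]
        tauto

/-- The measure of a superlevel set is an antitone, hence measurable, function of the level. -/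
theorem meas_level (Φ : ℝ → ℝ≥0∞) :
    Measurable fun u : ℝ => volume {x | ENNReal.ofReal u < Φ x} := by
  refine Antitone.measurable fun u v huv => measure_mono fun x hx => ?_
  exact lt_of_le_of_lt (ENNReal.ofReal_le_ofReal huv) hx

/-- Normalised one-dimensional Prekopa-Leindler: if `F` and `G` have supremum at least one. -/
theorem core (F G H : ℝ → ℝ≥0∞) (hF : Measurable F) (hG : Measurable G) (hH : Measurable H)
    (hFG : ∀ s t, F s * G t ≤ H ((s + t) / 2) ^ 2)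
    (hF1 : ∀ u : ℝ≥0∞, u < 1 → ∃ s, u < F s) (hG1 : ∀ u : ℝ≥0∞, u < 1 → ∃ t, u < G t) :
    (∫⁻ x, min (F x) 1) + (∫⁻ x, min (G x) 1) ≤ 2 * ∫⁻ x, min (H x) 1 := by
  rw [layer F hF, layer G hG, layer H hH, ← lintegral_add_left (meas_level F),
    ← lintegral_const_mul' 2 _ (by norm_num)]
  refine setLIntegral_mono' measurableSet_Ioo fun u hu => ?_
  have hu1 : ENNReal.ofReal u < 1 := by
    rw [← ENNReal.ofReal_one]
    exact (ENNReal.ofReal_lt_ofReal_iff one_pos).mpr hu.2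
  refine bm_meas _ _ _ (measurableSet_lt measurable_const hF) (measurableSet_lt measurable_const hG)
    (hF1 _ hu1) (hG1 _ hu1) fun a ha b hb => ?_
  have ha' : ENNReal.ofReal u < F a := ha
  have hb' : ENNReal.ofReal u < G b := hb
  show ENNReal.ofReal u < H ((a + b) / 2)
  by_contra hcon
  have h1 : H ((a + b) / 2) ^ 2 ≤ ENNReal.ofReal u ^ 2 := by
    gcongr
    exact not_lt.mp hcon
  have h2 : ENNReal.ofReal u ^ 2 < F a * G b := by
    rw [sq]
    exact ENNReal.mul_lt_mul ha' hb'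
  exact absurd ((hFG a b).trans h1) (not_le.mpr h2)

/-- Arithmetic-geometric mean inequality in `ℝ≥0∞`. -/
theorem four_mul_le_add_sq (p q : ℝ≥0∞) : 4 * (p * q) ≤ (p + q) ^ 2 := by
  by_cases hp : p = ∞
  · subst hp
    simp
  by_cases hq : q = ∞
  · subst hq
    simp
  lift p to NNReal using hp
  lift q to NNReal using hq
  have h : (4 : NNReal) * (p * q) ≤ (p + q) ^ 2 := by
    rw [← NNReal.coe_le_coe]
    push_cast
    nlinarith [sq_nonneg ((p : ℝ) - q)]
  exact_mod_cast h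

/-- One-dimensional Prekopa-Leindler for functions with finite positive suprema. -/
theorem pl_one_bdd (F G H : ℝ → ℝ≥0∞) (hF : Measurable F) (hG : Measurable G) (hH : Measurable H)
    (hFG : ∀ s t, F s * G t ≤ H ((s + t) / 2) ^ 2) (a b : ℝ≥0∞)
    (ha0 : a ≠ 0) (ha : a ≠ ∞) (hb0 : b ≠ 0) (hb : b ≠ ∞)
    (hFa : ∀ s, F s ≤ a) (hFs : ∀ u : ℝ≥0∞, u < a → ∃ s, u < F s)
    (hGb : ∀ t, G t ≤ b) (hGs : ∀ u : ℝ≥0∞, u < b → ∃ t, u < G t) :
    (∫⁻ x, F x) * (∫⁻ x, G x) ≤ (∫⁻ x, H x) ^ 2 := by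
  set c : ℝ≥0∞ := ((NNReal.sqrt (a.toNNReal * b.toNNReal) : NNReal) : ℝ≥0∞) with hc
  have hc2 : c ^ 2 = a * b := by
    rw [hc, ← ENNReal.coe_pow, NNReal.sq_sqrt, ENNReal.coe_mul, ENNReal.coe_toNNReal ha,
      ENNReal.coe_toNNReal hb]
  have hab0 : a * b ≠ 0 := mul_ne_zero ha0 hb0
  have habt : a * b ≠ ∞ := ENNReal.mul_ne_top ha hb
  have hinv : (c⁻¹) ^ 2 = a⁻¹ * b⁻¹ := by
    rw [← ENNReal.inv_pow, hc2, ENNReal.mul_inv (Or.inl ha0) (Or.inl ha)]
  have hk0 : a⁻¹ * b⁻¹ ≠ 0 := mul_ne_zero (ENNReal.inv_ne_zero.mpr ha) (ENNReal.inv_ne_zero.mpr hb)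
  have hkt : a⁻¹ * b⁻¹ ≠ ∞ :=
    ENNReal.mul_ne_top (ENNReal.inv_ne_top.mpr ha0) (ENNReal.inv_ne_top.mpr hb0)
  have hyp : ∀ s t, F s * a⁻¹ * (G t * b⁻¹) ≤ (H ((s + t) / 2) * c⁻¹) ^ 2 := by
    intro s t
    rw [mul_pow, hinv]
    calc F s * a⁻¹ * (G t * b⁻¹) = F s * G t * (a⁻¹ * b⁻¹) := by ring
      _ ≤ H ((s + t) / 2) ^ 2 * (a⁻¹ * b⁻¹) := by gcongr; exact hFG s t
  have sup1 : ∀ u : ℝ≥0∞, u < 1 → ∃ s, u < F s * a⁻¹ := by
    intro u hu
    have h1 : u * a < a := by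
      calc u * a < 1 * a := ENNReal.mul_lt_mul_left ha0 ha hu
        _ = a := one_mul a
    obtain ⟨s, hs⟩ := hFs _ h1
    refine ⟨s, ?_⟩
    rw [← div_eq_mul_inv, ENNReal.lt_div_iff_mul_lt (Or.inl ha0) (Or.inl ha)]
    exact hs
  have sup2 : ∀ u : ℝ≥0∞, u < 1 → ∃ t, u < G t * b⁻¹ := by
    intro u hu
    have h1 : u * b < b := by
      calc u * b < 1 * b := ENNReal.mul_lt_mul_left hb0 hb hu
        _ = b := one_mul b
    obtain ⟨t, ht⟩ := hGs _ h1
    refine ⟨t, ?_⟩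
    rw [← div_eq_mul_inv, ENNReal.lt_div_iff_mul_lt (Or.inl hb0) (Or.inl hb)]
    exact ht
  have hcore := core (fun x => F x * a⁻¹) (fun x => G x * b⁻¹) (fun x => H x * c⁻¹)
    (hF.mul_const _) (hG.mul_const _) (hH.mul_const _) hyp sup1 sup2
  have m1 : ∀ x, min (F x * a⁻¹) 1 = F x * a⁻¹ := by
    intro x
    refine min_eq_left ?_
    calc F x * a⁻¹ ≤ a * a⁻¹ := by gcongr; exact hFa x
      _ = 1 := ENNReal.mul_inv_cancel ha0 ha
  have m2 : ∀ x, min (G x * b⁻¹) 1 = G x * b⁻¹ := by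
    intro x
    refine min_eq_left ?_
    calc G x * b⁻¹ ≤ b * b⁻¹ := by gcongr; exact hGb x
      _ = 1 := ENNReal.mul_inv_cancel hb0 hb
  have m3 : ∫⁻ x, min (H x * c⁻¹) 1 ≤ ∫⁻ x, H x * c⁻¹ :=
    lintegral_mono fun x => min_le_left _ _
  simp only [m1, m2] at hcore
  rw [lintegral_mul_const _ hF, lintegral_mul_const _ hG] at hcore
  rw [lintegral_mul_const _ hH] at m3
  set X := ∫⁻ x, F x
  set Y := ∫⁻ x, G x
  set Z := ∫⁻ x, H x
  have h5 : X * a⁻¹ + Y * b⁻¹ ≤ 2 * (Z * c⁻¹) := hcore.trans (by gcongr)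
  have h6 : 4 * (X * a⁻¹ * (Y * b⁻¹)) ≤ 4 * (Z * c⁻¹) ^ 2 := by
    calc 4 * (X * a⁻¹ * (Y * b⁻¹)) ≤ (X * a⁻¹ + Y * b⁻¹) ^ 2 := four_mul_le_add_sq _ _
      _ ≤ (2 * (Z * c⁻¹)) ^ 2 := by gcongr
      _ = 4 * (Z * c⁻¹) ^ 2 := by ring
  have h7 : X * a⁻¹ * (Y * b⁻¹) ≤ (Z * c⁻¹) ^ 2 :=
    (ENNReal.mul_le_mul_iff_right (by norm_num) (by norm_num)).mp h6
  have h8 : X * Y * (a⁻¹ * b⁻¹) ≤ Z ^ 2 * (a⁻¹ * b⁻¹) := by
    calc X * Y * (a⁻¹ * b⁻¹) = X * a⁻¹ * (Y * b⁻¹) := by ring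
      _ ≤ (Z * c⁻¹) ^ 2 := h7
      _ = Z ^ 2 * (a⁻¹ * b⁻¹) := by rw [mul_pow, hinv]
  exact (ENNReal.mul_le_mul_iff_left hk0 hkt).mp h8

theorem iSup_min_nat (a : ℝ≥0∞) : ⨆ n : ℕ, min a ((n : ℝ≥0∞) + 1) = a := by
  refine le_antisymm (iSup_le fun n => min_le_left _ _) ?_
  by_cases ha : a = ∞
  · subst ha
    calc (∞ : ℝ≥0∞) = ⨆ n : ℕ, (n : ℝ≥0∞) := ENNReal.iSup_natCast.symm
      _ ≤ ⨆ n : ℕ, min ∞ ((n : ℝ≥0∞) + 1) := iSup_mono fun n => by simp
  · obtain ⟨n, hn⟩ := ENNReal.exists_nat_gt ha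
    refine le_iSup_of_le n ?_
    rw [min_eq_left (hn.le.trans le_self_add)]

/-- The one-dimensional Prekopa-Leindler inequality, midpoint form. -/
theorem pl_one (F G H : ℝ → ℝ≥0∞) (hF : Measurable F) (hG : Measurable G) (hH : Measurable H)
    (hFG : ∀ s t, F s * G t ≤ H ((s + t) / 2) ^ 2) :
    (∫⁻ x, F x) * (∫⁻ x, G x) ≤ (∫⁻ x, H x) ^ 2 := by
  by_cases hX : ∫⁻ x, F x = 0
  · rw [hX, zero_mul]
    exact bot_le
  by_cases hY : ∫⁻ x, G x = 0
  · rw [hY, mul_zero]
    exact bot_le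
  have hs : ∃ s₀, F s₀ ≠ 0 := by
    by_contra hcon
    simp only [not_exists, not_not] at hcon
    exact hX (by simp [hcon])
  have ht : ∃ t₀, G t₀ ≠ 0 := by
    by_contra hcon
    simp only [not_exists, not_not] at hcon
    exact hY (by simp [hcon])
  obtain ⟨s₀, hs₀⟩ := hs
  obtain ⟨t₀, ht₀⟩ := ht
  set Fn : ℕ → ℝ → ℝ≥0∞ := fun n x => min (F x) ((n : ℝ≥0∞) + 1) with hFn
  set Gn : ℕ → ℝ → ℝ≥0∞ := fun n x => min (G x) ((n : ℝ≥0∞) + 1) with hGn
  have hFm : ∀ n, Measurable (Fn n) := fun n => hF.min measurable_const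
  have hGm : ∀ n, Measurable (Gn n) := fun n => hG.min measurable_const
  have hFmono : Monotone Fn := fun n m hnm x => min_le_min le_rfl (by gcongr)
  have hGmono : Monotone Gn := fun n m hnm x => min_le_min le_rfl (by gcongr)
  have hn1 : ∀ n : ℕ, ((n : ℝ≥0∞) + 1) ≠ ∞ := fun n =>
    ENNReal.add_ne_top.mpr ⟨ENNReal.natCast_ne_top n, ENNReal.one_ne_top⟩
  have key : ∀ n, (∫⁻ x, Fn n x) * (∫⁻ x, Gn n x) ≤ (∫⁻ x, H x) ^ 2 := by
    intro n
    refine pl_one_bdd (Fn n) (Gn n) H (hFm n) (hGm n) hH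
      (fun s t => (mul_le_mul' (min_le_left _ _) (min_le_left _ _)).trans (hFG s t))
      (⨆ s, Fn n s) (⨆ t, Gn n t) ?_ ?_ ?_ ?_ (fun s => le_iSup (Fn n) s)
      (fun u hu => lt_iSup_iff.mp hu) (fun t => le_iSup (Gn n) t) (fun u hu => lt_iSup_iff.mp hu)
    · have : 0 < Fn n s₀ := lt_min (pos_iff_ne_zero.mpr hs₀) (by positivity)
      exact (lt_of_lt_of_le this (le_iSup (Fn n) s₀)).ne'
    · exact ne_top_of_le_ne_top (hn1 n) (iSup_le fun s => min_le_right _ _)
    · have : 0 < Gn n t₀ := lt_min (pos_iff_ne_zero.mpr ht₀) (by positivity)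
      exact (lt_of_lt_of_le this (le_iSup (Gn n) t₀)).ne'
    · exact ne_top_of_le_ne_top (hn1 n) (iSup_le fun t => min_le_right _ _)
  have eX : ∫⁻ x, F x = ⨆ n, ∫⁻ x, Fn n x := by
    rw [← lintegral_iSup hFm hFmono]
    simp only [hFn, iSup_min_nat]
  have eY : ∫⁻ x, G x = ⨆ n, ∫⁻ x, Gn n x := by
    rw [← lintegral_iSup hGm hGmono]
    simp only [hGn, iSup_min_nat]
  rw [eX, eY, ENNReal.iSup_mul]
  refine iSup_le fun n => ?_
  rw [ENNReal.mul_iSup]
  refine iSup_le fun m => ?_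
  calc (∫⁻ x, Fn n x) * (∫⁻ x, Gn m x)
      ≤ (∫⁻ x, Fn (max n m) x) * (∫⁻ x, Gn (max n m) x) :=
        mul_le_mul' (lintegral_mono (hFmono (le_max_left n m)))
          (lintegral_mono (hGmono (le_max_right n m)))
    _ ≤ (∫⁻ x, H x) ^ 2 := key _

theorem piFinSucc_symm_apply (d : ℕ) (p : ℝ × (Fin d → ℝ)) :
    (MeasurableEquiv.piFinSuccAbove (fun _ : Fin (d + 1) => ℝ) 0).symm p = Fin.cons p.1 p.2 := by
  funext k
  refine Fin.cases ?_ (fun j => ?_) k
  · simp [MeasurableEquiv.piFinSuccAbove, Fin.insertNthEquiv]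
  · simp [MeasurableEquiv.piFinSuccAbove, Fin.insertNthEquiv]

theorem half_cons (d : ℕ) (s t : ℝ) (x y : Fin d → ℝ) :
    (1 / 2 : ℝ) • ((Fin.cons s x : Fin (d + 1) → ℝ) + Fin.cons t y)
      = Fin.cons ((s + t) / 2) ((1 / 2 : ℝ) • (x + y)) := by
  funext k
  refine Fin.cases ?_ (fun j => ?_) k
  · simp
    ring
  · simp
    ring

theorem volume_fin_zero : (volume : Measure (Fin 0 → ℝ)) = Measure.dirac (fun _ => 0) := by
  rw [volume_pi]
  exact Measure.pi_of_empty _ _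

/-- The Prekopa-Leindler inequality (midpoint form) on `Fin d → ℝ`. -/
theorem pl_pi : ∀ (d : ℕ) (f g h : (Fin d → ℝ) → ℝ≥0∞), Measurable f → Measurable g →
    Measurable h → (∀ x y, f x * g y ≤ h ((1 / 2 : ℝ) • (x + y)) ^ 2) →
    (∫⁻ x, f x) * (∫⁻ x, g x) ≤ (∫⁻ x, h x) ^ 2 := by
  intro d
  induction d with
  | zero =>
    intro f g h hf hg hh H
    rw [volume_fin_zero, lintegral_dirac' _ hf, lintegral_dirac' _ hg, lintegral_dirac' _ hh]
    have := H (fun _ => 0) (fun _ => 0)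
    have e : (1 / 2 : ℝ) • ((fun _ => 0 : Fin 0 → ℝ) + fun _ => 0) = fun _ => 0 :=
      Subsingleton.elim _ _
    rwa [e] at this
  | succ d ih =>
    intro f g h hf hg hh H
    set e := MeasurableEquiv.piFinSuccAbove (fun _ : Fin (d + 1) => ℝ) 0 with he
    have mp : MeasurePreserving e.symm volume volume :=
      (volume_preserving_piFinSuccAbove (fun _ : Fin (d + 1) => ℝ) 0).symm e
    have hf' : Measurable fun p : ℝ × (Fin d → ℝ) => f (e.symm p) := hf.comp e.symm.measurable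
    have hg' : Measurable fun p : ℝ × (Fin d → ℝ) => g (e.symm p) := hg.comp e.symm.measurable
    have hh' : Measurable fun p : ℝ × (Fin d → ℝ) => h (e.symm p) := hh.comp e.symm.measurable
    have split : ∀ φ : (Fin (d + 1) → ℝ) → ℝ≥0∞, Measurable φ →
        ∫⁻ x, φ x = ∫⁻ s : ℝ, ∫⁻ y : Fin d → ℝ, φ (e.symm (s, y)) := by
      intro φ hφ
      rw [← mp.lintegral_comp hφ]
      exact lintegral_prod _ (hφ.comp e.symm.measurable).aemeasurable
    rw [split f hf, split g hg, split h hh]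
    refine pl_one _ _ _ hf'.lintegral_prod_right' hg'.lintegral_prod_right'
      hh'.lintegral_prod_right' fun s t => ?_
    refine ih _ _ _ (hf'.comp (measurable_const.prodMk measurable_id))
      (hg'.comp (measurable_const.prodMk measurable_id))
      (hh'.comp (measurable_const.prodMk measurable_id)) fun x y => ?_
    have := H (e.symm (s, x)) (e.symm (t, y))
    rw [piFinSucc_symm_apply, piFinSucc_symm_apply, half_cons] at this
    rw [piFinSucc_symm_apply, piFinSucc_symm_apply, piFinSucc_symm_apply]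
    exact this

/-- The Prekopa-Leindler inequality (midpoint form) on Euclidean space: if
`f x * g y ≤ h ((x + y) / 2) ^ 2` for all `x, y`, then the product of the integrals of `f` and `g` is at most the square of the integral of `h`. -/
theorem prekopa_leindler {d : ℕ} (f g h : EuclideanSpace ℝ (Fin d) → ℝ≥0∞) (hf : Measurable f)
    (hg : Measurable g) (hh : Measurable h)
    (H : ∀ x y, f x * g y ≤ h ((1 / 2 : ℝ) • (x + y)) ^ 2) :
    (∫⁻ x, f x) * (∫⁻ x, g x) ≤ (∫⁻ x, h x) ^ 2 := by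
  have mp := PiLp.volume_preserving_toLp (Fin d)
  rw [← mp.lintegral_comp hf, ← mp.lintegral_comp hg, ← mp.lintegral_comp hh]
  refine pl_pi d _ _ _ (hf.comp mp.measurable) (hg.comp mp.measurable) (hh.comp mp.measurable)
    fun x y => ?_
  have := H (WithLp.toLp 2 x) (WithLp.toLp 2 y)
  simpa using this

end Vale.Agent.Lib.P243.PL

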