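import Mathlib
import Vale.Agent.Lib.P243.CapPL

/-!
Planar Brunn-Minkowski for a nested family of level sets: if a family `X t` of measurable
planar sets satisfies the concavity inclusion `(1 - θ) X s + θ X t ⊆ X ((1 - θ) s + θ t)` and is
decreasing, then `t ↦ sqrt (area (X t))` is concave between `0` and every level of positive
area.  The proof uses the midpoint Prekopa-Leindler inequality and a bisection argument on the
rescaled family.
-/

namespace Vale.Agent.Lib.P243.Cap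

open MeasureTheory Set ENNReal

/-- Midpoint Prekopa-Leindler inequality on `ℝ × ℝ`. -/
theorem pl_prod (f g h : ℝ × ℝ → ℝ≥0∞) (hf : Measurable f) (hg : Measurable g)
    (hh : Measurable h) (H : ∀ x y, f x * g y ≤ h ((1 / 2 : ℝ) • (x + y)) ^ 2) :
    (∫⁻ x, f x) * (∫⁻ x, g x) ≤ (∫⁻ x, h x) ^ 2 := by
  rw [Measure.volume_eq_prod, lintegral_prod _ hf.aemeasurable, lintegral_prod _ hg.aemeasurable,
    lintegral_prod _ hh.aemeasurable]
  refine PL.pl_one _ _ _ hf.lintegral_prod_right' hg.lintegral_prod_right'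
    hh.lintegral_prod_right' fun s t => ?_
  refine PL.pl_one _ _ _ (hf.comp (measurable_const.prodMk measurable_id))
    (hg.comp (measurable_const.prodMk measurable_id))
    (hh.comp (measurable_const.prodMk measurable_id)) fun u w => ?_
  have := H (s, u) (t, w)
  have e : (1 / 2 : ℝ) • ((s, u) + (t, w)) = ((s + t) / 2, (u + w) / 2) := by
    ext <;> simp <;> ring
  rwa [e] at this

/-- Midpoint Brunn-Minkowski (multiplicative form) for measurable planar sets. -/
theorem bm_mid (U V Z : Set (ℝ × ℝ)) (hU : MeasurableSet U) (hV : MeasurableSet V)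
    (hZ : MeasurableSet Z) (H : ∀ x ∈ U, ∀ y ∈ V, (1 / 2 : ℝ) • (x + y) ∈ Z) :
    volume U * volume V ≤ volume Z ^ 2 := by
  have := pl_prod (U.indicator 1) (V.indicator 1) (Z.indicator 1)
    (measurable_one.indicator hU) (measurable_one.indicator hV) (measurable_one.indicator hZ)
    (fun x y => by
      by_cases hx : x ∈ U
      · by_cases hy : y ∈ V
        · rw [Set.indicator_of_mem hx, Set.indicator_of_mem hy,
            Set.indicator_of_mem (H x hx y hy)]
          simp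
        · rw [Set.indicator_of_notMem hy]
          simp
      · rw [Set.indicator_of_notMem hx]
        simp)
  rwa [lintegral_indicator_one hU, lintegral_indicator_one hV, lintegral_indicator_one hZ] at this

open scoped Pointwise

lemma vol_smul (c : ℝ) (S : Set (ℝ × ℝ)) :
    volume (c • S) = ENNReal.ofReal (c ^ 2) * volume S := by
  rw [Measure.addHaar_smul]
  have h2 : Module.finrank ℝ (ℝ × ℝ) = 2 := by simp
  rw [h2, abs_of_nonneg (sq_nonneg c)]

/-- A decreasing family of measurable planar sets with the concavity inclusion. -/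
structure LevelFamily (X : ℝ → Set (ℝ × ℝ)) : Prop where
  meas : ∀ t, MeasurableSet (X t)
  anti : ∀ s t, 0 ≤ s → s ≤ t → X t ⊆ X s
  conc : ∀ s t θ, 0 ≤ s → 0 ≤ t → 0 ≤ θ → θ ≤ 1 → ∀ x ∈ X s, ∀ y ∈ X t,
    (1 - θ) • x + θ • y ∈ X ((1 - θ) * s + θ * t)
  fin : volume (X 0) ≠ ⊤

/-- Bisection: a property of points of `[0, 1]` that holds at `0`, at `1` and is inherited by
midpoints holds at points arbitrarily close to the right of any given point. -/
lemma bisect (good : ℝ → Prop) (h0 : good 0) (h1 : good 1)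
    (hmid : ∀ μ ν, 0 ≤ μ → μ ≤ 1 → 0 ≤ ν → ν ≤ 1 → good μ → good ν → good ((μ + ν) / 2))
    (μ₀ : ℝ) (h : 0 ≤ μ₀) (h' : μ₀ ≤ 1) (n : ℕ) :
    ∃ l r, 0 ≤ l ∧ r ≤ 1 ∧ good l ∧ good r ∧ l ≤ μ₀ ∧ μ₀ ≤ r ∧ r - l = (1 / 2 : ℝ) ^ n := by
  induction n with
  | zero => exact ⟨0, 1, le_rfl, le_rfl, h0, h1, h, h', by norm_num⟩
  | succ n ih =>
    obtain ⟨l, r, hl0, hr1, gl, gr, hl, hr, hd⟩ := ih
    have gm : good ((l + r) / 2) :=
      hmid l r hl0 (by linarith) (by linarith) hr1 gl gr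
    by_cases hm : μ₀ ≤ (l + r) / 2
    · refine ⟨l, (l + r) / 2, hl0, by linarith, gl, gm, hl, hm, ?_⟩
      rw [pow_succ, ← hd]; ring
    · refine ⟨(l + r) / 2, r, by linarith, hr1, gm, gr, by linarith, hr, ?_⟩
      rw [pow_succ, ← hd]; ring

section core

variable {X : ℝ → Set (ℝ × ℝ)}

lemma lev_alg (a b t μ ν D₁ D₂ Dm : ℝ) (ha : a ≠ 0) (hb : b ≠ 0) (h1 : D₁ ≠ 0) (h2 : D₂ ≠ 0)
    (hm : Dm ≠ 0) (hs : D₁ + D₂ = 2 * Dm) :
    (1 - (D₂ / (a * b)) / (2 * (Dm / (a * b)))) * (μ * a * t / D₁)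
      + (D₂ / (a * b)) / (2 * (Dm / (a * b))) * (ν * a * t / D₂)
    = (μ + ν) / 2 * a * t / Dm := by
  have e : (D₂ / (a * b)) / (2 * (Dm / (a * b))) = D₂ / (2 * Dm) := by
    field_simp
  have e' : 1 - D₂ / (2 * Dm) = D₁ / (2 * Dm) := by
    field_simp
    linarith
  rw [e, e']
  field_simp

/-- Midpoint step for the rescaled family. -/
lemma v_mid (hX : LevelFamily X) (a b t : ℝ) (ha : 0 < a) (hb : 0 < b) (ht : 0 < t)
    (hba : b ≤ a) (μ ν : ℝ) (hμ0 : 0 ≤ μ) (hμ1 : μ ≤ 1) (hν0 : 0 ≤ ν) (hν1 : ν ≤ 1) :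
    (ENNReal.ofReal ((((1 - μ) * b + μ * a) / (a * b)) ^ 2)
        * volume (X (μ * a * t / ((1 - μ) * b + μ * a))))
      * (ENNReal.ofReal ((((1 - ν) * b + ν * a) / (a * b)) ^ 2)
        * volume (X (ν * a * t / ((1 - ν) * b + ν * a))))
      ≤ (ENNReal.ofReal ((((1 - (μ + ν) / 2) * b + (μ + ν) / 2 * a) / (a * b)) ^ 2)
        * volume (X ((μ + ν) / 2 * a * t / ((1 - (μ + ν) / 2) * b + (μ + ν) / 2 * a)))) ^ 2 := by
  have hdμ : 0 < (1 - μ) * b + μ * a := by nlinarith [mul_nonneg hμ0 (sub_nonneg.2 hba)]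
  have hdν : 0 < (1 - ν) * b + ν * a := by nlinarith [mul_nonneg hν0 (sub_nonneg.2 hba)]
  have hm0 : 0 ≤ (μ + ν) / 2 := by linarith
  have hdm : 0 < (1 - (μ + ν) / 2) * b + (μ + ν) / 2 * a := by
    nlinarith [mul_nonneg hm0 (sub_nonneg.2 hba)]
  have hs : (1 - μ) * b + μ * a + ((1 - ν) * b + ν * a)
      = 2 * ((1 - (μ + ν) / 2) * b + (μ + ν) / 2 * a) := by ring
  generalize (1 - μ) * b + μ * a = D₁ at *
  generalize (1 - ν) * b + ν * a = D₂ at *
  generalize (1 - (μ + ν) / 2) * b + (μ + ν) / 2 * a = Dm at *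
  have hab : 0 < a * b := mul_pos ha hb
  have hσμp : 0 < D₁ / (a * b) := div_pos hdμ hab
  have hσνp : 0 < D₂ / (a * b) := div_pos hdν hab
  have hσmp : 0 < Dm / (a * b) := div_pos hdm hab
  rw [← vol_smul, ← vol_smul, ← vol_smul]
  refine bm_mid _ _ _ ((hX.meas _).const_smul₀ _) ((hX.meas _).const_smul₀ _)
    ((hX.meas _).const_smul₀ _) ?_
  rintro x ⟨x₀, hx₀, rfl⟩ y ⟨y₀, hy₀, rfl⟩
  have e : (D₂ / (a * b)) / (2 * (Dm / (a * b))) = D₂ / (2 * Dm) := by
    have := ha.ne'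
    have := hb.ne'
    have := hdm.ne'
    field_simp
  have hθ0 : 0 ≤ (D₂ / (a * b)) / (2 * (Dm / (a * b))) := by positivity
  have hθ1 : (D₂ / (a * b)) / (2 * (Dm / (a * b))) ≤ 1 := by
    rw [e, div_le_one (by positivity)]; linarith
  have hτμ : 0 ≤ μ * a * t / D₁ := by positivity
  have hτν : 0 ≤ ν * a * t / D₂ := by positivity
  have hz := hX.conc _ _ _ hτμ hτν hθ0 hθ1 x₀ hx₀ y₀ hy₀
  rw [lev_alg a b t μ ν D₁ D₂ Dm ha.ne' hb.ne' hdμ.ne' hdν.ne' hdm.ne' hs] at hz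
  refine ⟨_, hz, ?_⟩
  have e1 : Dm / (a * b) * (1 - (D₂ / (a * b)) / (2 * (Dm / (a * b))))
      = 1 / 2 * (D₁ / (a * b)) := by
    rw [e]
    have := ha.ne'
    have := hb.ne'
    have := hdm.ne'
    field_simp
    linarith
  have e2 : Dm / (a * b) * ((D₂ / (a * b)) / (2 * (Dm / (a * b))))
      = 1 / 2 * (D₂ / (a * b)) := by
    rw [e]
    have := ha.ne'
    have := hb.ne'
    have := hdm.ne'
    field_simp
  simp only [smul_add, smul_smul]
  rw [e1, e2]

/-- Key claim: the rescaled family has value at least one at every point of `[0, 1]`. -/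
lemma v_ge_one (hX : LevelFamily X) (a b t : ℝ) (ha : 0 < a) (hb : 0 < b) (ht : 0 < t)
    (hba : b ≤ a) (h0 : volume (X 0) = ENNReal.ofReal (a ^ 2))
    (h1 : volume (X t) = ENNReal.ofReal (b ^ 2)) (μ₀ : ℝ) (hμ0 : 0 ≤ μ₀) (hμ1 : μ₀ ≤ 1) :
    1 ≤ ENNReal.ofReal ((((1 - μ₀) * b + μ₀ * a) / (a * b)) ^ 2)
      * volume (X (μ₀ * a * t / ((1 - μ₀) * b + μ₀ * a))) := by
  have hab : 0 < a * b := mul_pos ha hb
  have hden : ∀ μ : ℝ, 0 ≤ μ → 0 < (1 - μ) * b + μ * a := fun μ hμ => by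
    nlinarith [mul_nonneg hμ (sub_nonneg.2 hba)]
  let good : ℝ → Prop := fun μ => 1 ≤ ENNReal.ofReal ((((1 - μ) * b + μ * a) / (a * b)) ^ 2)
      * volume (X (μ * a * t / ((1 - μ) * b + μ * a)))
  have g0 : good 0 := by
    show 1 ≤ ENNReal.ofReal ((((1 - 0) * b + 0 * a) / (a * b)) ^ 2)
      * volume (X (0 * a * t / ((1 - 0) * b + 0 * a)))
    have e1 : (0 : ℝ) * a * t / ((1 - 0) * b + 0 * a) = 0 := by simp
    rw [e1, h0, ← ENNReal.ofReal_mul (by positivity), ENNReal.one_le_ofReal]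
    have := ha.ne'
    have := hb.ne'
    apply le_of_eq
    field_simp
    ring
  have g1 : good 1 := by
    show 1 ≤ ENNReal.ofReal ((((1 - 1) * b + 1 * a) / (a * b)) ^ 2)
      * volume (X (1 * a * t / ((1 - 1) * b + 1 * a)))
    have e1 : (1 : ℝ) * a * t / ((1 - 1) * b + 1 * a) = t := by
      have := ha.ne'
      field_simp
      ring
    rw [e1, h1, ← ENNReal.ofReal_mul (by positivity), ENNReal.one_le_ofReal]
    have := ha.ne'
    have := hb.ne'
    apply le_of_eq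
    field_simp
    ring
  have gm : ∀ μ ν, 0 ≤ μ → μ ≤ 1 → 0 ≤ ν → ν ≤ 1 → good μ → good ν → good ((μ + ν) / 2) := by
    intro μ ν h1 h2 h3 h4 gμ gν
    have hv := v_mid hX a b t ha hb ht hba μ ν h1 h2 h3 h4
    by_contra hlt
    simp only [good, not_le] at hlt
    have h5 := ENNReal.pow_lt_pow_left two_ne_zero hlt
    rw [one_pow] at h5
    have h6 := mul_le_mul' gμ gν
    rw [one_mul] at h6
    exact absurd (lt_of_le_of_lt (le_trans h6 hv) h5) (lt_irrefl _)
  have hτ0 : 0 ≤ μ₀ * a * t / ((1 - μ₀) * b + μ₀ * a) := by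
    have := hden μ₀ hμ0
    positivity
  have hV : volume (X (μ₀ * a * t / ((1 - μ₀) * b + μ₀ * a))) ≠ ⊤ :=
    ne_top_of_le_ne_top hX.fin (measure_mono (hX.anti 0 _ le_rfl hτ0))
  have hn : ∀ n : ℕ, 1 ≤ ENNReal.ofReal
      ((((1 - μ₀) * b + μ₀ * a) / (a * b) + (a - b) / (a * b) * (1 / 2 : ℝ) ^ n) ^ 2)
      * volume (X (μ₀ * a * t / ((1 - μ₀) * b + μ₀ * a))) := by
    intro n
    obtain ⟨l, r, hl0, hr1, gl, gr, hl, hr, hd⟩ := bisect good g0 g1 gm μ₀ hμ0 hμ1 n
    have hr0 : 0 ≤ r := le_trans hμ0 hr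
    have hdr := hden r hr0
    have hd0 := hden μ₀ hμ0
    refine le_trans gr (mul_le_mul' (ENNReal.ofReal_le_ofReal ?_)
      (measure_mono (hX.anti _ _ hτ0 ?_)))
    · apply pow_le_pow_left₀ (by positivity)
      rw [← hd, div_mul_eq_mul_div, ← add_div]
      apply div_le_div_of_nonneg_right _ hab.le
      nlinarith [mul_nonneg (sub_nonneg.2 hl) (sub_nonneg.2 hba)]
    · rw [div_le_div_iff₀ hd0 hdr]
      have : 0 ≤ a * t * b * (r - μ₀) := by
        have := sub_nonneg.2 hr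
        positivity
      nlinarith
  have htend : Filter.Tendsto (fun n : ℕ => ENNReal.ofReal
      ((((1 - μ₀) * b + μ₀ * a) / (a * b) + (a - b) / (a * b) * (1 / 2 : ℝ) ^ n) ^ 2)
      * volume (X (μ₀ * a * t / ((1 - μ₀) * b + μ₀ * a)))) Filter.atTop
      (nhds (ENNReal.ofReal ((((1 - μ₀) * b + μ₀ * a) / (a * b)) ^ 2)
        * volume (X (μ₀ * a * t / ((1 - μ₀) * b + μ₀ * a))))) := by
    refine ENNReal.Tendsto.mul_const ?_ (Or.inr hV)
    refine (ENNReal.continuous_ofReal.tendsto _).comp ?_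
    have h2 : Filter.Tendsto (fun n : ℕ => (1 / 2 : ℝ) ^ n) Filter.atTop (nhds 0) :=
      tendsto_pow_atTop_nhds_zero_of_lt_one (by norm_num) (by norm_num)
    have h3 := ((h2.const_mul ((a - b) / (a * b))).const_add
      (((1 - μ₀) * b + μ₀ * a) / (a * b))).pow 2
    simpa using h3
  exact ge_of_tendsto' htend hn

/-- Brunn-Minkowski concavity of the square root of the area along a level family, between
level `0` and any level of positive area. -/
theorem level_concave (hX : LevelFamily X) (t₁ t₂ : ℝ) (h1 : 0 < t₁) (h12 : t₁ ≤ t₂)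
    (hpos : volume (X t₂) ≠ 0) :
    (1 - t₁ / t₂) * Real.sqrt (volume (X 0)).toReal
      + t₁ / t₂ * Real.sqrt (volume (X t₂)).toReal ≤ Real.sqrt (volume (X t₁)).toReal := by
  have ht2 : 0 < t₂ := lt_of_lt_of_le h1 h12
  have hsub : X t₂ ⊆ X 0 := hX.anti 0 t₂ le_rfl ht2.le
  have hfin2 : volume (X t₂) ≠ ⊤ := ne_top_of_le_ne_top hX.fin (measure_mono hsub)
  have hfin1 : volume (X t₁) ≠ ⊤ :=
    ne_top_of_le_ne_top hX.fin (measure_mono (hX.anti 0 t₁ le_rfl h1.le))
  have hb2 : 0 < (volume (X t₂)).toReal := ENNReal.toReal_pos hpos hfin2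
  have hle : (volume (X t₂)).toReal ≤ (volume (X 0)).toReal :=
    ENNReal.toReal_mono hX.fin (measure_mono hsub)
  set a := Real.sqrt (volume (X 0)).toReal with ha_def
  set b := Real.sqrt (volume (X t₂)).toReal with hb_def
  have hb : 0 < b := Real.sqrt_pos.2 hb2
  have hba : b ≤ a := Real.sqrt_le_sqrt hle
  have ha : 0 < a := lt_of_lt_of_le hb hba
  have h0 : volume (X 0) = ENNReal.ofReal (a ^ 2) := by
    rw [ha_def, Real.sq_sqrt ENNReal.toReal_nonneg, ENNReal.ofReal_toReal hX.fin]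
  have h2 : volume (X t₂) = ENNReal.ofReal (b ^ 2) := by
    rw [hb_def, Real.sq_sqrt ENNReal.toReal_nonneg, ENNReal.ofReal_toReal hfin2]
  have hlam0 : 0 < t₁ / t₂ := div_pos h1 ht2
  have hlam1 : t₁ / t₂ ≤ 1 := (div_le_one ht2).2 h12
  set lam := t₁ / t₂ with hlam
  have hL : 0 < (1 - lam) * a + lam * b := by
    have : 0 ≤ (1 - lam) * a := mul_nonneg (sub_nonneg.2 hlam1) ha.le
    have : 0 < lam * b := mul_pos hlam0 hb
    linarith
  have hμ0 : 0 ≤ lam * b / ((1 - lam) * a + lam * b) := by positivity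
  have hμ1 : lam * b / ((1 - lam) * a + lam * b) ≤ 1 := by
    rw [div_le_one hL]
    have : 0 ≤ (1 - lam) * a := mul_nonneg (sub_nonneg.2 hlam1) ha.le
    linarith
  have key := v_ge_one hX a b t₂ ha hb ht2 hba h0 h2 _ hμ0 hμ1
  have hLne := hL.ne'
  have hane := ha.ne'
  have hbne := hb.ne'
  have ht2ne := ht2.ne'
  have e1 : (1 - lam * b / ((1 - lam) * a + lam * b)) * b
      + lam * b / ((1 - lam) * a + lam * b) * a = a * b / ((1 - lam) * a + lam * b) := by
    field_simp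
    ring
  have e2 : lam * b / ((1 - lam) * a + lam * b) * a * t₂
      / (a * b / ((1 - lam) * a + lam * b)) = t₁ := by
    have e2' : lam * b / ((1 - lam) * a + lam * b) * a * t₂
        / (a * b / ((1 - lam) * a + lam * b)) = lam * t₂ := by
      field_simp
    rw [e2', hlam]
    field_simp
  have e3 : a * b / ((1 - lam) * a + lam * b) / (a * b) = 1 / ((1 - lam) * a + lam * b) := by
    field_simp
  rw [e1, e2, e3] at key
  rw [← ENNReal.ofReal_toReal hfin1, ← ENNReal.ofReal_mul (by positivity),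
    ENNReal.one_le_ofReal] at key
  apply Real.le_sqrt_of_sq_le
  rw [one_div, inv_pow, inv_mul_eq_div, le_div_iff₀ (by positivity), one_mul] at key
  exact key

end core

end Vale.Agent.Lib.P243.Cap
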