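import Mathlib

/-!
Bang's plank theorem in a real inner product space, in the form needed for
the cylinder covering problem: finitely many closed planks, and then
generalized planks (preimages of arbitrary subsets of the real line).
-/

namespace Vale.Agent.Lib.P243

open scoped RealInnerProductSpace
open MeasureTheory Set

variable {F : Type*} [NormedAddCommGroup F] [InnerProductSpace ℝ F]

/-- The sign attached to a boolean. -/
def sg (b : Bool) : ℝ := if b then 1 else -1

lemma sg_mul_self (b : Bool) : sg b * sg b = 1 := by cases b <;> simp [sg]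

lemma sg_not (b : Bool) : sg (!b) = - sg b := by cases b <;> simp [sg]

lemma le_abs_of_sg (b : Bool) (t : ℝ) : sg b * t ≤ |t| := by
  cases b
  · simpa [sg] using neg_le_abs t
  · simpa [sg] using le_abs_self t

/-- Width property relative to a subspace `V`: every vector of `V` of norm at most `w`
is a difference of two points of `K`. -/
def HasWidth (K : Set F) (V : Submodule ℝ F) (w : ℝ) : Prop :=
  ∀ a ∈ V, ‖a‖ ≤ w → ∃ p ∈ K, ∃ q ∈ K, p - q = a

/-- First half of Bang's argument: a translate of the set of all signed sums lies in `K`. -/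
theorem bang_points {ι : Type*} (V : Submodule ℝ F) (n : ι → F) (ρ : ι → ℝ) (s : Finset ι) :
    ∀ (K : Set F) (w : ℝ), Convex ℝ K → HasWidth K V w →
      (∀ k ∈ s, n k ∈ V) → (∀ k ∈ s, ‖n k‖ = 1) → (∀ k ∈ s, 0 ≤ ρ k) →
      2 * ∑ k ∈ s, ρ k ≤ w →
      ∃ x, ∀ ε : ι → Bool, x + ∑ k ∈ s, (sg (ε k) * ρ k) • n k ∈ K := by
  classical
  induction s using Finset.induction_on with
  | empty =>
    intro K w hK hW _ _ _ hw
    simp only [Finset.sum_empty, mul_zero] at hw
    obtain ⟨p, hp, q, hq, hpq⟩ := hW 0 V.zero_mem (by simpa using hw)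
    exact ⟨p, fun ε => by simpa using hp⟩
  | insert k s hk ih =>
    intro K w hK hW hnV hn hρ hw
    rw [Finset.sum_insert hk] at hw
    have hρk : 0 ≤ ρ k := hρ k (Finset.mem_insert_self k s)
    have hsum : 0 ≤ ∑ j ∈ s, ρ j :=
      Finset.sum_nonneg fun j hj => hρ j (Finset.mem_insert_of_mem hj)
    have hw0 : 0 ≤ w := by linarith
    have hnk : ‖n k‖ = 1 := hn k (Finset.mem_insert_self k s)
    have hnkV : n k ∈ V := hnV k (Finset.mem_insert_self k s)
    obtain ⟨p₀, hp₀, q₀, hq₀, hpq₀⟩ := hW (w • n k) (V.smul_mem _ hnkV)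
      (by rw [norm_smul, hnk, mul_one, Real.norm_of_nonneg hw0])
    set a : F := ρ k • n k with ha
    set lam : ℝ := 2 * ρ k / w with hlam
    have hlam0 : 0 ≤ lam := div_nonneg (by linarith) hw0
    have hlam1 : lam ≤ 1 := div_le_one_of_le₀ (by linarith) hw0
    have hlamw : lam * w = 2 * ρ k := by
      rcases eq_or_lt_of_le hw0 with h | h
      · have : ρ k = 0 := by linarith
        rw [← h, this]; simp
      · rw [hlam, div_mul_cancel₀ _ h.ne']
    have h2a : (2 : ℝ) • a = lam • (p₀ - q₀) := by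
      rw [hpq₀, ha, smul_smul, smul_smul, hlamw]
    let K' : Set F := {x | x + a ∈ K ∧ x - a ∈ K}
    have hK' : Convex ℝ K' := by
      have h1 : Convex ℝ ((fun x => x + a) ⁻¹' K) := hK.translate_preimage_left a
      have h2 : Convex ℝ ((fun x => x + (-a)) ⁻¹' K) := hK.translate_preimage_left (-a)
      have : K' = ((fun x => x + a) ⁻¹' K) ∩ ((fun x => x + (-a)) ⁻¹' K) := by
        ext x; simp [K', sub_eq_add_neg]
      rw [this]; exact h1.inter h2
    have hφ : ∀ z ∈ K, (1 - lam) • z + lam • p₀ - a ∈ K' := by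
      intro z hz
      refine ⟨?_, ?_⟩
      · have := hK hz hp₀ (sub_nonneg.2 hlam1) hlam0 (by ring)
        simpa using this
      · have := hK hz hq₀ (sub_nonneg.2 hlam1) hlam0 (by ring)
        have e : (1 - lam) • z + lam • p₀ - a - a = (1 - lam) • z + lam • q₀ := by
          have : lam • p₀ = lam • q₀ + (2 : ℝ) • a := by
            rw [h2a, smul_sub]; abel
          rw [this, two_smul]; abel
        rw [e]; exact this
    have hW' : HasWidth K' V (w - 2 * ρ k) := by
      intro b hb hbn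
      rcases eq_or_lt_of_le (norm_nonneg b) with h0 | hpos
      · have hb0 : b = 0 := norm_eq_zero.1 h0.symm
        exact ⟨_, hφ p₀ hp₀, _, hφ p₀ hp₀, by rw [hb0, sub_self]⟩
      · have hwpos : 0 < w := by linarith
        have h1lam : 0 < 1 - lam := by
          have : (1 - lam) * w = w - 2 * ρ k := by rw [sub_mul, hlamw, one_mul]
          by_contra hcon
          have : (1 - lam) * w ≤ 0 := mul_nonpos_of_nonpos_of_nonneg (not_lt.1 hcon) hw0
          linarith
        have hb' : ‖(1 - lam)⁻¹ • b‖ ≤ w := by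
          rw [norm_smul, Real.norm_of_nonneg (inv_nonneg.2 h1lam.le), inv_mul_le_iff₀ h1lam]
          have : (1 - lam) * w = w - 2 * ρ k := by rw [sub_mul, hlamw, one_mul]
          linarith
        obtain ⟨z, hz, z', hz', hzz⟩ := hW _ (V.smul_mem _ hb) hb'
        refine ⟨_, hφ z hz, _, hφ z' hz', ?_⟩
        have : (1 - lam) • z + lam • p₀ - a - ((1 - lam) • z' + lam • p₀ - a)
            = (1 - lam) • (z - z') := by rw [smul_sub]; abel
        rw [this, hzz, smul_smul, mul_inv_cancel₀ h1lam.ne', one_smul]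
    obtain ⟨x, hx⟩ := ih K' (w - 2 * ρ k) hK' hW'
      (fun j hj => hnV j (Finset.mem_insert_of_mem hj))
      (fun j hj => hn j (Finset.mem_insert_of_mem hj))
      (fun j hj => hρ j (Finset.mem_insert_of_mem hj)) (by linarith)
    refine ⟨x, fun ε => ?_⟩
    rw [Finset.sum_insert hk]
    obtain ⟨h1, h2⟩ := hx ε
    cases hε : ε k
    · have : x + ((sg false * ρ k) • n k + ∑ j ∈ s, (sg (ε j) * ρ j) • n j)
          = x + ∑ j ∈ s, (sg (ε j) * ρ j) • n j - a := by
        simp only [sg, ha]; simp; abel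
      rw [this]; exact h2
    · have : x + ((sg true * ρ k) • n k + ∑ j ∈ s, (sg (ε j) * ρ j) • n j)
          = x + ∑ j ∈ s, (sg (ε j) * ρ j) • n j + a := by
        simp only [sg, ha]; simp; abel
      rw [this]; exact h1

/-- Second half (Bang's lemma): some signed sum avoids the interior of every plank. -/
theorem bang_choice {ι : Type*} [Fintype ι] (n : ι → F) (ρ c : ι → ℝ) (x : F)
    (hn : ∀ k, ‖n k‖ = 1) (hρ : ∀ k, 0 < ρ k) :
    ∃ ε : ι → Bool, ∀ k, ρ k ≤ abs (⟪x + (∑ j, (sg (ε j) * ρ j) • n j), n k⟫ - c k) := by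
  classical
  let T : (ι → Bool) → F := fun ε => ∑ j, (sg (ε j) * ρ j) • n j
  let L : (ι → Bool) → ℝ := fun ε => ∑ j, sg (ε j) * ρ j * (⟪x, n j⟫ - c j)
  let G : (ι → Bool) → ℝ := fun ε => ‖T ε‖ ^ 2 + 2 * L ε
  obtain ⟨ε, -, hε⟩ := Finset.exists_max_image Finset.univ G ⟨fun _ => true, Finset.mem_univ _⟩
  refine ⟨ε, fun k => ?_⟩
  set ε' : ι → Bool := Function.update ε k (!ε k) with hε'
  have hk' : sg (ε' k) = - sg (ε k) := by simp [hε', sg_not]
  have hj' : ∀ j, j ≠ k → ε' j = ε j := fun j hj => by simp [hε', Function.update_of_ne hj]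
  have hT : T ε' = T ε - (2 * sg (ε k) * ρ k) • n k := by
    have h1 : T ε' - T ε = ∑ j, ((sg (ε' j) - sg (ε j)) * ρ j) • n j := by
      simp only [T, ← Finset.sum_sub_distrib, ← sub_smul, sub_mul]
    have h2 : ∑ j, ((sg (ε' j) - sg (ε j)) * ρ j) • n j
        = ((sg (ε' k) - sg (ε k)) * ρ k) • n k := by
      apply Finset.sum_eq_single k
      · intro j _ hj
        rw [hj' j hj]; simp
      · intro h; exact absurd (Finset.mem_univ k) h
    rw [h2, hk'] at h1
    have h3 : T ε' = T ε + ((-sg (ε k) - sg (ε k)) * ρ k) • n k := by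
      rw [← h1]; abel
    rw [h3, sub_eq_add_neg (T ε), ← neg_smul]
    congr 2; ring
  have hL : L ε' = L ε - 2 * sg (ε k) * ρ k * (⟪x, n k⟫ - c k) := by
    have h1 : L ε' - L ε = ∑ j, (sg (ε' j) - sg (ε j)) * ρ j * (⟪x, n j⟫ - c j) := by
      simp only [L, ← Finset.sum_sub_distrib, sub_mul]
    have h2 : ∑ j, (sg (ε' j) - sg (ε j)) * ρ j * (⟪x, n j⟫ - c j)
        = (sg (ε' k) - sg (ε k)) * ρ k * (⟪x, n k⟫ - c k) := by
      apply Finset.sum_eq_single k
      · intro j _ hj
        rw [hj' j hj]; simp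
      · intro h; exact absurd (Finset.mem_univ k) h
    rw [h2, hk'] at h1
    linarith
  have hmax : G ε' ≤ G ε := hε ε' (Finset.mem_univ _)
  have hnorm : ‖T ε - (2 * sg (ε k) * ρ k) • n k‖ ^ 2
      = ‖T ε‖ ^ 2 - 2 * (2 * sg (ε k) * ρ k) * ⟪T ε, n k⟫ + (2 * sg (ε k) * ρ k) ^ 2 := by
    rw [norm_sub_sq_real, inner_smul_right, norm_smul, hn k, mul_one, Real.norm_eq_abs, sq_abs]
    ring
  have hinner : ⟪x + T ε, n k⟫ = ⟪x, n k⟫ + ⟪T ε, n k⟫ := inner_add_left _ _ _
  have hss := sg_mul_self (ε k)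
  have key : ρ k ≤ sg (ε k) * (⟪x + T ε, n k⟫ - c k) := by
    have h4 : 0 ≤ 4 * ρ k * (sg (ε k) * (⟪x + T ε, n k⟫ - c k) - ρ k) := by
      have : G ε - G ε' = 4 * ρ k * (sg (ε k) * (⟪x + T ε, n k⟫ - c k) - ρ k) := by
        simp only [G]
        rw [hT, hL, hnorm, hinner]
        have : (2 * sg (ε k) * ρ k) ^ 2 = 4 * ρ k ^ 2 := by
          have : (2 * sg (ε k) * ρ k) ^ 2 = 4 * (sg (ε k) * sg (ε k)) * ρ k ^ 2 := by ring
          rw [this, hss]; ring
        rw [this]; ring
      linarith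
    have h5 : 0 ≤ sg (ε k) * (⟪x + T ε, n k⟫ - c k) - ρ k := by
      by_contra hcon
      have : 4 * ρ k * (sg (ε k) * (⟪x + T ε, n k⟫ - c k) - ρ k) < 0 :=
        mul_neg_of_pos_of_neg (by linarith [hρ k]) (not_le.1 hcon)
      linarith
    linarith
  exact key.trans (le_abs_of_sg _ _)

/-- Bang's theorem for finitely many closed planks: if the total width is smaller than the
width of `K` (relative to `V`, which contains all the normals), some point of `K` is in no plank. -/
theorem bang_closed {ι : Type*} [Fintype ι] (V : Submodule ℝ F) (K : Set F) (w : ℝ)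
    (hK : Convex ℝ K) (hW : HasWidth K V w) (n : ι → F) (r c : ι → ℝ)
    (hnV : ∀ k, n k ∈ V) (hn : ∀ k, ‖n k‖ = 1) (hr : ∀ k, 0 ≤ r k)
    (hw : 2 * ∑ k, r k < w) :
    ∃ y ∈ K, ∀ k, r k < abs (⟪y, n k⟫ - c k) := by
  classical
  set N : ℝ := (Fintype.card ι : ℝ) with hN
  have hN0 : 0 ≤ N := Nat.cast_nonneg _
  set δ : ℝ := (w - 2 * ∑ k, r k) / (2 * (N + 1)) with hδ
  have hδpos : 0 < δ := div_pos (by linarith) (by linarith)
  have hsum : 2 * ∑ k, (r k + δ) ≤ w := by
    rw [Finset.sum_add_distrib, Finset.sum_const, Finset.card_univ, nsmul_eq_mul]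
    have : 2 * (N * δ) ≤ w - 2 * ∑ k, r k := by
      rw [hδ]
      have h1 : 2 * (N * ((w - 2 * ∑ k, r k) / (2 * (N + 1))))
          = (w - 2 * ∑ k, r k) * (N / (N + 1)) := by field_simp
      rw [h1]
      have h2 : N / (N + 1) ≤ 1 := by rw [div_le_one (by linarith)]; linarith
      nlinarith
    linarith
  obtain ⟨x, hx⟩ := bang_points V n (fun k => r k + δ) Finset.univ K w hK hW
    (fun k _ => hnV k) (fun k _ => hn k) (fun k _ => by linarith [hr k]) hsum
  obtain ⟨ε, hε⟩ := bang_choice n (fun k => r k + δ) c x hn (fun k => by linarith [hr k])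
  exact ⟨_, hx ε, fun k => by linarith [hε k]⟩

/-- Grid cells of mesh `η` indexed by a finite set of integers have total length at most the
measure of any set containing them. -/
lemma card_cells_le (η : ℝ) (hη : 0 < η) (U : Set ℝ) (hU : volume U ≠ ⊤) (J : Finset ℤ)
    (hJ : ∀ j ∈ J, Icc ((j : ℝ) * η) (((j : ℝ) + 1) * η) ⊆ U) :
    (J.card : ℝ) * η ≤ (volume U).toReal := by
  have hdisj : (J : Set ℤ).PairwiseDisjoint
      (fun j : ℤ => Ico ((j : ℝ) * η) (((j : ℝ) + 1) * η)) := by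
    intro j _ j' _ hjj'
    refine Set.disjoint_left.2 fun x hx hx' => hjj' ?_
    have h1 : (j : ℝ) < (j' : ℝ) + 1 := by
      have := lt_of_le_of_lt hx.1 hx'.2
      exact lt_of_mul_lt_mul_right this hη.le
    have h2 : (j' : ℝ) < (j : ℝ) + 1 := by
      have := lt_of_le_of_lt hx'.1 hx.2
      exact lt_of_mul_lt_mul_right this hη.le
    have h1' : j < j' + 1 := by exact_mod_cast h1
    have h2' : j' < j + 1 := by exact_mod_cast h2
    omega
  have hmeas : volume (⋃ j ∈ J, Ico ((j : ℝ) * η) (((j : ℝ) + 1) * η))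
      = ∑ j ∈ J, volume (Ico ((j : ℝ) * η) (((j : ℝ) + 1) * η)) :=
    measure_biUnion_finset hdisj (fun j _ => measurableSet_Ico)
  have hsub : (⋃ j ∈ J, Ico ((j : ℝ) * η) (((j : ℝ) + 1) * η)) ⊆ U := by
    intro x hx
    simp only [mem_iUnion] at hx
    obtain ⟨j, hj, hxj⟩ := hx
    exact hJ j hj (Ico_subset_Icc_self hxj)
  have hle := measure_mono (μ := volume) hsub
  rw [hmeas] at hle
  have hcell : ∀ j ∈ J, volume (Ico ((j : ℝ) * η) (((j : ℝ) + 1) * η)) = ENNReal.ofReal η := by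
    intro j _
    rw [Real.volume_Ico]; congr 1; ring
  rw [Finset.sum_congr rfl hcell, Finset.sum_const, nsmul_eq_mul] at hle
  have h3 : ENNReal.ofReal ((J.card : ℝ) * η) ≤ volume U := by
    rw [ENNReal.ofReal_mul (Nat.cast_nonneg _), ENNReal.ofReal_natCast]; exact hle
  exact (ENNReal.ofReal_le_iff_le_toReal hU).1 h3

/-- Bang's theorem for generalized planks: if the compact convex set `K` is covered by finitely
many sets of the form `{x | ⟪x, n i⟫ ∈ S i}` with arbitrary `S i ⊆ ℝ` and unit vectors `n i ∈ V`,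
then the total outer Lebesgue measure of the `S i` is at least the width of `K` relative to `V`. -/
theorem bang_generalized (V : Submodule ℝ F) (K : Set F) (w : ℝ)
    (hKc : IsCompact K) (hK : Convex ℝ K) (hW : HasWidth K V w)
    {m : ℕ} (n : Fin m → F) (hnV : ∀ i, n i ∈ V) (hn : ∀ i, ‖n i‖ = 1)
    (S : Fin m → Set ℝ) (hcov : ∀ x ∈ K, ∃ i, ⟪x, n i⟫ ∈ S i) :
    ENNReal.ofReal w ≤ ∑ i, volume (S i) := by
  classical
  by_contra hlt
  rw [not_le] at hlt
  have hwpos : 0 < w := by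
    by_contra h
    rw [ENNReal.ofReal_of_nonpos (not_lt.1 h)] at hlt
    exact not_lt_bot hlt
  have hfin : ∀ i, volume (S i) ≠ ⊤ := fun i =>
    (ENNReal.sum_lt_top.1 (hlt.trans ENNReal.ofReal_lt_top) i (Finset.mem_univ i)).ne
  set s : ℝ := ∑ i, (volume (S i)).toReal with hs
  have hs_eq : ∑ i, volume (S i) = ENNReal.ofReal s := by
    rw [hs, ENNReal.ofReal_sum_of_nonneg (fun i _ => ENNReal.toReal_nonneg)]
    exact Finset.sum_congr rfl fun i _ => (ENNReal.ofReal_toReal (hfin i)).symm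
  have hsw : s < w := by
    rw [hs_eq] at hlt
    exact (ENNReal.ofReal_lt_ofReal_iff hwpos).1 hlt
  set ε : ℝ := (w - s) / (2 * ((m : ℝ) + 1)) with hε
  have hm0 : (0 : ℝ) ≤ (m : ℝ) := Nat.cast_nonneg _
  have hεpos : 0 < ε := div_pos (by linarith) (by linarith)
  have hεm : (m : ℝ) * ε < w - s := by
    rw [hε]
    have h1 : (m : ℝ) * ((w - s) / (2 * ((m : ℝ) + 1)))
        = (w - s) * ((m : ℝ) / (2 * ((m : ℝ) + 1))) := by field_simp
    rw [h1]
    have h2 : (m : ℝ) / (2 * ((m : ℝ) + 1)) < 1 := by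
      rw [div_lt_one (by linarith)]; linarith
    nlinarith
  have hex : ∀ i, ∃ U : Set ℝ, U ⊇ S i ∧ IsOpen U ∧ volume U < volume (S i) + ENNReal.ofReal ε :=
    fun i => Set.exists_isOpen_lt_add (S i) (hfin i) (by simpa using hεpos)
  choose U hSU hUo hUlt using hex
  have hUfin : ∀ i, volume (U i) ≠ ⊤ := fun i =>
    ((hUlt i).trans (ENNReal.add_lt_top.2 ⟨(hfin i).lt_top, ENNReal.ofReal_lt_top⟩)).ne
  have hUreal : ∀ i, (volume (U i)).toReal ≤ (volume (S i)).toReal + ε := by
    intro i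
    have := ENNReal.toReal_mono
      (ENNReal.add_lt_top.2 ⟨(hfin i).lt_top, ENNReal.ofReal_lt_top⟩).ne (hUlt i).le
    rwa [ENNReal.toReal_add (hfin i) ENNReal.ofReal_ne_top, ENNReal.toReal_ofReal hεpos.le] at this
  have hUsum : ∑ i, (volume (U i)).toReal < w := by
    have : ∑ i, (volume (U i)).toReal ≤ ∑ i, ((volume (S i)).toReal + ε) :=
      Finset.sum_le_sum fun i _ => hUreal i
    rw [Finset.sum_add_distrib, Finset.sum_const, Finset.card_univ, Fintype.card_fin,
      nsmul_eq_mul] at this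
    linarith
  -- Lebesgue number
  have hGo : ∀ i, IsOpen {x : F | ⟪x, n i⟫ ∈ U i} := fun i =>
    (hUo i).preimage (continuous_id.inner continuous_const)
  have hGcov : K ⊆ ⋃ i, {x : F | ⟪x, n i⟫ ∈ U i} := by
    intro x hx
    obtain ⟨i, hi⟩ := hcov x hx
    exact mem_iUnion.2 ⟨i, hSU i hi⟩
  obtain ⟨δ, hδpos, hδ⟩ := lebesgue_number_lemma_of_metric hKc hGo hGcov
  obtain ⟨R, hR⟩ := hKc.isBounded.exists_norm_le
  set η : ℝ := δ / 2 with hη
  have hηpos : 0 < η := by positivity
  set Nn : ℤ := ⌈R / η⌉ + 1 with hNn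
  let T : Fin m → Finset ℤ := fun i =>
    (Finset.Icc (-Nn) Nn).filter (fun j => Icc ((j : ℝ) * η) (((j : ℝ) + 1) * η) ⊆ U i)
  have hTcard : ∀ i, ((T i).card : ℝ) * η ≤ (volume (U i)).toReal := fun i =>
    card_cells_le η hηpos (U i) (hUfin i) (T i) (fun j hj => (Finset.mem_filter.1 hj).2)
  have hplanks : 2 * ∑ p : (Σ i : Fin m, ↥(T i)), η / 2 < w := by
    rw [Fintype.sum_sigma]
    have : ∀ i : Fin m, ∑ _a : ↥(T i), η / 2 = ((T i).card : ℝ) * η / 2 := by
      intro i
      rw [Finset.sum_const, Finset.card_univ, Fintype.card_coe, nsmul_eq_mul]; ring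
    rw [Finset.sum_congr rfl fun i _ => this i, ← Finset.sum_div]
    have : ∑ i, ((T i).card : ℝ) * η ≤ ∑ i, (volume (U i)).toReal :=
      Finset.sum_le_sum fun i _ => hTcard i
    linarith
  obtain ⟨y, hyK, hy⟩ := bang_closed V K w hK hW
    (fun p : (Σ i : Fin m, ↥(T i)) => n p.1) (fun _ => η / 2)
    (fun p => (((p.2 : ℤ) : ℝ) + 1 / 2) * η) (fun p => hnV p.1) (fun p => hn p.1)
    (fun _ => by positivity) hplanks
  obtain ⟨i, hi⟩ := hδ y hyK
  set t : ℝ := ⟪y, n i⟫ with ht
  set j : ℤ := ⌊t / η⌋ with hj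
  have hj1 : (j : ℝ) * η ≤ t := by
    have := Int.floor_le (t / η)
    rwa [le_div_iff₀ hηpos] at this
  have hj2 : t < ((j : ℝ) + 1) * η := by
    have := Int.lt_floor_add_one (t / η)
    rwa [div_lt_iff₀ hηpos] at this
  have htR : |t| ≤ R := by
    have := abs_real_inner_le_norm y (n i)
    rw [hn i, mul_one] at this
    exact this.trans (hR y hyK)
  have hjT : j ∈ T i := by
    refine Finset.mem_filter.2 ⟨Finset.mem_Icc.2 ⟨?_, ?_⟩, ?_⟩
    · have h1 : -(R / η) ≤ t / η := by
        rw [← neg_div]; exact div_le_div_of_nonneg_right (neg_le_of_abs_le htR) hηpos.le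
      have h2 : (t / η) < (j : ℝ) + 1 := Int.lt_floor_add_one (t / η)
      have h3 : R / η ≤ (⌈R / η⌉ : ℝ) := Int.le_ceil _
      have h4 : -((⌈R / η⌉ : ℤ) : ℝ) < (j : ℝ) + 1 := by linarith
      have h5 : -⌈R / η⌉ < j + 1 := by exact_mod_cast h4
      omega
    · have h1 : t / η ≤ R / η := div_le_div_of_nonneg_right (le_of_abs_le htR) hηpos.le
      have h2 : (j : ℝ) ≤ t / η := Int.floor_le (t / η)
      have h3 : R / η ≤ (⌈R / η⌉ : ℝ) := Int.le_ceil _
      have h4 : (j : ℝ) ≤ ((⌈R / η⌉ : ℤ) : ℝ) := by linarith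
      have h5 : j ≤ ⌈R / η⌉ := by exact_mod_cast h4
      omega
    · intro x hx
      have hxt : |x - t| < δ := by
        rw [abs_lt]
        constructor <;> [skip; skip] <;> nlinarith [hx.1, hx.2]
      have hmem : y + (x - t) • n i ∈ Metric.ball y δ := by
        rw [mem_ball_iff_norm, add_sub_cancel_left, norm_smul, hn i, mul_one]
        exact hxt
      have := hi hmem
      change ⟪y + (x - t) • n i, n i⟫ ∈ U i at this
      rw [inner_add_left, inner_smul_left, real_inner_self_eq_norm_sq, hn i] at this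
      simpa [← ht] using this
  have hbad := hy ⟨i, ⟨j, hjT⟩⟩
  simp only at hbad
  have : |t - ((j : ℝ) + 1 / 2) * η| ≤ η / 2 := by
    rw [abs_le]; constructor <;> nlinarith
  linarith

end Vale.Agent.Lib.P243
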