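import Mathlib

/-!
One-dimensional lemma for the capture bound: a decreasing profile `A` on `[0, ∞)` whose square
root is concave between level `0` and every positive level, truncated at height `b`, keeps at
most the fraction `3 β - 2 β ^ (3 / 2)` of its integral, where `β = b / A 0`.
-/

namespace Vale.Agent.Lib.P243.Cap

open MeasureTheory Set ENNReal

lemma integral_sq_lin (P c a b : ℝ) (hc : c ≠ 0) :
    ∫ t in a..b, (P - c * t) ^ 2 = c⁻¹ * (((P - c * a) ^ 3 - (P - c * b) ^ 3) / 3) := by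
  have h := intervalIntegral.integral_comp_sub_mul (fun x : ℝ => x ^ 2) hc P (a := a) (b := b)
  rw [h, integral_pow]
  norm_num

lemma lintegral_sq_lin (P c a b : ℝ) (hc : c ≠ 0) (hab : a ≤ b) :
    ∫⁻ t in Ioc a b, ENNReal.ofReal ((P - c * t) ^ 2)
      = ENNReal.ofReal (c⁻¹ * (((P - c * a) ^ 3 - (P - c * b) ^ 3) / 3)) := by
  rw [← integral_sq_lin P c a b hc, intervalIntegral.integral_of_le hab,
    ofReal_integral_eq_lintegral_ofReal]
  · have hcont : Continuous (fun t : ℝ => (P - c * t) ^ 2) := by fun_prop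
    exact hcont.integrableOn_Ioc
  · exact Filter.Eventually.of_forall (fun t => sq_nonneg _)

lemma final_arith (ψ X Y B : ℝ) (xs I₁ : ℝ≥0∞) (hψ0 : 0 ≤ ψ) (hψ1 : ψ ≤ 1) (hX : 0 ≤ X)
    (hB : 0 ≤ B) (hid : B + (1 - ψ) * X = ψ * Y) (hxs : xs ≤ ENNReal.ofReal X)
    (hI : ENNReal.ofReal Y ≤ I₁) :
    ENNReal.ofReal B + xs ≤ ENNReal.ofReal ψ * (I₁ + xs) := by
  have h1 : ENNReal.ofReal (1 - ψ) + ENNReal.ofReal ψ = 1 := by
    rw [← ENNReal.ofReal_add (by linarith) hψ0]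
    simp
  calc ENNReal.ofReal B + xs
      = ENNReal.ofReal B + (ENNReal.ofReal (1 - ψ) + ENNReal.ofReal ψ) * xs := by
        rw [h1, one_mul]
    _ = ENNReal.ofReal B + ENNReal.ofReal (1 - ψ) * xs + ENNReal.ofReal ψ * xs := by
        rw [add_mul, add_assoc]
    _ ≤ ENNReal.ofReal B + ENNReal.ofReal (1 - ψ) * ENNReal.ofReal X + ENNReal.ofReal ψ * xs := by
        gcongr
    _ = ENNReal.ofReal (ψ * Y) + ENNReal.ofReal ψ * xs := by
        rw [← ENNReal.ofReal_mul (by linarith),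
          ← ENNReal.ofReal_add hB (mul_nonneg (by linarith) hX), hid]
    _ = ENNReal.ofReal ψ * (ENNReal.ofReal Y + xs) := by
        rw [ENNReal.ofReal_mul hψ0, mul_add]
    _ ≤ ENNReal.ofReal ψ * (I₁ + xs) := by
        gcongr

theorem one_dim (A : ℝ → ℝ≥0∞) (p b : ℝ) (hb0 : 0 ≤ b) (hbp : b < p)
    (hA0 : A 0 = ENNReal.ofReal p)
    (anti : ∀ s t, 0 ≤ s → s ≤ t → A t ≤ A s)
    (conc : ∀ t₁ t₂, 0 < t₁ → t₁ ≤ t₂ → A t₂ ≠ 0 →
      (1 - t₁ / t₂) * Real.sqrt (A 0).toReal + t₁ / t₂ * Real.sqrt (A t₂).toReal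
        ≤ Real.sqrt (A t₁).toReal)
    (bdd : ∃ H, ∀ t, H < t → A t = 0) :
    ∫⁻ t in Ioi (0 : ℝ), min (ENNReal.ofReal b) (A t)
      ≤ ENNReal.ofReal (3 * (b / p) - 2 * (b / p) * Real.sqrt (b / p))
        * ∫⁻ t in Ioi (0 : ℝ), A t := by
  have hp : 0 < p := lt_of_le_of_lt hb0 hbp
  rcases hb0.eq_or_lt with hb0' | hbpos
  · subst hb0'
    simp
  by_cases hcase : ∀ t, 0 < t → A t = 0
  · have h0 : ∫⁻ t in Ioi (0 : ℝ), min (ENNReal.ofReal b) (A t) = 0 := by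
      rw [← lintegral_zero (μ := volume.restrict (Ioi (0 : ℝ)))]
      apply setLIntegral_congr_fun measurableSet_Ioi
      intro t ht
      simp [hcase t ht]
    rw [h0]
    exact bot_le
  push_neg at hcase
  obtain ⟨t₀, ht₀, hAt₀⟩ := hcase
  obtain ⟨H, hH⟩ := bdd
  obtain ⟨P, hP⟩ : ∃ P, P = Real.sqrt p := ⟨_, rfl⟩
  obtain ⟨Q, hQ⟩ : ∃ Q, Q = Real.sqrt b := ⟨_, rfl⟩
  have hPpos : 0 < P := by rw [hP]; exact Real.sqrt_pos.2 hp
  have hQpos : 0 < Q := by rw [hQ]; exact Real.sqrt_pos.2 hbpos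
  have hQP : Q < P := by rw [hP, hQ]; exact Real.sqrt_lt_sqrt hbpos.le hbp
  have hPQ : 0 < P - Q := sub_pos.2 hQP
  have hP2 : P ^ 2 = p := by rw [hP]; exact Real.sq_sqrt hp.le
  have hQ2 : Q ^ 2 = b := by rw [hQ]; exact Real.sq_sqrt hbpos.le
  have hA0r : (A 0).toReal = p := by rw [hA0, ENNReal.toReal_ofReal hp.le]
  have hfin : ∀ t, 0 ≤ t → A t ≠ ⊤ := fun t ht =>
    ne_top_of_le_ne_top (by rw [hA0]; exact ENNReal.ofReal_ne_top) (anti 0 t le_rfl ht)
  obtain ⟨g, hg⟩ : ∃ g : ℝ → ℝ, g = fun t => Real.sqrt (A t).toReal := ⟨_, rfl⟩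
  have hg0 : ∀ t, 0 ≤ g t := fun t => by rw [hg]; exact Real.sqrt_nonneg _
  have hg2 : ∀ t, 0 ≤ t → A t = ENNReal.ofReal (g t ^ 2) := fun t ht => by
    rw [hg]
    simp only
    rw [Real.sq_sqrt ENNReal.toReal_nonneg, ENNReal.ofReal_toReal (hfin t ht)]
  have hconc : ∀ t₁ t₂, 0 < t₁ → t₁ ≤ t₂ → A t₂ ≠ 0 →
      (1 - t₁ / t₂) * P + t₁ / t₂ * g t₂ ≤ g t₁ := by
    intro t₁ t₂ h1 h2 h3
    have h := conc t₁ t₂ h1 h2 h3
    rw [hA0r, ← hP] at h
    rw [hg]
    exact h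
  have hmem : ∀ t, 0 ≤ t → (ENNReal.ofReal b ≤ A t ↔ Q ≤ g t) := by
    intro t ht
    rw [hg2 t ht, ENNReal.ofReal_le_ofReal_iff (sq_nonneg _), ← hQ2]
    exact pow_le_pow_iff_left₀ hQpos.le (hg0 t) two_ne_zero
  obtain ⟨Sb, hSbdef⟩ : ∃ Sb : Set ℝ, Sb = {t | 0 ≤ t ∧ ENNReal.ofReal b ≤ A t} := ⟨_, rfl⟩
  have hSbmem : ∀ t, t ∈ Sb ↔ (0 ≤ t ∧ ENNReal.ofReal b ≤ A t) := fun t => by rw [hSbdef]; rfl
  have h0S : (0 : ℝ) ∈ Sb := (hSbmem 0).2 ⟨le_rfl, by rw [hA0]; exact ENNReal.ofReal_le_ofReal hbp.le⟩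
  have hSb : BddAbove Sb := ⟨max H 0, fun t ht => by
    by_contra hlt
    push_neg at hlt
    have h1 : A t = 0 := hH t (lt_of_le_of_lt (le_max_left _ _) hlt)
    have h2 := ((hSbmem t).1 ht).2
    rw [h1] at h2
    simp at h2
    linarith⟩
  obtain ⟨tb, htb⟩ : ∃ tb, tb = sSup Sb := ⟨_, rfl⟩
  have hle_tb : ∀ t ∈ Sb, t ≤ tb := fun t ht => by rw [htb]; exact le_csSup hSb ht
  have htbpos : 0 < tb := by
    have h1 : 0 < t₀ * ((P - Q) / (2 * P)) := by positivity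
    have h2 : t₀ * ((P - Q) / (2 * P)) ≤ t₀ := by
      have : (P - Q) / (2 * P) ≤ 1 := by
        rw [div_le_one (by positivity)]
        linarith
      nlinarith
    have h3 := hconc _ t₀ h1 h2 hAt₀
    have h4 : t₀ * ((P - Q) / (2 * P)) / t₀ = (P - Q) / (2 * P) := by
      field_simp
    have h5 : Q ≤ g (t₀ * ((P - Q) / (2 * P))) := by
      rw [h4] at h3
      have e1 : 0 ≤ (P - Q) / (2 * P) * g t₀ := mul_nonneg (by positivity) (hg0 t₀)
      have e2 : (1 - (P - Q) / (2 * P)) * P = (P + Q) / 2 := by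
        field_simp
        ring
      linarith
    have h6 : t₀ * ((P - Q) / (2 * P)) ∈ Sb := (hSbmem _).2 ⟨h1.le, (hmem _ h1.le).2 h5⟩
    exact lt_of_lt_of_le h1 (hle_tb _ h6)
  obtain ⟨c, hc⟩ : ∃ c, c = (P - Q) / tb := ⟨_, rfl⟩
  have hcpos : 0 < c := by rw [hc]; exact div_pos hPQ htbpos
  have hctb : c * tb = P - Q := by
    rw [hc]
    field_simp
  -- the profile dominates the squared linear function before `tb`
  have claim2 : ∀ t ∈ Ioo 0 tb, ENNReal.ofReal ((P - c * t) ^ 2) ≤ A t := by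
    rintro t ⟨ht0, httb⟩
    have hev : ∀ᶠ s in nhdsWithin tb (Iio tb), P - (P - Q) * (t / s) ≤ g t := by
      filter_upwards [Ioo_mem_nhdsLT httb] with s hs
      obtain ⟨t', ht'S, hst'⟩ := exists_lt_of_lt_csSup ⟨0, h0S⟩ (by rw [← htb]; exact hs.2)
      have hs0 : 0 < s := lt_trans ht0 hs.1
      have ht'pos : 0 < t' := lt_trans hs0 hst'
      have hgt' : Q ≤ g t' := (hmem t' ht'pos.le).1 ((hSbmem t').1 ht'S).2
      have hAt' : A t' ≠ 0 := fun h => by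
        have h2 := ((hSbmem t').1 ht'S).2
        rw [h] at h2
        simp at h2
        linarith
      have h3 := hconc t t' ht0 (lt_trans hs.1 hst').le hAt'
      have e1 : t / t' * Q ≤ t / t' * g t' := mul_le_mul_of_nonneg_left hgt' (by positivity)
      have e2 : (P - Q) * (t / t') ≤ (P - Q) * (t / s) := by
        apply mul_le_mul_of_nonneg_left _ hPQ.le
        exact div_le_div_of_nonneg_left ht0.le hs0 hst'.le
      linarith
    have hcont : ContinuousAt (fun s : ℝ => P - (P - Q) * (t / s)) tb :=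
      continuousAt_const.sub (continuousAt_const.mul
        (continuousAt_const.div continuousAt_id htbpos.ne'))
    have hlim := le_of_tendsto (hcont.tendsto.mono_left nhdsWithin_le_nhds) hev
    have h5 : P - c * t ≤ g t := by
      have e3 : c * t = (P - Q) * (t / tb) := by
        rw [hc]
        ring
      rw [e3]
      exact hlim
    have h6 : 0 ≤ P - c * t := by
      nlinarith [mul_le_mul_of_nonneg_left httb.le hcpos.le]
    rw [hg2 t ht0.le]
    exact ENNReal.ofReal_le_ofReal (pow_le_pow_left₀ h6 h5 2)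
  -- the profile is dominated by the linear function after `tb`
  have claim3 : ∀ t, tb < t → A t ≠ 0 → g t ≤ P - c * t := by
    intro t ht hAt
    have htpos : 0 < t := lt_trans htbpos ht
    have hev : ∀ᶠ s in nhdsWithin tb (Ioi tb), (1 - s / t) * P + s / t * g t ≤ Q := by
      filter_upwards [Ioo_mem_nhdsGT ht] with s hs
      have hs0 : 0 < s := lt_trans htbpos hs.1
      have h3 := hconc s t hs0 hs.2.le hAt
      have hns : s ∉ Sb := fun h => absurd (hle_tb s h) (not_le.2 hs.1)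
      have h4 : ¬ (Q ≤ g s) := fun h => hns ((hSbmem s).2 ⟨hs0.le, (hmem s hs0.le).2 h⟩)
      linarith [not_le.1 h4]
    have hcont : Continuous (fun s : ℝ => (1 - s / t) * P + s / t * g t) := by fun_prop
    have hlim := le_of_tendsto ((hcont.tendsto tb).mono_left nhdsWithin_le_nhds) hev
    have h7 : tb / t * (c * t) = c * tb := by
      field_simp
    have h8 : 0 < tb / t := div_pos htbpos htpos
    by_contra hcon
    push_neg at hcon
    nlinarith [mul_pos h8 (sub_pos.2 hcon)]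
  obtain ⟨Ts, hTs⟩ : ∃ Ts, Ts = P / c := ⟨_, rfl⟩
  have hcTs : c * Ts = P := by
    rw [hTs]
    field_simp
  have hTs_tb : tb < Ts := by
    have : c * tb < c * Ts := by rw [hctb, hcTs]; linarith
    exact lt_of_mul_lt_mul_left this hcpos.le
  have claim3a : ∀ t, Ts ≤ t → A t = 0 := by
    intro t ht
    by_contra hne
    have h1 := claim3 t (lt_of_lt_of_le hTs_tb ht) hne
    have h2 : P - c * t ≤ 0 := by nlinarith [mul_le_mul_of_nonneg_left ht hcpos.le]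
    have h3 : g t = 0 := le_antisymm (le_trans h1 h2) (hg0 t)
    have ht0 : 0 ≤ t := le_trans (le_trans htbpos.le hTs_tb.le) ht
    rw [hg2 t ht0, h3] at hne
    simp at hne
  have claim3b : ∀ t ∈ Ioc tb Ts, A t ≤ ENNReal.ofReal ((P - c * t) ^ 2) := by
    rintro t ⟨ht1, ht2⟩
    by_cases hne : A t = 0
    · rw [hne]
      exact bot_le
    · have h1 := claim3 t ht1 hne
      rw [hg2 t (le_trans htbpos.le ht1.le)]
      exact ENNReal.ofReal_le_ofReal (pow_le_pow_left₀ (hg0 t) h1 2)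
  have split1 : ∀ f : ℝ → ℝ≥0∞, ∫⁻ t in Ioi (0 : ℝ), f t
      = (∫⁻ t in Ioc 0 tb, f t) + ∫⁻ t in Ioi tb, f t := by
    intro f
    rw [← Ioc_union_Ioi_eq_Ioi htbpos.le, lintegral_union measurableSet_Ioi]
    exact Set.disjoint_left.2 (fun x hx hx' => absurd hx.2 (not_le.2 hx'))
  have hxs : ∫⁻ t in Ioi tb, A t ≤ ENNReal.ofReal (c⁻¹ * (Q ^ 3 / 3)) := by
    rw [← Ioc_union_Ioi_eq_Ioi hTs_tb.le, lintegral_union measurableSet_Ioi
      (Set.disjoint_left.2 (fun x hx hx' => absurd hx.2 (not_le.2 hx')))]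
    have z : ∫⁻ t in Ioi Ts, A t = 0 := by
      rw [← lintegral_zero (μ := volume.restrict (Ioi Ts))]
      apply setLIntegral_congr_fun measurableSet_Ioi
      intro t ht
      exact claim3a t (le_of_lt ht)
    rw [z, add_zero]
    calc ∫⁻ t in Ioc tb Ts, A t
        ≤ ∫⁻ t in Ioc tb Ts, ENNReal.ofReal ((P - c * t) ^ 2) :=
          setLIntegral_mono' measurableSet_Ioc claim3b
      _ = ENNReal.ofReal (c⁻¹ * (Q ^ 3 / 3)) := by
          rw [lintegral_sq_lin P c tb Ts hcpos.ne' hTs_tb.le, hctb, hcTs]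
          congr 2
          ring
  have hI1 : ENNReal.ofReal (c⁻¹ * ((P ^ 3 - Q ^ 3) / 3)) ≤ ∫⁻ t in Ioc 0 tb, A t := by
    calc ENNReal.ofReal (c⁻¹ * ((P ^ 3 - Q ^ 3) / 3))
        = ∫⁻ t in Ioc 0 tb, ENNReal.ofReal ((P - c * t) ^ 2) := by
          rw [lintegral_sq_lin P c 0 tb hcpos.ne' htbpos.le, hctb]
          congr 2
          ring
      _ = ∫⁻ t in Ioo 0 tb, ENNReal.ofReal ((P - c * t) ^ 2) :=
          setLIntegral_congr Ioo_ae_eq_Ioc.symm
      _ ≤ ∫⁻ t in Ioo 0 tb, A t := setLIntegral_mono' measurableSet_Ioo claim2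
      _ ≤ ∫⁻ t in Ioc 0 tb, A t := lintegral_mono_set Ioo_subset_Ioc_self
  have hmin : ∫⁻ t in Ioi (0 : ℝ), min (ENNReal.ofReal b) (A t)
      ≤ ENNReal.ofReal (b * tb) + ∫⁻ t in Ioi tb, A t := by
    rw [split1]
    apply add_le_add
    · calc ∫⁻ t in Ioc 0 tb, min (ENNReal.ofReal b) (A t)
          ≤ ∫⁻ _t in Ioc 0 tb, ENNReal.ofReal b := lintegral_mono (fun t => min_le_left _ _)
        _ = ENNReal.ofReal (b * tb) := by
          rw [setLIntegral_const, Real.volume_Ioc, sub_zero, ENNReal.ofReal_mul hbpos.le]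
    · exact lintegral_mono (fun t => min_le_right _ _)
  have hψeq : 3 * (b / p) - 2 * (b / p) * Real.sqrt (b / p)
      = Q ^ 2 * (3 * P - 2 * Q) / P ^ 3 := by
    rw [Real.sqrt_div hbpos.le, ← hP, ← hQ, ← hP2, ← hQ2]
    field_simp
  have hP3 : 0 < P ^ 3 := by positivity
  have hψ0 : 0 ≤ Q ^ 2 * (3 * P - 2 * Q) / P ^ 3 := by
    apply div_nonneg _ hP3.le
    apply mul_nonneg (sq_nonneg _)
    linarith
  have hψ1 : Q ^ 2 * (3 * P - 2 * Q) / P ^ 3 ≤ 1 := by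
    rw [div_le_one hP3]
    nlinarith [mul_nonneg (sq_nonneg (P - Q)) (by linarith : (0 : ℝ) ≤ P + 2 * Q)]
  have hcinv : c⁻¹ = tb / (P - Q) := by
    rw [hc, inv_div]
  have hid : b * tb + (1 - Q ^ 2 * (3 * P - 2 * Q) / P ^ 3) * (c⁻¹ * (Q ^ 3 / 3))
      = Q ^ 2 * (3 * P - 2 * Q) / P ^ 3 * (c⁻¹ * ((P ^ 3 - Q ^ 3) / 3)) := by
    rw [hcinv, ← hQ2]
    have := hPQ.ne'
    field_simp
    ring
  rw [split1 A, hψeq]
  exact le_trans hmin (final_arith _ _ _ _ _ _ hψ0 hψ1 (by positivity)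
    (mul_nonneg hbpos.le htbpos.le) hid hxs hI1)

end Vale.Agent.Lib.P243.Cap
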