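import Mathlib
import Vale.Agent.Lib.P243.CapPL
import Vale.Agent.Lib.P243.CapBM
import Vale.Agent.Lib.P243.CapOneDim

/-!
The capture bound in the model space `ℝ × (ℝ × ℝ)`: a cylinder with axis along the first
coordinate and measurable base `S` captures at most the fraction `3 x - 2 x ^ (3 / 2)` of the
volume of a compact convex set `K`, where `x` is the area of `S` divided by the area of the
projection of `K` (capped at `1`).
-/

namespace Vale.Agent.Lib.P243.Cap

open MeasureTheory Set ENNReal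
open scoped Pointwise

/-- The capture function `ψ x = 3 x - 2 x √x`. -/
noncomputable def psi (x : ℝ) : ℝ := 3 * x - 2 * x * Real.sqrt x

section fiber

variable (K : Set (ℝ × (ℝ × ℝ)))

/-- The chord of `K` over the point `q` of the plane. -/
def fib (q : ℝ × ℝ) : Set ℝ := (fun ζ : ℝ => (ζ, q)) ⁻¹' K

/-- The length of the chord of `K` over `q`. -/
noncomputable def len (q : ℝ × ℝ) : ℝ := (volume (fib K q)).toReal

/-- The level sets of the chord length inside the projection of `K`. -/
def lev (t : ℝ) : Set (ℝ × ℝ) := {q | q ∈ Prod.snd '' K ∧ t ≤ len K q}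

variable {K}

lemma fib_subset (q : ℝ × ℝ) : fib K q ⊆ Prod.fst '' K := fun ζ hζ => ⟨(ζ, q), hζ, rfl⟩

lemma fib_compact (hK : IsCompact K) (q : ℝ × ℝ) : IsCompact (fib K q) :=
  IsCompact.of_isClosed_subset (hK.image continuous_fst)
    (hK.isClosed.preimage (by fun_prop)) (fib_subset q)

lemma fib_fin (hK : IsCompact K) (q : ℝ × ℝ) : volume (fib K q) ≠ ⊤ :=
  (fib_compact hK q).measure_lt_top.ne

lemma fib_nonempty {q : ℝ × ℝ} (hq : q ∈ Prod.snd '' K) : (fib K q).Nonempty := by
  obtain ⟨⟨ζ, q'⟩, hk, rfl⟩ := hq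
  exact ⟨ζ, hk⟩

lemma len_nonneg (q : ℝ × ℝ) : 0 ≤ len K q := ENNReal.toReal_nonneg

lemma len_measurable (hK : IsCompact K) : Measurable (len K) :=
  (measurable_measure_prodMk_right hK.measurableSet).ennreal_toReal

lemma ofReal_len (hK : IsCompact K) (q : ℝ × ℝ) : ENNReal.ofReal (len K q) = volume (fib K q) :=
  ENNReal.ofReal_toReal (fib_fin hK q)

lemma len_le (hK : IsCompact K) (q : ℝ × ℝ) : len K q ≤ (volume (Prod.fst '' K)).toReal :=
  ENNReal.toReal_mono (hK.image continuous_fst).measure_lt_top.ne (measure_mono (fib_subset q))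

lemma mem_snd_of_len_pos {q : ℝ × ℝ} (h : 0 < len K q) : q ∈ Prod.snd '' K := by
  by_contra hq
  have he : fib K q = ∅ := by
    ext ζ
    simp only [mem_empty_iff_false, iff_false]
    intro hζ
    exact hq ⟨(ζ, q), hζ, rfl⟩
  unfold len at h
  rw [he] at h
  simp at h

lemma len_concave (hK : IsCompact K) (hc : Convex ℝ K) {x y : ℝ × ℝ} (hx : x ∈ Prod.snd '' K)
    (hy : y ∈ Prod.snd '' K) (θ : ℝ) (hθ0 : 0 ≤ θ) (hθ1 : θ ≤ 1) :
    (1 - θ) * len K x + θ * len K y ≤ len K ((1 - θ) • x + θ • y) := by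
  have h1θ : 0 ≤ 1 - θ := sub_nonneg.2 hθ1
  have hsub : (1 - θ) • fib K x + θ • fib K y ⊆ fib K ((1 - θ) • x + θ • y) := by
    rintro _ ⟨_, ⟨ζ₁, h₁, rfl⟩, _, ⟨ζ₂, h₂, rfl⟩, rfl⟩
    have h := hc h₁ h₂ h1θ hθ0 (by ring)
    exact h
  have hbm := PL.bm_compact ((1 - θ) • fib K x) (θ • fib K y) ((fib_compact hK x).smul _)
    ((fib_compact hK y).smul _) ((fib_nonempty hx).smul_set) ((fib_nonempty hy).smul_set)
  have hv : ∀ (r : ℝ) (s : Set ℝ), 0 ≤ r → volume (r • s) = ENNReal.ofReal r * volume s := by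
    intro r s hr
    rw [Measure.addHaar_smul]
    simp [abs_of_nonneg hr]
  rw [hv _ _ h1θ, hv _ _ hθ0] at hbm
  have hle := le_trans hbm (measure_mono hsub)
  have h2 := ENNReal.toReal_mono (fib_fin hK _) hle
  rw [ENNReal.toReal_add (ENNReal.mul_ne_top ENNReal.ofReal_ne_top (fib_fin hK x))
    (ENNReal.mul_ne_top ENNReal.ofReal_ne_top (fib_fin hK y)), ENNReal.toReal_mul,
    ENNReal.toReal_mul, ENNReal.toReal_ofReal h1θ, ENNReal.toReal_ofReal hθ0] at h2
  exact h2

lemma lev_zero : lev K 0 = Prod.snd '' K := by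
  ext q
  exact ⟨fun h => h.1, fun h => ⟨h, len_nonneg q⟩⟩

lemma lev_eq_of_pos {t : ℝ} (ht : 0 < t) : {q | t ≤ len K q} = lev K t := by
  ext q
  exact ⟨fun h => ⟨mem_snd_of_len_pos (lt_of_lt_of_le ht h), h⟩, fun h => h.2⟩

lemma lev_meas (hK : IsCompact K) (t : ℝ) : MeasurableSet (lev K t) :=
  (hK.image continuous_snd).measurableSet.inter (len_measurable hK measurableSet_Ici)

lemma lev_family (hK : IsCompact K) (hc : Convex ℝ K) : LevelFamily (lev K) where
  meas := lev_meas hK
  anti := fun s t _ hst q hq => ⟨hq.1, le_trans hst hq.2⟩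
  conc := by
    intro s t θ _ _ hθ0 hθ1 x hx y hy
    have h1θ : 0 ≤ 1 - θ := sub_nonneg.2 hθ1
    refine ⟨?_, ?_⟩
    · obtain ⟨k₁, hk₁, rfl⟩ := hx.1
      obtain ⟨k₂, hk₂, rfl⟩ := hy.1
      exact ⟨(1 - θ) • k₁ + θ • k₂, hc hk₁ hk₂ h1θ hθ0 (by ring), rfl⟩
    · have h := len_concave hK hc hx.1 hy.1 θ hθ0 hθ1
      have h1 := mul_le_mul_of_nonneg_left hx.2 h1θ
      have h2 := mul_le_mul_of_nonneg_left hy.2 hθ0
      linarith
  fin := by
    rw [lev_zero]
    exact (hK.image continuous_snd).measure_lt_top.ne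

lemma vol_eq (hK : IsCompact K) : volume K = ∫⁻ t in Ioi (0 : ℝ), volume (lev K t) := by
  calc volume K = ∫⁻ q, volume (fib K q) := by
        rw [Measure.volume_eq_prod, Measure.prod_apply_symm hK.measurableSet]
        rfl
    _ = ∫⁻ q, ENNReal.ofReal (len K q) := lintegral_congr (fun q => (ofReal_len hK q).symm)
    _ = ∫⁻ t in Ioi (0 : ℝ), volume {q | t ≤ len K q} :=
        lintegral_eq_lintegral_meas_le volume (ae_of_all _ len_nonneg)
          (len_measurable hK).aemeasurable
    _ = ∫⁻ t in Ioi (0 : ℝ), volume (lev K t) :=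
        setLIntegral_congr_fun measurableSet_Ioi (fun t ht => by rw [lev_eq_of_pos ht])

lemma cap_le (hK : IsCompact K) (S : Set (ℝ × ℝ)) (hS : MeasurableSet S) :
    volume (K ∩ univ ×ˢ S) ≤ ∫⁻ t in Ioi (0 : ℝ), min (volume S) (volume (lev K t)) := by
  have hm : MeasurableSet (K ∩ (univ : Set ℝ) ×ˢ S) :=
    hK.measurableSet.inter (MeasurableSet.univ.prod hS)
  have hsec : ∀ q, volume ((fun ζ : ℝ => (ζ, q)) ⁻¹' (K ∩ (univ : Set ℝ) ×ˢ S))
      = S.indicator (fun q => ENNReal.ofReal (len K q)) q := by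
    intro q
    by_cases hq : q ∈ S
    · rw [indicator_of_mem hq, ofReal_len hK]
      congr 1
      ext ζ
      simp [fib, hq]
    · rw [indicator_of_notMem hq]
      have : (fun ζ : ℝ => (ζ, q)) ⁻¹' (K ∩ (univ : Set ℝ) ×ˢ S) = ∅ := by
        ext ζ
        simp [hq]
      rw [this, measure_empty]
  calc volume (K ∩ univ ×ˢ S)
      = ∫⁻ q, volume ((fun ζ : ℝ => (ζ, q)) ⁻¹' (K ∩ (univ : Set ℝ) ×ˢ S)) := by
        rw [Measure.volume_eq_prod, Measure.prod_apply_symm hm]
    _ = ∫⁻ q, S.indicator (fun q => ENNReal.ofReal (len K q)) q := lintegral_congr hsec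
    _ = ∫⁻ q in S, ENNReal.ofReal (len K q) := lintegral_indicator hS _
    _ = ∫⁻ t in Ioi (0 : ℝ), (volume.restrict S) {q | t ≤ len K q} :=
        lintegral_eq_lintegral_meas_le _ (ae_of_all _ len_nonneg)
          (len_measurable hK).aemeasurable
    _ ≤ ∫⁻ t in Ioi (0 : ℝ), min (volume S) (volume (lev K t)) := by
        apply setLIntegral_mono' measurableSet_Ioi
        intro t ht
        rw [lev_eq_of_pos ht, Measure.restrict_apply (lev_meas hK t)]
        exact le_min (measure_mono inter_subset_right) (measure_mono inter_subset_left)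

/-- The capture bound in the model space. -/
theorem model_capture (hK : IsCompact K) (hc : Convex ℝ K) (S : Set (ℝ × ℝ))
    (hS : MeasurableSet S) :
    volume (K ∩ univ ×ˢ S)
      ≤ ENNReal.ofReal (psi (min 1 (volume S / volume (Prod.snd '' K))).toReal) * volume K := by
  have hPfin : volume (Prod.snd '' K) ≠ ⊤ := (hK.image continuous_snd).measure_lt_top.ne
  by_cases h0 : volume (Prod.snd '' K) = 0
  · have hK0 : volume K = 0 := by
      apply measure_mono_null (t := (univ : Set ℝ) ×ˢ (Prod.snd '' K))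
      · intro k hk
        exact ⟨mem_univ _, k, hk, rfl⟩
      · rw [Measure.volume_eq_prod, Measure.prod_prod, h0, mul_zero]
    rw [hK0, mul_zero]
    exact le_of_eq (measure_mono_null inter_subset_left hK0)
  by_cases hle : volume (Prod.snd '' K) ≤ volume S
  · have h1 : min 1 (volume S / volume (Prod.snd '' K)) = 1 := by
      apply min_eq_left
      rw [ENNReal.le_div_iff_mul_le (Or.inl h0) (Or.inl hPfin), one_mul]
      exact hle
    have h2 : psi (1 : ℝ≥0∞).toReal = 1 := by
      unfold psi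
      norm_num
    rw [h1, h2, ENNReal.ofReal_one, one_mul]
    exact measure_mono inter_subset_left
  · push_neg at hle
    have hSfin : volume S ≠ ⊤ := (lt_of_lt_of_le hle le_top).ne
    have hbp : (volume S).toReal < (volume (Prod.snd '' K)).toReal :=
      (ENNReal.toReal_lt_toReal hSfin hPfin).2 hle
    have h1 : min 1 (volume S / volume (Prod.snd '' K)) = volume S / volume (Prod.snd '' K) := by
      apply min_eq_right
      exact ENNReal.div_le_of_le_mul (by rw [one_mul]; exact hle.le)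
    have hfam := lev_family hK hc
    have key := one_dim (fun t => volume (lev K t)) (volume (Prod.snd '' K)).toReal
      (volume S).toReal ENNReal.toReal_nonneg hbp
      (by rw [lev_zero, ENNReal.ofReal_toReal hPfin])
      (fun s t hs hst => measure_mono (hfam.anti s t hs hst))
      (fun t₁ t₂ h1 h12 hpos => level_concave hfam t₁ t₂ h1 h12 hpos)
      ⟨(volume (Prod.fst '' K)).toReal, fun t ht => by
        have : lev K t = ∅ := by
          ext q
          simp only [mem_empty_iff_false, iff_false]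
          intro hq
          exact absurd (lt_of_lt_of_le ht hq.2) (not_lt.2 (len_le hK q))
        simp only [this, measure_empty]⟩
    rw [ENNReal.ofReal_toReal hSfin] at key
    rw [h1, ENNReal.toReal_div, vol_eq hK]
    exact le_trans (cap_le hK S hS) key

end fiber

end Vale.Agent.Lib.P243.Cap
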