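import Mathlib

namespace Vale.Agent.Lib.P243

/-- `OrthoPair a b`: the vectors `a`, `b` of Euclidean 3-space form an orthonormal pair. -/
def OrthoPair (a b : EuclideanSpace ℝ (Fin 3)) : Prop :=
  ‖a‖ = 1 ∧ ‖b‖ = 1 ∧ inner ℝ a b = 0

/-- `planeCoords a b x`: the coordinates `(⟪x, a⟫, ⟪x, b⟫)` of the orthogonal projection of `x`
onto the plane spanned by `a` and `b`. -/
noncomputable def planeCoords (a b : EuclideanSpace ℝ (Fin 3)) (x : EuclideanSpace ℝ (Fin 3)) : ℝ × ℝ :=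
  (inner ℝ x a, inner ℝ x b)

end Vale.Agent.Lib.P243
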