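import Mathlib

/-!
A sharp integral inequality for functions satisfying the three consequences of concavity that
the width functions of the parallel sections of a convex set enjoy.
-/

namespace Vale.Agent.Lib.P243

open MeasureTheory Set

lemma intervalIntegrable_of_bdd {f : ℝ → ℝ} (hf : Measurable f) (M : ℝ)
    (hM : ∀ t, |f t| ≤ M) (a b : ℝ) : IntervalIntegrable f volume a b := by
  rw [intervalIntegrable_iff]
  refine Measure.integrableOn_of_bounded (M := M) ?_ hf.aestronglyMeasurable
    (Filter.Eventually.of_forall fun t => by simpa using hM t)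
  rw [uIoc]
  exact measure_Ioc_lt_top.ne

lemma integral_sub_const_id (a p q : ℝ) :
    ∫ τ in p..q, (τ - a) = ((q - a) ^ 2 - (p - a) ^ 2) / 2 := by
  have := intervalIntegral.integral_comp_sub_right (a := p) (b := q) (fun t : ℝ => t) a
  rw [this, integral_id]

lemma integral_const_sub_id (b p q : ℝ) :
    ∫ τ in p..q, (b - τ) = ((b - p) ^ 2 - (b - q) ^ 2) / 2 := by
  have := intervalIntegral.integral_comp_sub_left (a := p) (b := q) (fun t : ℝ => t) b
  rw [this, integral_id]

/-- The sharp bound: if `G ≥ 0` on `[a, b]` behaves like a concave function with respect to the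
point `c` (pairing inequality and the two cone inequalities), then
`2 * min (c - a) (b - c) * ∫ G ≤ (b - a)^2 * c'`, where `c'` bounds `G c`. -/
theorem concave_integral_bound (G : ℝ → ℝ) (hG : Measurable G) (M : ℝ)
    (hG0 : ∀ t, 0 ≤ G t) (hGM : ∀ t, G t ≤ M)
    (a c b c' : ℝ) (hac : a < c) (hcb : c < b)
    (hpair : ∀ θ ∈ Icc (0 : ℝ) 1,
      (b - c) * G (c - (c - a) * θ) + (c - a) * G (c + (b - c) * θ) ≤ (b - a) * c')
    (hconeR : ∀ τ ∈ Icc c b, (c - a) * G τ ≤ c' * (τ - a))
    (hconeL : ∀ τ ∈ Icc a c, (b - c) * G τ ≤ c' * (b - τ)) :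
    2 * min (c - a) (b - c) * ∫ τ in a..b, G τ ≤ (b - a) ^ 2 * c' := by
  set x : ℝ := c - a with hx
  set y : ℝ := b - c with hy
  have hxpos : 0 < x := sub_pos.2 hac
  have hypos : 0 < y := sub_pos.2 hcb
  have hH : b - a = x + y := by rw [hx, hy]; ring
  have habs : ∀ t, |G t| ≤ M := fun t => by rw [abs_of_nonneg (hG0 t)]; exact hGM t
  have hint : ∀ p q, IntervalIntegrable G volume p q := intervalIntegrable_of_bdd hG M habs
  have hint1 : IntervalIntegrable (fun θ => G (c - x * θ)) volume 0 1 :=
    intervalIntegrable_of_bdd (hG.comp (by fun_prop)) M (fun t => habs _) 0 1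
  have hint2 : IntervalIntegrable (fun θ => G (c + y * θ)) volume 0 1 :=
    intervalIntegrable_of_bdd (hG.comp (by fun_prop)) M (fun t => habs _) 0 1
  set L : ℝ := ∫ τ in a..c, G τ with hL
  set R : ℝ := ∫ τ in c..b, G τ with hR
  have hLR : ∫ τ in a..b, G τ = L + R :=
    (intervalIntegral.integral_add_adjacent_intervals (hint a c) (hint c b)).symm
  -- pairing inequality, integrated
  have h1 : y * (x⁻¹ * L) + x * (y⁻¹ * R) ≤ (x + y) * c' := by
    have hmono : ∫ θ in (0 : ℝ)..1, (y * G (c - x * θ) + x * G (c + y * θ))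
        ≤ ∫ _θ in (0 : ℝ)..1, (b - a) * c' :=
      intervalIntegral.integral_mono_on zero_le_one
        ((hint1.const_mul y).add (hint2.const_mul x)) intervalIntegrable_const
        (fun θ hθ => hpair θ hθ)
    rw [intervalIntegral.integral_add (hint1.const_mul y) (hint2.const_mul x),
      intervalIntegral.integral_const_mul, intervalIntegral.integral_const_mul,
      intervalIntegral.integral_comp_sub_mul G hxpos.ne' c,
      intervalIntegral.integral_comp_add_mul G hypos.ne' c,
      intervalIntegral.integral_const] at hmono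
    have e1 : c - x * 1 = a := by rw [hx]; ring
    have e2 : c - x * 0 = c := by ring
    have e3 : c + y * 0 = c := by ring
    have e4 : c + y * 1 = b := by rw [hy]; ring
    rw [e1, e2, e3, e4, hH] at hmono
    simpa using hmono
  have h1' : y ^ 2 * L + x ^ 2 * R ≤ (x + y) * c' * x * y := by
    have := mul_le_mul_of_nonneg_right h1 (mul_pos hxpos hypos).le
    have e : (y * (x⁻¹ * L) + x * (y⁻¹ * R)) * (x * y) = y ^ 2 * L + x ^ 2 * R := by
      field_simp
    rw [e] at this
    linarith
  -- cone inequalities, integrated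
  have h2 : x * R ≤ c' * (((x + y) ^ 2 - x ^ 2) / 2) := by
    have hmono : ∫ τ in c..b, x * G τ ≤ ∫ τ in c..b, c' * (τ - a) :=
      intervalIntegral.integral_mono_on hcb.le ((hint c b).const_mul x)
        (Continuous.intervalIntegrable (by fun_prop) _ _) (fun τ hτ => hconeR τ hτ)
    rw [intervalIntegral.integral_const_mul, intervalIntegral.integral_const_mul,
      integral_sub_const_id] at hmono
    have e : (b - a) ^ 2 - (c - a) ^ 2 = (x + y) ^ 2 - x ^ 2 := by rw [hx, hy]; ring
    rwa [e] at hmono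
  have h3 : y * L ≤ c' * (((x + y) ^ 2 - y ^ 2) / 2) := by
    have hmono : ∫ τ in a..c, y * G τ ≤ ∫ τ in a..c, c' * (b - τ) :=
      intervalIntegral.integral_mono_on hac.le ((hint a c).const_mul y)
        (Continuous.intervalIntegrable (by fun_prop) _ _) (fun τ hτ => hconeL τ hτ)
    rw [intervalIntegral.integral_const_mul, intervalIntegral.integral_const_mul,
      integral_const_sub_id] at hmono
    have e : (b - a) ^ 2 - (b - c) ^ 2 = (x + y) ^ 2 - y ^ 2 := by rw [hx, hy]; ring
    rwa [e] at hmono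
  rw [hLR, hH]
  rcases le_total x y with hxy | hyx
  · rw [min_eq_left hxy]
    have hA := mul_le_mul_of_nonneg_left h1' (by positivity : (0 : ℝ) ≤ 2 * x)
    have hB := mul_le_mul_of_nonneg_left h2
      (by nlinarith : (0 : ℝ) ≤ 2 * (y ^ 2 - x ^ 2))
    have key : y ^ 2 * (2 * x * (L + R)) ≤ y ^ 2 * ((x + y) ^ 2 * c') := by
      have e1 : y ^ 2 * (2 * x * (L + R))
          = 2 * x * (y ^ 2 * L + x ^ 2 * R) + 2 * (y ^ 2 - x ^ 2) * (x * R) := by ring
      have e2 : y ^ 2 * ((x + y) ^ 2 * c')
          = 2 * x * ((x + y) * c' * x * y)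
            + 2 * (y ^ 2 - x ^ 2) * (c' * (((x + y) ^ 2 - x ^ 2) / 2)) := by ring
      rw [e1, e2]; exact add_le_add hA hB
    exact le_of_mul_le_mul_left key (by positivity)
  · rw [min_eq_right hyx]
    have hA := mul_le_mul_of_nonneg_left h1' (by positivity : (0 : ℝ) ≤ 2 * y)
    have hB := mul_le_mul_of_nonneg_left h3
      (by nlinarith : (0 : ℝ) ≤ 2 * (x ^ 2 - y ^ 2))
    have key : x ^ 2 * (2 * y * (L + R)) ≤ x ^ 2 * ((x + y) ^ 2 * c') := by
      have e1 : x ^ 2 * (2 * y * (L + R))
          = 2 * y * (y ^ 2 * L + x ^ 2 * R) + 2 * (x ^ 2 - y ^ 2) * (y * L) := by ring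
      have e2 : x ^ 2 * ((x + y) ^ 2 * c')
          = 2 * y * ((x + y) * c' * x * y)
            + 2 * (x ^ 2 - y ^ 2) * (c' * (((x + y) ^ 2 - y ^ 2) / 2)) := by ring
      rw [e1, e2]; exact add_le_add hA hB
    exact le_of_mul_le_mul_left key (by positivity)

end Vale.Agent.Lib.P243
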