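import Mathlib
import Vale.Agent.Lib.P243.Bang
import Vale.Agent.Lib.P243.Concave

/-!
Slicing argument: a compact convex set `K` is cut by the level sets of `x ↦ ⟪x, e⟫`.
-/

namespace Vale.Agent.Lib.P243

open scoped RealInnerProductSpace Pointwise
open MeasureTheory Set

variable {F : Type*} [NormedAddCommGroup F] [InnerProductSpace ℝ F]

/-- The planar shadow of `K` in the coordinates `(⟪x, e⟫, ⟪x, n⟫)`. -/
def shadow (K : Set F) (e n : F) : Set (ℝ × ℝ) := (fun x : F => (⟪x, e⟫, ⟪x, n⟫)) '' K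

lemma continuous_shadowMap (e n : F) : Continuous (fun x : F => (⟪x, e⟫, ⟪x, n⟫)) :=
  (continuous_id.inner continuous_const).prodMk (continuous_id.inner continuous_const)

lemma isCompact_shadow {K : Set F} (hKc : IsCompact K) (e n : F) : IsCompact (shadow K e n) :=
  hKc.image (continuous_shadowMap e n)

lemma mem_section_shadow {K : Set F} {e n : F} {τ s : ℝ} :
    s ∈ Prod.mk τ ⁻¹' shadow K e n ↔ ∃ x ∈ K, ⟪x, e⟫ = τ ∧ ⟪x, n⟫ = s := by
  constructor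
  · rintro ⟨x, hx, hxe⟩
    exact ⟨x, hx, (Prod.mk.inj hxe).1, (Prod.mk.inj hxe).2⟩
  · rintro ⟨x, hx, h1, h2⟩
    exact ⟨x, hx, by simp only [h1, h2]⟩

/-- Each nonempty horizontal section of the shadow lies in an interval spanned by two points of
the corresponding section of `K`. -/
lemma section_width {K : Set F} (hKc : IsCompact K) (e n : F) (τ : ℝ)
    (hne : ∃ x ∈ K, ⟪x, e⟫ = τ) :
    ∃ p ∈ K, ∃ q ∈ K, ⟪p, e⟫ = τ ∧ ⟪q, e⟫ = τ ∧ 0 ≤ ⟪p - q, n⟫ ∧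
      volume (Prod.mk τ ⁻¹' shadow K e n) ≤ ENNReal.ofReal ⟪p - q, n⟫ := by
  have hcl : IsClosed {x : F | ⟪x, e⟫ = τ} :=
    isClosed_eq (continuous_id.inner continuous_const) continuous_const
  have hKτ : IsCompact (K ∩ {x : F | ⟪x, e⟫ = τ}) := hKc.inter_right hcl
  have hKτne : (K ∩ {x : F | ⟪x, e⟫ = τ}).Nonempty := by
    obtain ⟨x, hx, hxe⟩ := hne
    exact ⟨x, hx, hxe⟩
  have hcont : ContinuousOn (fun x : F => ⟪x, n⟫) (K ∩ {x : F | ⟪x, e⟫ = τ}) :=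
    (continuous_id.inner continuous_const).continuousOn
  obtain ⟨p, hp, hpmax⟩ := hKτ.exists_isMaxOn hKτne hcont
  obtain ⟨q, hq, hqmin⟩ := hKτ.exists_isMinOn hKτne hcont
  have hsub : Prod.mk τ ⁻¹' shadow K e n ⊆ Icc ⟪q, n⟫ ⟪p, n⟫ := by
    intro s hs
    obtain ⟨x, hx, hxe, hxn⟩ := mem_section_shadow.1 hs
    rw [← hxn]
    exact ⟨hqmin ⟨hx, hxe⟩, hpmax ⟨hx, hxe⟩⟩
  have hpq : ⟪p - q, n⟫ = ⟪p, n⟫ - ⟪q, n⟫ := inner_sub_left _ _ _
  refine ⟨p, hp.1, q, hq.1, hp.2, hq.2, ?_, ?_⟩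
  · rw [hpq]; exact sub_nonneg.2 (hqmin hp)
  · rw [hpq, ← Real.volume_Icc]; exact measure_mono hsub

/-- Sharp bound for the area of a shadow in terms of the width of one section of `K`. -/
theorem shadow_area_bound (K : Set F) (hKc : IsCompact K) (hK : Convex ℝ K) (e n : F)
    (τ₀ τ₁ : ℝ) (x₀ x₁ : F) (hx₀ : x₀ ∈ K) (hx₁ : x₁ ∈ K) (h₀ : ⟪x₀, e⟫ = τ₀) (h₁ : ⟪x₁, e⟫ = τ₁)
    (hlo : ∀ x ∈ K, τ₀ ≤ ⟪x, e⟫) (hhi : ∀ x ∈ K, ⟪x, e⟫ ≤ τ₁)
    (c : ℝ) (hc₀ : τ₀ < c) (hc₁ : c < τ₁) (c' : ℝ)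
    (hc' : ∀ p ∈ K, ∀ q ∈ K, ⟪p, e⟫ = c → ⟪q, e⟫ = c → ⟪p - q, n⟫ ≤ c') :
    volume (shadow K e n) * ENNReal.ofReal (2 * min (c - τ₀) (τ₁ - c))
      ≤ ENNReal.ofReal ((τ₁ - τ₀) ^ 2 * c') := by
  have hτ : τ₀ < τ₁ := hc₀.trans hc₁
  have hDc : IsCompact (shadow K e n) := isCompact_shadow hKc e n
  set g : ℝ → ENNReal := fun τ => volume (Prod.mk τ ⁻¹' shadow K e n) with hg
  set G : ℝ → ℝ := fun τ => (g τ).toReal with hGdef
  have hgmeas : Measurable g := measurable_measure_prodMk_left hDc.measurableSet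
  have hGmeas : Measurable G := hgmeas.ennreal_toReal
  have hvol : volume (shadow K e n) = ∫⁻ τ, g τ := by
    rw [Measure.volume_eq_prod, Measure.prod_apply hDc.measurableSet]
  -- nonempty sections
  have hsec : ∀ τ ∈ Icc τ₀ τ₁, ∃ x ∈ K, ⟪x, e⟫ = τ := by
    intro τ hτm
    set lam : ℝ := (τ - τ₀) / (τ₁ - τ₀) with hlam
    have hlam0 : 0 ≤ lam := div_nonneg (sub_nonneg.2 hτm.1) (sub_pos.2 hτ).le
    have hlam1 : lam ≤ 1 := div_le_one_of_le₀ (by linarith [hτm.2]) (sub_pos.2 hτ).le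
    refine ⟨(1 - lam) • x₀ + lam • x₁, hK hx₀ hx₁ (sub_nonneg.2 hlam1) hlam0 (by ring), ?_⟩
    rw [inner_add_left, inner_smul_left, inner_smul_left, h₀, h₁]
    simp only [RCLike.conj_to_real]
    have : lam * (τ₁ - τ₀) = τ - τ₀ := div_mul_cancel₀ _ (sub_pos.2 hτ).ne'
    linarith
  have hwidth : ∀ τ ∈ Icc τ₀ τ₁, ∃ p ∈ K, ∃ q ∈ K, ⟪p, e⟫ = τ ∧ ⟪q, e⟫ = τ ∧
      0 ≤ ⟪p - q, n⟫ ∧ g τ ≤ ENNReal.ofReal ⟪p - q, n⟫ ∧ G τ ≤ ⟪p - q, n⟫ := by
    intro τ hτm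
    obtain ⟨p, hp, q, hq, hpe, hqe, h0, hle⟩ := section_width hKc e n τ (hsec τ hτm)
    exact ⟨p, hp, q, hq, hpe, hqe, h0, hle, ENNReal.toReal_le_of_le_ofReal h0 hle⟩
  have hzero : ∀ τ, τ ∉ Icc τ₀ τ₁ → g τ = 0 := by
    intro τ hτm
    have : Prod.mk τ ⁻¹' shadow K e n = ∅ := by
      ext s
      simp only [mem_empty_iff_false, iff_false]
      intro hs
      obtain ⟨x, hx, hxe, -⟩ := mem_section_shadow.1 hs
      exact hτm ⟨hxe ▸ hlo x hx, hxe ▸ hhi x hx⟩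
    simp only [hg, this, measure_empty]
  have hgfin : ∀ τ, g τ ≠ ⊤ := by
    intro τ
    by_cases hτm : τ ∈ Icc τ₀ τ₁
    · obtain ⟨p, -, q, -, -, -, -, hle, -⟩ := hwidth τ hτm
      exact (hle.trans_lt ENNReal.ofReal_lt_top).ne
    · rw [hzero τ hτm]; exact ENNReal.zero_ne_top
  obtain ⟨R, hR⟩ := hKc.isBounded.exists_norm_le
  have hGM : ∀ τ, G τ ≤ 2 * R * ‖n‖ := by
    intro τ
    have hR0 : 0 ≤ R := (norm_nonneg x₀).trans (hR x₀ hx₀)
    by_cases hτm : τ ∈ Icc τ₀ τ₁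
    · obtain ⟨p, hp, q, hq, -, -, -, -, hle⟩ := hwidth τ hτm
      have h1 : ⟪p - q, n⟫ ≤ ‖p - q‖ * ‖n‖ := real_inner_le_norm _ _
      have h2 : ‖p - q‖ ≤ 2 * R := by
        have := norm_sub_le p q
        linarith [hR p hp, hR q hq]
      have := mul_le_mul_of_nonneg_right h2 (norm_nonneg n)
      linarith
    · simp only [hGdef, hzero τ hτm, ENNReal.toReal_zero]
      positivity
  have hG0 : ∀ τ, 0 ≤ G τ := fun τ => ENNReal.toReal_nonneg
  have hxpos : 0 < c - τ₀ := sub_pos.2 hc₀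
  have hypos : 0 < τ₁ - c := sub_pos.2 hc₁
  -- the three concavity-type inequalities
  have hpair : ∀ θ ∈ Icc (0 : ℝ) 1,
      (τ₁ - c) * G (c - (c - τ₀) * θ) + (c - τ₀) * G (c + (τ₁ - c) * θ) ≤ (τ₁ - τ₀) * c' := by
    intro θ hθ
    have hA : c - (c - τ₀) * θ ∈ Icc τ₀ τ₁ := by
      constructor <;> nlinarith [hθ.1, hθ.2]
    have hB : c + (τ₁ - c) * θ ∈ Icc τ₀ τ₁ := by
      constructor <;> nlinarith [hθ.1, hθ.2]
    obtain ⟨pA, hpA, qA, hqA, hpAe, hqAe, -, -, hGA⟩ := hwidth _ hA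
    obtain ⟨pB, hpB, qB, hqB, hpBe, hqBe, -, -, hGB⟩ := hwidth _ hB
    set H : ℝ := τ₁ - τ₀ with hH
    have hHpos : 0 < H := sub_pos.2 hτ
    set α : ℝ := (τ₁ - c) / H with hα
    set β : ℝ := (c - τ₀) / H with hβ
    have hα0 : 0 ≤ α := div_nonneg hypos.le hHpos.le
    have hβ0 : 0 ≤ β := div_nonneg hxpos.le hHpos.le
    have hαβ : α + β = 1 := by
      rw [hα, hβ, ← add_div, div_eq_one_iff_eq hHpos.ne', hH]; ring
    have hαH : α * H = τ₁ - c := div_mul_cancel₀ _ hHpos.ne'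
    have hβH : β * H = c - τ₀ := div_mul_cancel₀ _ hHpos.ne'
    have hP : α • pA + β • pB ∈ K := hK hpA hpB hα0 hβ0 hαβ
    have hQ : α • qA + β • qB ∈ K := hK hqA hqB hα0 hβ0 hαβ
    have hheight : ∀ u v : F, ⟪u, e⟫ = c - (c - τ₀) * θ → ⟪v, e⟫ = c + (τ₁ - c) * θ →
        ⟪α • u + β • v, e⟫ = c := by
      intro u v hu hv
      rw [inner_add_left, inner_smul_left, inner_smul_left, hu, hv]
      simp only [RCLike.conj_to_real]
      have e1 : α * (c - (c - τ₀) * θ) + β * (c + (τ₁ - c) * θ)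
          = (α + β) * c + θ * (β * (τ₁ - c) - α * (c - τ₀)) := by ring
      have e2 : β * (τ₁ - c) - α * (c - τ₀) = 0 := by
        rw [← hαH, ← hβH]; ring
      rw [e1, e2, hαβ]; ring
    have hmain := hc' _ hP _ hQ (hheight pA pB hpAe hpBe) (hheight qA qB hqAe hqBe)
    have hexp : ⟪α • pA + β • pB - (α • qA + β • qB), n⟫
        = α * ⟪pA - qA, n⟫ + β * ⟪pB - qB, n⟫ := by
      have : α • pA + β • pB - (α • qA + β • qB) = α • (pA - qA) + β • (pB - qB) := by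
        rw [smul_sub, smul_sub]; abel
      rw [this, inner_add_left, inner_smul_left, inner_smul_left]
      simp only [RCLike.conj_to_real]
    rw [hexp] at hmain
    have h3 : (τ₁ - c) * ⟪pA - qA, n⟫ + (c - τ₀) * ⟪pB - qB, n⟫ ≤ H * c' := by
      have := mul_le_mul_of_nonneg_left hmain hHpos.le
      have e : H * (α * ⟪pA - qA, n⟫ + β * ⟪pB - qB, n⟫)
          = (α * H) * ⟪pA - qA, n⟫ + (β * H) * ⟪pB - qB, n⟫ := by ring
      rw [e, hαH, hβH] at this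
      exact this
    have h4 := mul_le_mul_of_nonneg_left hGA hypos.le
    have h5 := mul_le_mul_of_nonneg_left hGB hxpos.le
    linarith
  have hconeR : ∀ τ ∈ Icc c τ₁, (c - τ₀) * G τ ≤ c' * (τ - τ₀) := by
    intro τ hτm
    have hτI : τ ∈ Icc τ₀ τ₁ := ⟨hc₀.le.trans hτm.1, hτm.2⟩
    obtain ⟨p, hp, q, hq, hpe, hqe, -, -, hGτ⟩ := hwidth τ hτI
    have hd : 0 < τ - τ₀ := by linarith [hτm.1]
    set lam : ℝ := (c - τ₀) / (τ - τ₀) with hlam
    have hlam0 : 0 ≤ lam := div_nonneg hxpos.le hd.le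
    have hlam1 : lam ≤ 1 := div_le_one_of_le₀ (by linarith [hτm.1]) hd.le
    have hlamd : lam * (τ - τ₀) = c - τ₀ := div_mul_cancel₀ _ hd.ne'
    have hP : (1 - lam) • x₀ + lam • p ∈ K := hK hx₀ hp (sub_nonneg.2 hlam1) hlam0 (by ring)
    have hQ : (1 - lam) • x₀ + lam • q ∈ K := hK hx₀ hq (sub_nonneg.2 hlam1) hlam0 (by ring)
    have hheight : ∀ u : F, ⟪u, e⟫ = τ → ⟪(1 - lam) • x₀ + lam • u, e⟫ = c := by
      intro u hu
      rw [inner_add_left, inner_smul_left, inner_smul_left, hu, h₀]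
      simp only [RCLike.conj_to_real]
      linarith
    have hmain := hc' _ hP _ hQ (hheight p hpe) (hheight q hqe)
    have hexp : ⟪(1 - lam) • x₀ + lam • p - ((1 - lam) • x₀ + lam • q), n⟫
        = lam * ⟪p - q, n⟫ := by
      have : (1 - lam) • x₀ + lam • p - ((1 - lam) • x₀ + lam • q) = lam • (p - q) := by
        rw [smul_sub]; abel
      rw [this, inner_smul_left]
      simp only [RCLike.conj_to_real]
    rw [hexp] at hmain
    have h3 : (c - τ₀) * ⟪p - q, n⟫ ≤ c' * (τ - τ₀) := by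
      have := mul_le_mul_of_nonneg_right hmain hd.le
      have e : lam * ⟪p - q, n⟫ * (τ - τ₀) = (lam * (τ - τ₀)) * ⟪p - q, n⟫ := by ring
      rw [e, hlamd] at this
      exact this
    have h4 := mul_le_mul_of_nonneg_left hGτ hxpos.le
    linarith
  have hconeL : ∀ τ ∈ Icc τ₀ c, (τ₁ - c) * G τ ≤ c' * (τ₁ - τ) := by
    intro τ hτm
    have hτI : τ ∈ Icc τ₀ τ₁ := ⟨hτm.1, hτm.2.trans hc₁.le⟩
    obtain ⟨p, hp, q, hq, hpe, hqe, -, -, hGτ⟩ := hwidth τ hτI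
    have hd : 0 < τ₁ - τ := by linarith [hτm.2]
    set lam : ℝ := (τ₁ - c) / (τ₁ - τ) with hlam
    have hlam0 : 0 ≤ lam := div_nonneg hypos.le hd.le
    have hlam1 : lam ≤ 1 := div_le_one_of_le₀ (by linarith [hτm.2]) hd.le
    have hlamd : lam * (τ₁ - τ) = τ₁ - c := div_mul_cancel₀ _ hd.ne'
    have hP : (1 - lam) • x₁ + lam • p ∈ K := hK hx₁ hp (sub_nonneg.2 hlam1) hlam0 (by ring)
    have hQ : (1 - lam) • x₁ + lam • q ∈ K := hK hx₁ hq (sub_nonneg.2 hlam1) hlam0 (by ring)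
    have hheight : ∀ u : F, ⟪u, e⟫ = τ → ⟪(1 - lam) • x₁ + lam • u, e⟫ = c := by
      intro u hu
      rw [inner_add_left, inner_smul_left, inner_smul_left, hu, h₁]
      simp only [RCLike.conj_to_real]
      linarith
    have hmain := hc' _ hP _ hQ (hheight p hpe) (hheight q hqe)
    have hexp : ⟪(1 - lam) • x₁ + lam • p - ((1 - lam) • x₁ + lam • q), n⟫
        = lam * ⟪p - q, n⟫ := by
      have : (1 - lam) • x₁ + lam • p - ((1 - lam) • x₁ + lam • q) = lam • (p - q) := by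
        rw [smul_sub]; abel
      rw [this, inner_smul_left]
      simp only [RCLike.conj_to_real]
    rw [hexp] at hmain
    have h3 : (τ₁ - c) * ⟪p - q, n⟫ ≤ c' * (τ₁ - τ) := by
      have := mul_le_mul_of_nonneg_right hmain hd.le
      have e : lam * ⟪p - q, n⟫ * (τ₁ - τ) = (lam * (τ₁ - τ)) * ⟪p - q, n⟫ := by ring
      rw [e, hlamd] at this
      exact this
    have h4 := mul_le_mul_of_nonneg_left hGτ hypos.le
    linarith
  have hQ := concave_integral_bound G hGmeas (2 * R * ‖n‖) hG0 hGM τ₀ c τ₁ c' hc₀ hc₁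
    hpair hconeR hconeL
  -- the area as an integral
  have harea : volume (shadow K e n) = ENNReal.ofReal (∫ τ in τ₀..τ₁, G τ) := by
    rw [hvol]
    have h1 : ∫⁻ τ, g τ = ∫⁻ τ in Icc τ₀ τ₁, g τ := by
      rw [← lintegral_indicator measurableSet_Icc]
      congr 1
      ext τ
      by_cases hτm : τ ∈ Icc τ₀ τ₁
      · rw [indicator_of_mem hτm]
      · rw [indicator_of_notMem hτm, hzero τ hτm]
    have h2 : ∫⁻ τ in Icc τ₀ τ₁, g τ = ∫⁻ τ in Icc τ₀ τ₁, ENNReal.ofReal (G τ) := by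
      apply lintegral_congr
      intro τ
      exact (ENNReal.ofReal_toReal (hgfin τ)).symm
    have hint : IntegrableOn G (Icc τ₀ τ₁) volume := by
      refine Measure.integrableOn_of_bounded (M := 2 * R * ‖n‖) ?_ hGmeas.aestronglyMeasurable
        (Filter.Eventually.of_forall fun t => ?_)
      · rw [Real.volume_Icc]; exact ENNReal.ofReal_ne_top
      · rw [Real.norm_of_nonneg (hG0 t)]; exact hGM t
    rw [h1, h2, ← ofReal_integral_eq_lintegral_ofReal hint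
      (Filter.Eventually.of_forall fun t => hG0 t), integral_Icc_eq_integral_Ioc,
      ← intervalIntegral.integral_of_le hτ.le]
  rw [harea, ← ENNReal.ofReal_mul (intervalIntegral.integral_nonneg hτ.le fun t _ => hG0 t)]
  apply ENNReal.ofReal_le_ofReal
  linarith

/-- A level of the height function between two attained levels is attained on a convex set. -/
lemma exists_mem_height {K : Set F} (hK : Convex ℝ K) (e : F) {x₀ x₁ : F} (hx₀ : x₀ ∈ K)
    (hx₁ : x₁ ∈ K) {τ : ℝ} (h₀ : ⟪x₀, e⟫ < τ) (h₁ : τ < ⟪x₁, e⟫) : ∃ x ∈ K, ⟪x, e⟫ = τ := by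
  have hτ : ⟪x₀, e⟫ < ⟪x₁, e⟫ := h₀.trans h₁
  set lam : ℝ := (τ - ⟪x₀, e⟫) / (⟪x₁, e⟫ - ⟪x₀, e⟫) with hlam
  have hlam0 : 0 ≤ lam := div_nonneg (sub_nonneg.2 h₀.le) (sub_pos.2 hτ).le
  have hlam1 : lam ≤ 1 := div_le_one_of_le₀ (by linarith) (sub_pos.2 hτ).le
  refine ⟨(1 - lam) • x₀ + lam • x₁, hK hx₀ hx₁ (sub_nonneg.2 hlam1) hlam0 (by ring), ?_⟩
  rw [inner_add_left, inner_smul_left, inner_smul_left]
  simp only [RCLike.conj_to_real]
  have : lam * (⟪x₁, e⟫ - ⟪x₀, e⟫) = τ - ⟪x₀, e⟫ := div_mul_cancel₀ _ (sub_pos.2 hτ).ne'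
  linarith

/-- If the difference set of a compact convex set `Kτ` misses a vector `a` of the subspace `V`
containing all differences, then `Kτ` is narrower than `‖a‖` in some unit direction of `V`. -/
lemma exists_narrow_direction [FiniteDimensional ℝ F] (Kτ : Set F) (hc : IsCompact Kτ)
    (hconv : Convex ℝ Kτ) (hne : Kτ.Nonempty) (V : Submodule ℝ F)
    (hV : ∀ p ∈ Kτ, ∀ q ∈ Kτ, p - q ∈ V) (a : F) (haV : a ∈ V)
    (ha : ∀ p ∈ Kτ, ∀ q ∈ Kτ, p - q ≠ a) :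
    ∃ n' ∈ V, ‖n'‖ = 1 ∧ ∃ c'' < ‖a‖, ∀ p ∈ Kτ, ∀ q ∈ Kτ, ⟪p - q, n'⟫ ≤ c'' := by
  have hDc : IsCompact (Kτ - Kτ) := by
    rw [← Set.sub_image_prod]
    exact (hc.prod hc).image (continuous_fst.sub continuous_snd)
  have hDconv : Convex ℝ (Kτ - Kτ) := hconv.sub hconv
  have haD : a ∉ Kτ - Kτ := by
    intro h
    obtain ⟨p, hp, q, hq, hpq⟩ := Set.mem_sub.1 h
    exact ha p hp q hq hpq
  obtain ⟨f, u, hfu, hua⟩ := geometric_hahn_banach_closed_point hDconv hDc.isClosed haD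
  set v : F := (InnerProductSpace.toDual ℝ F).symm f with hv
  have hf : ∀ z, f z = ⟪v, z⟫ := fun z => (InnerProductSpace.toDual_symm_apply).symm
  set v' : F := V.starProjection v with hv'
  have hv'V : v' ∈ V := Submodule.starProjection_apply_mem V v
  have hfV : ∀ z ∈ V, f z = ⟪v', z⟫ := by
    intro z hz
    rw [hf z, hv', Submodule.inner_starProjection_left_eq_right,
      Submodule.starProjection_eq_self_iff.2 hz]
  obtain ⟨p₀, hp₀⟩ := hne
  have hu0 : 0 < u := by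
    have := hfu (p₀ - p₀) (Set.sub_mem_sub hp₀ hp₀)
    simpa using this
  have hfa : u < ⟪v', a⟫ := by rw [← hfV a haV]; exact hua
  have hv'pos : 0 < ‖v'‖ := by
    by_contra h
    have h0 : v' = 0 := norm_le_zero_iff.1 (not_lt.1 h)
    rw [h0, inner_zero_left] at hfa
    linarith
  refine ⟨(‖v'‖)⁻¹ • v', V.smul_mem _ hv'V, ?_, u / ‖v'‖, ?_, ?_⟩
  · rw [norm_smul, norm_inv, norm_norm, inv_mul_cancel₀ hv'pos.ne']
  · rw [div_lt_iff₀ hv'pos]
    have := real_inner_le_norm v' a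
    linarith
  · intro p hp q hq
    have h1 : ⟪p - q, v'⟫ = f (p - q) := by
      rw [hfV _ (hV p hp q hq), real_inner_comm]
    rw [inner_smul_right, h1, div_eq_inv_mul]
    exact mul_le_mul_of_nonneg_left (hfu _ (Set.sub_mem_sub hp hq)).le (inv_nonneg.2 hv'pos.le)

lemma tent_integral (a b : ℝ) (hab : a ≤ b) :
    ∫ τ in a..b, min (τ - a) (b - τ) = (b - a) ^ 2 / 4 := by
  have hcont : Continuous fun τ : ℝ => min (τ - a) (b - τ) := by fun_prop
  have h1 : ∫ τ in a..(a + b) / 2, min (τ - a) (b - τ) = ∫ τ in a..(a + b) / 2, (τ - a) := by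
    apply intervalIntegral.integral_congr
    intro τ hτ
    rw [uIcc_of_le (by linarith)] at hτ
    exact min_eq_left (by linarith [hτ.2])
  have h2 : ∫ τ in (a + b) / 2..b, min (τ - a) (b - τ) = ∫ τ in (a + b) / 2..b, (b - τ) := by
    apply intervalIntegral.integral_congr
    intro τ hτ
    rw [uIcc_of_le (by linarith)] at hτ
    exact min_eq_right (by linarith [hτ.1])
  rw [← intervalIntegral.integral_add_adjacent_intervals (b := (a + b) / 2)
    (hcont.intervalIntegrable _ _) (hcont.intervalIntegrable _ _), h1, h2,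
    integral_sub_const_id, integral_const_sub_id]
  ring

/-- The covering bound in slab coordinates.  `K` is compact convex, `e` is any vector, the
`n i` are unit vectors orthogonal to `e`, and `K` is covered by the sets
`{x | (⟪x, e⟫, ⟪x, n i⟫) ∈ S i}` with arbitrary `S i ⊆ ℝ × ℝ`.  If every shadow of `K` in a unit
direction `n'` orthogonal to `e` has area at least `m₀`, then the total outer area of the `S i`
is at least `m₀ / 2`. -/
theorem slab_cover_bound [FiniteDimensional ℝ F] (K : Set F) (hKc : IsCompact K)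
    (hK : Convex ℝ K) (hKne : K.Nonempty) (e : F) {m : ℕ} (n : Fin m → F)
    (hn : ∀ i, ‖n i‖ = 1) (hne : ∀ i, ⟪n i, e⟫ = 0) (S : Fin m → Set (ℝ × ℝ))
    (hcov : ∀ x ∈ K, ∃ i, (⟪x, e⟫, ⟪x, n i⟫) ∈ S i) (m₀ : ℝ)
    (hm₀ : ∀ n' : F, ‖n'‖ = 1 → ⟪n', e⟫ = 0 → ENNReal.ofReal m₀ ≤ volume (shadow K e n')) :
    ENNReal.ofReal (m₀ / 2) ≤ ∑ i, volume (S i) := by
  rcases le_or_gt m₀ 0 with hm0 | hm0
  · rw [ENNReal.ofReal_of_nonpos (by linarith)]; exact zero_le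
  -- measurable hulls
  set S' : Fin m → Set (ℝ × ℝ) := fun i => toMeasurable volume (S i) with hS'
  have hS'meas : ∀ i, MeasurableSet (S' i) := fun i => measurableSet_toMeasurable _ _
  have hS'vol : ∀ i, volume (S' i) = volume (S i) := fun i => measure_toMeasurable _
  have hcov' : ∀ x ∈ K, ∃ i, (⟪x, e⟫, ⟪x, n i⟫) ∈ S' i := by
    intro x hx
    obtain ⟨i, hi⟩ := hcov x hx
    exact ⟨i, subset_toMeasurable _ _ hi⟩
  -- extreme heights
  have hcont : ContinuousOn (fun x : F => ⟪x, e⟫) K :=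
    (continuous_id.inner continuous_const).continuousOn
  obtain ⟨x₀, hx₀, hmin⟩ := hKc.exists_isMinOn hKne hcont
  obtain ⟨x₁, hx₁, hmax⟩ := hKc.exists_isMaxOn hKne hcont
  set τ₀ : ℝ := ⟪x₀, e⟫ with hτ₀
  set τ₁ : ℝ := ⟪x₁, e⟫ with hτ₁
  have hlo : ∀ x ∈ K, τ₀ ≤ ⟪x, e⟫ := fun x hx => hmin hx
  have hhi : ∀ x ∈ K, ⟪x, e⟫ ≤ τ₁ := fun x hx => hmax hx
  obtain ⟨i₀, -⟩ := hcov x₀ hx₀
  -- positive height
  have hτ : τ₀ < τ₁ := by
    by_contra hcon
    have hle : τ₁ ≤ τ₀ := not_lt.1 hcon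
    have hsub : shadow K e (n i₀) ⊆ ({τ₀} : Set ℝ) ×ˢ (univ : Set ℝ) := by
      rintro ⟨a, b⟩ ⟨x, hx, hxe⟩
      have h1 : ⟪x, e⟫ = a := (Prod.mk.inj hxe).1
      refine ⟨?_, mem_univ _⟩
      rw [mem_singleton_iff, ← h1]
      exact le_antisymm ((hhi x hx).trans hle) (hlo x hx)
    have hzero : volume (({τ₀} : Set ℝ) ×ˢ (univ : Set ℝ)) = 0 := by
      rw [Measure.volume_eq_prod, Measure.prod_prod, Real.volume_singleton, zero_mul]
    have h2 := (hm₀ (n i₀) (hn i₀) (hne i₀)).trans ((measure_mono hsub).trans hzero.le)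
    have h3 : m₀ ≤ 0 := ENNReal.ofReal_eq_zero.1 (le_antisymm h2 zero_le)
    linarith
  set H : ℝ := τ₁ - τ₀ with hH
  have hHpos : 0 < H := sub_pos.2 hτ
  -- pointwise bound
  have hpt : ∀ τ ∈ Icc τ₀ τ₁, ENNReal.ofReal (2 * m₀ * min (τ - τ₀) (τ₁ - τ) / H ^ 2)
      ≤ ∑ i, volume (Prod.mk τ ⁻¹' S' i) := by
    intro τ hτm
    by_contra hlt
    rw [not_le] at hlt
    set w : ℝ := 2 * m₀ * min (τ - τ₀) (τ₁ - τ) / H ^ 2 with hw
    have hwpos : 0 < w := by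
      by_contra h
      rw [ENNReal.ofReal_of_nonpos (not_lt.1 h)] at hlt
      exact not_lt_bot hlt
    have hminpos : 0 < min (τ - τ₀) (τ₁ - τ) := by
      by_contra h
      have : w ≤ 0 := by
        rw [hw]
        apply div_nonpos_of_nonpos_of_nonneg _ (by positivity)
        exact mul_nonpos_of_nonneg_of_nonpos (by linarith) (not_lt.1 h)
      linarith
    have hc₀ : τ₀ < τ := by have := (lt_min_iff.1 hminpos).1; linarith
    have hc₁ : τ < τ₁ := by have := (lt_min_iff.1 hminpos).2; linarith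
    set Kτ : Set F := K ∩ {x : F | ⟪x, e⟫ = τ} with hKτ
    have hKτc : IsCompact Kτ :=
      hKc.inter_right (isClosed_eq (continuous_id.inner continuous_const) continuous_const)
    have hKτconv : Convex ℝ Kτ := by
      apply hK.inter
      intro x hx y hy α β hα hβ hαβ
      change ⟪α • x + β • y, e⟫ = τ
      rw [inner_add_left, inner_smul_left, inner_smul_left, (hx : ⟪x, e⟫ = τ),
        (hy : ⟪y, e⟫ = τ)]
      simp only [RCLike.conj_to_real]
      rw [← add_mul, hαβ, one_mul]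
    set V : Submodule ℝ F := (ℝ ∙ e)ᗮ with hV
    have hnV : ∀ i, n i ∈ V := fun i =>
      Submodule.mem_orthogonal_singleton_iff_inner_left.2 (hne i)
    have hcovτ : ∀ x ∈ Kτ, ∃ i, ⟪x, n i⟫ ∈ Prod.mk τ ⁻¹' S' i := by
      intro x hx
      obtain ⟨i, hi⟩ := hcov' x hx.1
      refine ⟨i, ?_⟩
      have hxe : ⟪x, e⟫ = τ := hx.2
      rw [hxe] at hi
      exact hi
    have hnotW : ¬ HasWidth Kτ V w := fun hW =>
      absurd (bang_generalized V Kτ w hKτc hKτconv hW n hnV hn _ hcovτ) (not_le.2 hlt)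
    unfold HasWidth at hnotW
    push Not at hnotW
    obtain ⟨a, haV, haw, hane⟩ := hnotW
    have hKτne : Kτ.Nonempty := by
      obtain ⟨x, hx, hxe⟩ := exists_mem_height hK e hx₀ hx₁ hc₀ hc₁
      exact ⟨x, hx, hxe⟩
    have hVdiff : ∀ p ∈ Kτ, ∀ q ∈ Kτ, p - q ∈ V := by
      intro p hp q hq
      rw [hV, Submodule.mem_orthogonal_singleton_iff_inner_left, inner_sub_left,
        (hp.2 : ⟪p, e⟫ = τ), (hq.2 : ⟪q, e⟫ = τ), sub_self]
    obtain ⟨n', hn'V, hn'1, c'', hc''a, hc''⟩ :=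
      exists_narrow_direction Kτ hKτc hKτconv hKτne V hVdiff a haV
        (fun p hp q hq => hane p hp q hq)
    have hn'e : ⟪n', e⟫ = 0 := Submodule.mem_orthogonal_singleton_iff_inner_left.1 hn'V
    have harea := shadow_area_bound K hKc hK e n' τ₀ τ₁ x₀ x₁ hx₀ hx₁ rfl rfl hlo hhi τ hc₀ hc₁
      c'' (fun p hp q hq hpe hqe => hc'' p ⟨hp, hpe⟩ q ⟨hq, hqe⟩)
    have h1 : ENNReal.ofReal m₀ * ENNReal.ofReal (2 * min (τ - τ₀) (τ₁ - τ))
        ≤ ENNReal.ofReal (H ^ 2 * c'') :=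
      (mul_le_mul' (hm₀ n' hn'1 hn'e) le_rfl).trans harea
    rw [← ENNReal.ofReal_mul hm0.le, ENNReal.ofReal_le_ofReal_iff'] at h1
    have h2 : m₀ * (2 * min (τ - τ₀) (τ₁ - τ)) ≤ H ^ 2 * c'' := by
      rcases h1 with h | h
      · exact h
      · exfalso
        have : 0 < m₀ * (2 * min (τ - τ₀) (τ₁ - τ)) := by positivity
        linarith
    have h3 : c'' < w := lt_of_lt_of_le hc''a haw
    have h4 : H ^ 2 * w = 2 * m₀ * min (τ - τ₀) (τ₁ - τ) := by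
      rw [hw]; field_simp
    have h5 : H ^ 2 * c'' < H ^ 2 * w := mul_lt_mul_of_pos_left h3 (by positivity)
    linarith
  -- integration
  have hmeasfun : ∀ i, Measurable (fun τ => volume (Prod.mk τ ⁻¹' S' i)) := fun i =>
    measurable_measure_prodMk_left (hS'meas i)
  have htent : ENNReal.ofReal (m₀ / 2)
      = ∫⁻ τ in Ioc τ₀ τ₁, ENNReal.ofReal (2 * m₀ * min (τ - τ₀) (τ₁ - τ) / H ^ 2) := by
    have hcontf : Continuous fun τ : ℝ => 2 * m₀ * min (τ - τ₀) (τ₁ - τ) / H ^ 2 := by fun_prop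
    have hint : IntegrableOn (fun τ : ℝ => 2 * m₀ * min (τ - τ₀) (τ₁ - τ) / H ^ 2)
        (Ioc τ₀ τ₁) volume := hcontf.integrableOn_Icc.mono_set Ioc_subset_Icc_self
    have hnn : 0 ≤ᵐ[volume.restrict (Ioc τ₀ τ₁)]
        (fun τ : ℝ => 2 * m₀ * min (τ - τ₀) (τ₁ - τ) / H ^ 2) := by
      refine ae_restrict_of_forall_mem measurableSet_Ioc fun τ hτm => ?_
      have : 0 ≤ min (τ - τ₀) (τ₁ - τ) := le_min (by linarith [hτm.1]) (by linarith [hτm.2])
      change 0 ≤ 2 * m₀ * min (τ - τ₀) (τ₁ - τ) / H ^ 2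
      positivity
    rw [← ofReal_integral_eq_lintegral_ofReal hint hnn,
      ← intervalIntegral.integral_of_le hτ.le]
    congr 1
    have : ∀ τ : ℝ, 2 * m₀ * min (τ - τ₀) (τ₁ - τ) / H ^ 2
        = (2 * m₀ / H ^ 2) * min (τ - τ₀) (τ₁ - τ) := fun τ => by ring
    simp only [this]
    rw [intervalIntegral.integral_const_mul, tent_integral τ₀ τ₁ hτ.le]
    field_simp
    rw [hH]; ring
  calc ENNReal.ofReal (m₀ / 2)
      = ∫⁻ τ in Ioc τ₀ τ₁, ENNReal.ofReal (2 * m₀ * min (τ - τ₀) (τ₁ - τ) / H ^ 2) := htent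
    _ ≤ ∫⁻ τ in Ioc τ₀ τ₁, ∑ i, volume (Prod.mk τ ⁻¹' S' i) :=
        setLIntegral_mono' measurableSet_Ioc (fun τ hτm => hpt τ (Ioc_subset_Icc_self hτm))
    _ ≤ ∫⁻ τ, ∑ i, volume (Prod.mk τ ⁻¹' S' i) := setLIntegral_le_lintegral _ _
    _ = ∑ i, ∫⁻ τ, volume (Prod.mk τ ⁻¹' S' i) :=
        lintegral_finsetSum _ (fun i _ => hmeasfun i)
    _ = ∑ i, volume (S' i) := by
        refine Finset.sum_congr rfl fun i _ => ?_
        rw [Measure.volume_eq_prod, Measure.prod_apply (hS'meas i)]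
    _ = ∑ i, volume (S i) := Finset.sum_congr rfl fun i _ => hS'vol i

end Vale.Agent.Lib.P243
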