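import Mathlib
import Vale.Agent.Lib.P243.Slab

/-!
Transfer between planes `(ℝ ∙ u)ᗮ` of Euclidean 3-space with their Lebesgue measure and the
coordinate plane `ℝ × ℝ`.
-/

namespace Vale.Agent.Lib.P243

open scoped RealInnerProductSpace
open MeasureTheory Set

section plane

variable {W : Type*} [NormedAddCommGroup W] [InnerProductSpace ℝ W] [MeasurableSpace W]
  [BorelSpace W] [FiniteDimensional ℝ W]

/-- Coordinates of a two-dimensional inner product space in an orthonormal basis. -/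
noncomputable def planeEquiv (b : OrthonormalBasis (Fin 2) ℝ W) : W ≃ᵐ ℝ × ℝ :=
  b.measurableEquiv.trans
    ((MeasurableEquiv.toLp 2 (Fin 2 → ℝ)).symm.trans MeasurableEquiv.finTwoArrow)

omit [FiniteDimensional ℝ W] in
lemma planeEquiv_apply (b : OrthonormalBasis (Fin 2) ℝ W) (y : W) :
    planeEquiv b y = (⟪b 0, y⟫, ⟪b 1, y⟫) := by
  change ((b.repr y).ofLp 0, (b.repr y).ofLp 1) = _
  rw [b.repr_apply_apply, b.repr_apply_apply]

lemma measurePreserving_planeEquiv (b : OrthonormalBasis (Fin 2) ℝ W) :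
    MeasurePreserving (planeEquiv b) volume volume :=
  b.measurePreserving_measurableEquiv.trans
    ((EuclideanSpace.volume_preserving_symm_measurableEquiv_toLp (Fin 2)).trans
      (volume_preserving_finTwoArrow ℝ))

end plane

section ext

variable {W : Type*} [NormedAddCommGroup W] [InnerProductSpace ℝ W] [FiniteDimensional ℝ W]

lemma exists_basis_one (h2 : Module.finrank ℝ W = 2) (e : W) (he : ‖e‖ = 1) :
    ∃ b : OrthonormalBasis (Fin 2) ℝ W, b 0 = e := by
  classical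
  have hfr : Module.finrank ℝ W = Fintype.card (Fin 2) := by rw [h2]; rfl
  have hv : Orthonormal ℝ (({0} : Set (Fin 2)).domRestrict (fun _ : Fin 2 => e)) := by
    rw [orthonormal_iff_ite]
    rintro ⟨i, hi⟩ ⟨j, hj⟩
    have hi' : i = 0 := hi
    have hj' : j = 0 := hj
    subst hi' hj'
    simp [Set.domRestrict, he]
  obtain ⟨b, hb⟩ := hv.exists_orthonormalBasis_extension_of_card_eq hfr
  exact ⟨b, hb 0 (mem_singleton 0)⟩

lemma exists_basis_two (h2 : Module.finrank ℝ W = 2) (e n : W) (he : ‖e‖ = 1) (hn : ‖n‖ = 1)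
    (hen : ⟪n, e⟫ = 0) :
    ∃ b : OrthonormalBasis (Fin 2) ℝ W, b 0 = e ∧ b 1 = n := by
  classical
  have hfr : Module.finrank ℝ W = Fintype.card (Fin 2) := by rw [h2]; rfl
  have hen' : ⟪e, n⟫ = 0 := by rw [real_inner_comm]; exact hen
  have hv : Orthonormal ℝ ((univ : Set (Fin 2)).domRestrict ![e, n]) := by
    rw [orthonormal_iff_ite]
    rintro ⟨i, hi⟩ ⟨j, hj⟩
    fin_cases i <;> fin_cases j <;>
      simp [Set.domRestrict, he, hn, hen, hen']
  obtain ⟨b, hb⟩ := hv.exists_orthonormalBasis_extension_of_card_eq hfr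
  exact ⟨b, hb 0 (mem_univ 0), hb 1 (mem_univ 1)⟩

lemma exists_basis_three (h3 : Module.finrank ℝ W = 3) (e n : W) (he : ‖e‖ = 1) (hn : ‖n‖ = 1)
    (hen : ⟪n, e⟫ = 0) :
    ∃ b : OrthonormalBasis (Fin 3) ℝ W, b 0 = e ∧ b 1 = n := by
  classical
  have hfr : Module.finrank ℝ W = Fintype.card (Fin 3) := by rw [h3]; rfl
  have hen' : ⟪e, n⟫ = 0 := by rw [real_inner_comm]; exact hen
  have hv : Orthonormal ℝ (({0, 1} : Set (Fin 3)).domRestrict ![e, n, e]) := by
    have key : ∀ i j : Fin 3, i ∈ ({0, 1} : Set (Fin 3)) → j ∈ ({0, 1} : Set (Fin 3)) →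
        ⟪(![e, n, e] : Fin 3 → W) i, (![e, n, e] : Fin 3 → W) j⟫ = if i = j then 1 else 0 := by
      intro i j hi hj
      rcases hi with rfl | rfl <;> rcases hj with rfl | rfl <;> simp [he, hn, hen, hen']
    rw [orthonormal_iff_ite]
    rintro ⟨i, hi⟩ ⟨j, hj⟩
    simp only [Set.domRestrict, Subtype.mk.injEq]
    exact key i j hi hj
  obtain ⟨b, hb⟩ := hv.exists_orthonormalBasis_extension_of_card_eq hfr
  exact ⟨b, hb 0 (by simp), hb 1 (by simp)⟩

end ext

/-- Euclidean 3-space. -/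
abbrev E3 : Type := EuclideanSpace ℝ (Fin 3)

lemma finrank_E3 : Module.finrank ℝ E3 = 3 := finrank_euclideanSpace_fin

lemma finrank_orth (u : E3) (hu : u ≠ 0) : Module.finrank ℝ ↥(ℝ ∙ u)ᗮ = 2 := by
  have : Fact (Module.finrank ℝ E3 = 2 + 1) := ⟨finrank_E3⟩
  exact Submodule.finrank_orthogonal_span_singleton hu

lemma inner_proj_of_mem (W : Submodule ℝ E3) (w : E3) (hw : w ∈ W) (x : E3) :
    ⟪w, (W.orthogonalProjectionOnto x : E3)⟫ = ⟪w, x⟫ := by
  rw [← Submodule.starProjection_apply, ← Submodule.inner_starProjection_left_eq_right,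
    Submodule.starProjection_eq_self_iff.2 hw]

/-- In the plane `(ℝ ∙ u)ᗮ` with an orthonormal basis `b`, the coordinates of the projection
of `x` are the inner products of `x` with the basis vectors. -/
lemma planeEquiv_proj (u : E3) (b : OrthonormalBasis (Fin 2) ℝ ↥(ℝ ∙ u)ᗮ) (x : E3) :
    planeEquiv b ((ℝ ∙ u)ᗮ.orthogonalProjectionOnto x)
      = (⟪x, ((b 0 : ↥(ℝ ∙ u)ᗮ) : E3)⟫, ⟪x, ((b 1 : ↥(ℝ ∙ u)ᗮ) : E3)⟫) := by
  rw [planeEquiv_apply, Submodule.coe_inner, Submodule.coe_inner,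
    inner_proj_of_mem _ _ (b 0).2, inner_proj_of_mem _ _ (b 1).2,
    real_inner_comm, real_inner_comm x]

/-- A cylinder with axis `u` orthogonal to the unit vector `e` is, in suitable slab
coordinates, the preimage of a planar set of the same outer area as its base. -/
lemma cyl_transfer (u e : E3) (hu : ‖u‖ = 1) (he : ‖e‖ = 1) (hue : ⟪u, e⟫ = 0)
    (B : Set ↥(ℝ ∙ u)ᗮ) :
    ∃ n : E3, ‖n‖ = 1 ∧ ⟪n, e⟫ = 0 ∧ ∃ S : Set (ℝ × ℝ), volume S = volume B ∧
      ∀ x : E3, (ℝ ∙ u)ᗮ.orthogonalProjectionOnto x ∈ B → (⟪x, e⟫, ⟪x, n⟫) ∈ S := by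
  have hu0 : u ≠ 0 := by
    intro h; rw [h, norm_zero] at hu; exact zero_ne_one hu
  have heW : e ∈ (ℝ ∙ u)ᗮ := Submodule.mem_orthogonal_singleton_iff_inner_right.2 hue
  obtain ⟨b, hb0⟩ := exists_basis_one (finrank_orth u hu0) (⟨e, heW⟩ : ↥(ℝ ∙ u)ᗮ)
    (by rw [Submodule.coe_norm]; exact he)
  refine ⟨((b 1 : ↥(ℝ ∙ u)ᗮ) : E3), ?_, ?_, planeEquiv b '' B, ?_, ?_⟩
  · rw [← Submodule.coe_norm]; exact b.orthonormal.1 1
  · have h10 : ⟪b 1, b 0⟫ = 0 := b.orthonormal.2 (by decide)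
    rw [hb0, Submodule.coe_inner] at h10
    exact h10
  · rw [MeasurableEquiv.image_eq_preimage_symm]
    exact (MeasurePreserving.symm (planeEquiv b)
      (measurePreserving_planeEquiv b)).measure_preimage_equiv B
  · intro x hx
    refine ⟨_, hx, ?_⟩
    rw [planeEquiv_proj, hb0]

/-- The minimal projection area of `K` is at most the area of any shadow of `K` taken in
orthonormal slab coordinates. -/
lemma amin_transfer (K : Set E3) (e n' : E3) (he : ‖e‖ = 1) (hn' : ‖n'‖ = 1)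
    (hne : ⟪n', e⟫ = 0) :
    (⨅ v : Metric.sphere (0 : E3) 1,
        volume ((ℝ ∙ (v : E3))ᗮ.orthogonalProjectionOnto '' K)) ≤ volume (shadow K e n') := by
  obtain ⟨b3, hb30, hb31⟩ := exists_basis_three finrank_E3 e n' he hn' hne
  set v : E3 := b3 2 with hv
  have hv1 : ‖v‖ = 1 := b3.orthonormal.1 2
  have hv0 : v ≠ 0 := by
    intro h; rw [h, norm_zero] at hv1; exact zero_ne_one hv1
  have hve : ⟪v, e⟫ = 0 := by
    have h : ⟪b3 2, b3 0⟫ = 0 := b3.orthonormal.2 (show (2 : Fin 3) ≠ 0 by decide)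
    rwa [hb30] at h
  have hvn : ⟪v, n'⟫ = 0 := by
    have h : ⟪b3 2, b3 1⟫ = 0 := b3.orthonormal.2 (show (2 : Fin 3) ≠ 1 by decide)
    rwa [hb31] at h
  have heW : e ∈ (ℝ ∙ v)ᗮ := Submodule.mem_orthogonal_singleton_iff_inner_right.2 hve
  have hnW : n' ∈ (ℝ ∙ v)ᗮ := Submodule.mem_orthogonal_singleton_iff_inner_right.2 hvn
  obtain ⟨b, hb0, hb1⟩ := exists_basis_two (finrank_orth v hv0) (⟨e, heW⟩ : ↥(ℝ ∙ v)ᗮ)
    ⟨n', hnW⟩ (by rw [Submodule.coe_norm]; exact he) (by rw [Submodule.coe_norm]; exact hn')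
    (by rw [Submodule.coe_inner]; exact hne)
  have himage : shadow K e n'
      = planeEquiv b '' ((ℝ ∙ v)ᗮ.orthogonalProjectionOnto '' K) := by
    rw [Set.image_image]
    unfold shadow
    refine Set.image_congr fun x _ => ?_
    rw [planeEquiv_proj, hb0, hb1]
  have hvol : volume (shadow K e n')
      = volume ((ℝ ∙ v)ᗮ.orthogonalProjectionOnto '' K) := by
    rw [himage, MeasurableEquiv.image_eq_preimage_symm]
    exact (MeasurePreserving.symm (planeEquiv b)
      (measurePreserving_planeEquiv b)).measure_preimage_equiv _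
  rw [hvol]
  exact iInf_le (fun v : Metric.sphere (0 : E3) 1 =>
    volume ((ℝ ∙ (v : E3))ᗮ.orthogonalProjectionOnto '' K)) ⟨v, by simpa using hv1⟩

end Vale.Agent.Lib.P243
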