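import Mathlib
import Vale.Agent.Lib.P243.Defs
import Vale.Agent.Lib.P243.Transfer
import Vale.Agent.Lib.P243.helper18.TetraAffine
import Vale.Agent.Lib.P243.CapFiber

/-!
The capture bound for cylinders in Euclidean 3-space and its consequences for coverings of a
convex body by `m` cylinders.
-/

namespace Vale.Agent.Lib.P243.Cap

open MeasureTheory Set ENNReal
open scoped RealInnerProductSpace

/-- The linear map `x ↦ (⟪x, u⟫, (⟪x, a⟫, ⟪x, b⟫))`. -/
noncomputable def triL (u a b : E3) : E3 →ₗ[ℝ] ℝ × (ℝ × ℝ) :=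
  (innerₛₗ ℝ u).prod ((innerₛₗ ℝ a).prod (innerₛₗ ℝ b))

lemma triL_apply (u a b x : E3) : triL u a b x = (⟪x, u⟫, planeCoords a b x) := by
  simp [triL, planeCoords, real_inner_comm]

lemma triL_injective (c : OrthonormalBasis (Fin 3) ℝ E3) :
    Function.Injective (triL (c 2) (c 0) (c 1)) := by
  rw [← LinearMap.ker_eq_bot, LinearMap.ker_eq_bot']
  intro x hx
  rw [triL_apply] at hx
  have h2 : ⟪x, c 2⟫ = 0 := congrArg Prod.fst hx
  have h0 : ⟪x, c 0⟫ = 0 := congrArg (fun p : ℝ × (ℝ × ℝ) => p.2.1) hx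
  have h1 : ⟪x, c 1⟫ = 0 := congrArg (fun p : ℝ × (ℝ × ℝ) => p.2.2) hx
  have h : c.repr x = 0 := by
    ext i
    rw [OrthonormalBasis.repr_apply_apply, real_inner_comm]
    fin_cases i
    · simpa using h0
    · simpa using h1
    · simpa using h2
  exact (LinearIsometryEquiv.map_eq_zero_iff c.repr).1 h

/-- The coordinate map of an orthonormal basis as a continuous linear equivalence onto the
model space. -/
noncomputable def triE (c : OrthonormalBasis (Fin 3) ℝ E3) : E3 ≃L[ℝ] ℝ × (ℝ × ℝ) :=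
  (LinearMap.linearEquivOfInjective (triL (c 2) (c 0) (c 1)) (triL_injective c)
    (by simp)).toContinuousLinearEquiv

lemma triE_apply (c : OrthonormalBasis (Fin 3) ℝ E3) (x : E3) :
    triE c x = (⟪x, c 2⟫, planeCoords (c 0) (c 1) x) := triL_apply _ _ _ x

lemma haar_model : (volume : Measure (ℝ × (ℝ × ℝ))).IsAddHaarMeasure :=
  inferInstanceAs ((volume : Measure ℝ).prod (volume : Measure (ℝ × ℝ))).IsAddHaarMeasure

/-- The capture bound: a cylinder with measurable base `S` contains at most the fraction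
`ψ x` of the volume of a compact convex set `K`, where `x` is the area of `S` divided by the
area of the projection of `K`, capped at `1`. -/
theorem cyl_capture (K : Set E3) (hKc : IsCompact K) (hKconv : Convex ℝ K) (a b : E3)
    (hab : OrthoPair a b) (S : Set (ℝ × ℝ)) (hS : MeasurableSet S) :
    volume (K ∩ planeCoords a b ⁻¹' S)
      ≤ ENNReal.ofReal (psi (min 1 (volume S / volume (planeCoords a b '' K))).toReal)
        * volume K := by
  obtain ⟨c, hc0, hc1⟩ := exists_basis_three finrank_E3 a b hab.1 hab.2.1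
    (by rw [real_inner_comm]; exact hab.2.2)
  have hΦ : ∀ x, triE c x = (⟪x, c 2⟫, planeCoords a b x) := fun x => by
    rw [← hc0, ← hc1]
    exact triE_apply c x
  have := haar_model
  obtain ⟨κ, hκ0, hκtop, hκ⟩ := H18.exists_scale (volume : Measure E3)
    (volume : Measure (ℝ × (ℝ × ℝ))) (triE c) 0
  have hκ' : ∀ X : Set E3, volume (triE c '' X) = κ * volume X := fun X => by
    simpa using hκ X
  have hK'c : IsCompact (triE c '' K) := hKc.image (triE c).continuous
  have hK'conv : Convex ℝ (triE c '' K) := hKconv.linear_image (triE c).toLinearMap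
  have hsnd : Prod.snd '' (triE c '' K) = planeCoords a b '' K := by
    rw [image_image]
    apply image_congr
    intro x _
    rw [hΦ]
  have hcap : triE c '' (K ∩ planeCoords a b ⁻¹' S) = (triE c '' K) ∩ univ ×ˢ S := by
    ext y
    constructor
    · rintro ⟨x, ⟨hx, hxS⟩, rfl⟩
      refine ⟨⟨x, hx, rfl⟩, mem_univ _, ?_⟩
      rw [hΦ]
      exact hxS
    · rintro ⟨⟨x, hx, rfl⟩, -, h2⟩
      rw [hΦ] at h2
      exact ⟨x, ⟨hx, h2⟩, rfl⟩
  have hm := model_capture hK'c hK'conv S hS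
  rw [← hcap, hsnd, hκ', hκ', ← mul_assoc, mul_comm _ κ, mul_assoc] at hm
  exact (ENNReal.mul_le_mul_iff_right hκ0 hκtop).1 hm

lemma psi_nonneg {x : ℝ} (h0 : 0 ≤ x) (h1 : x ≤ 1) : 0 ≤ psi x := by
  unfold psi
  have hs : Real.sqrt x ≤ 1 := by
    rw [Real.sqrt_le_left (by norm_num : (0 : ℝ) ≤ 1)]
    simpa using h1
  nlinarith [mul_nonneg h0 (sub_nonneg.2 hs)]

lemma ratio_mem (r : ℝ≥0∞) : 0 ≤ (min 1 r).toReal ∧ (min 1 r).toReal ≤ 1 := by
  refine ⟨ENNReal.toReal_nonneg, ?_⟩
  have h := ENNReal.toReal_mono ENNReal.one_ne_top (min_le_left 1 r)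
  simpa using h

/-- **Capture inequality for coverings.**  If a convex body is covered by `m` cylinders and
`x i` denotes the base area of the `i`-th cylinder divided by the area of the corresponding
projection of the body (capped at `1`), then `∑ i, ψ (x i) ≥ 1`. -/
theorem capture_sum (K : Set E3) (hKconv : Convex ℝ K) (hKc : IsCompact K)
    (hKint : (interior K).Nonempty) (m : ℕ) (a b : Fin m → E3)
    (hab : ∀ i, OrthoPair (a i) (b i)) (S : Fin m → Set (ℝ × ℝ))
    (hcov : K ⊆ ⋃ i, planeCoords (a i) (b i) ⁻¹' S i) :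
    1 ≤ ∑ i, psi (min 1 (volume (S i) / volume (planeCoords (a i) (b i) '' K))).toReal := by
  have hV0 : volume K ≠ 0 := (Measure.measure_pos_of_nonempty_interior _ hKint).ne'
  have hVtop : volume K ≠ ⊤ := hKc.measure_lt_top.ne
  have hcov' : K ⊆ ⋃ i, K ∩ planeCoords (a i) (b i) ⁻¹' toMeasurable volume (S i) := by
    intro x hx
    obtain ⟨i, hi⟩ := mem_iUnion.1 (hcov hx)
    exact mem_iUnion.2 ⟨i, hx, subset_toMeasurable volume (S i) hi⟩
  have h1 : volume K ≤ ∑ i, ENNReal.ofReal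
      (psi (min 1 (volume (S i) / volume (planeCoords (a i) (b i) '' K))).toReal) * volume K := by
    refine le_trans (measure_mono hcov') (le_trans (measure_iUnion_fintype_le _ _) ?_)
    apply Finset.sum_le_sum
    intro i _
    have h := cyl_capture K hKc hKconv (a i) (b i) (hab i) (toMeasurable volume (S i))
      (measurableSet_toMeasurable _ _)
    rw [measure_toMeasurable] at h
    exact h
  rw [← Finset.sum_mul] at h1
  have h2 : (1 : ℝ≥0∞) ≤ ∑ i, ENNReal.ofReal
      (psi (min 1 (volume (S i) / volume (planeCoords (a i) (b i) '' K))).toReal) := by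
    by_contra hlt
    push_neg at hlt
    have h3 := ENNReal.mul_lt_mul_left hV0 hVtop hlt
    rw [one_mul] at h3
    exact absurd h1 (not_le.2 h3)
  rw [← ENNReal.ofReal_sum_of_nonneg (fun i _ => psi_nonneg (ratio_mem _).1 (ratio_mem _).2),
    ENNReal.one_le_ofReal] at h2
  exact h2

/-- Tangent line inequality for the convex function `x ↦ x √x`. -/
lemma tangent_line (c x : ℝ) (hc : 0 ≤ c) (hx : 0 ≤ x) :
    c * Real.sqrt c + 3 / 2 * Real.sqrt c * (x - c) ≤ x * Real.sqrt x := by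
  obtain ⟨s, hs⟩ : ∃ s, s = Real.sqrt x := ⟨_, rfl⟩
  obtain ⟨k, hk⟩ : ∃ k, k = Real.sqrt c := ⟨_, rfl⟩
  have hs0 : 0 ≤ s := by rw [hs]; exact Real.sqrt_nonneg x
  have hk0 : 0 ≤ k := by rw [hk]; exact Real.sqrt_nonneg c
  have hx2 : x = s ^ 2 := by rw [hs, Real.sq_sqrt hx]
  have hc2 : c = k ^ 2 := by rw [hk, Real.sq_sqrt hc]
  rw [← hs, ← hk, hx2, hc2]
  nlinarith [mul_nonneg (sq_nonneg (s - k)) (by positivity : (0 : ℝ) ≤ s + k / 2)]

/-- Consequence of the capture inequality in terms of the total capped relative area `R`: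
`1 ≤ 3 R - 2 R √(R / m)`. -/
theorem capture_implicit (K : Set E3) (hKconv : Convex ℝ K) (hKc : IsCompact K)
    (hKint : (interior K).Nonempty) (m : ℕ) (hm : 0 < m) (a b : Fin m → E3)
    (hab : ∀ i, OrthoPair (a i) (b i)) (S : Fin m → Set (ℝ × ℝ))
    (hcov : K ⊆ ⋃ i, planeCoords (a i) (b i) ⁻¹' S i) :
    1 ≤ 3 * (∑ i, (min 1 (volume (S i) / volume (planeCoords (a i) (b i) '' K))).toReal)
      - 2 * (∑ i, (min 1 (volume (S i) / volume (planeCoords (a i) (b i) '' K))).toReal)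
        * Real.sqrt ((∑ i, (min 1 (volume (S i)
          / volume (planeCoords (a i) (b i) '' K))).toReal) / m) := by
  have h := capture_sum K hKconv hKc hKint m a b hab S hcov
  obtain ⟨x, hx⟩ : ∃ x : Fin m → ℝ, x = fun i =>
      (min 1 (volume (S i) / volume (planeCoords (a i) (b i) '' K))).toReal := ⟨_, rfl⟩
  have hx0 : ∀ i, 0 ≤ x i := fun i => by rw [hx]; exact (ratio_mem _).1
  have h' : 1 ≤ ∑ i, psi (x i) := by rw [hx]; exact h
  show 1 ≤ 3 * (∑ i, (fun i => (min 1 (volume (S i)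
      / volume (planeCoords (a i) (b i) '' K))).toReal) i)
    - 2 * (∑ i, (fun i => (min 1 (volume (S i)
      / volume (planeCoords (a i) (b i) '' K))).toReal) i)
      * Real.sqrt ((∑ i, (fun i => (min 1 (volume (S i)
        / volume (planeCoords (a i) (b i) '' K))).toReal) i) / m)
  rw [← hx]
  have hR0 : 0 ≤ ∑ i, x i := Finset.sum_nonneg (fun i _ => hx0 i)
  have hm' : (0 : ℝ) < m := Nat.cast_pos.2 hm
  have h4 : ∑ i, psi (x i) = 3 * (∑ i, x i) - 2 * ∑ i, x i * Real.sqrt (x i) := by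
    unfold psi
    rw [Finset.sum_sub_distrib, ← Finset.mul_sum]
    congr 1
    rw [Finset.mul_sum]
    apply Finset.sum_congr rfl
    intro i _
    ring
  rw [h4] at h'
  obtain ⟨R, hRdef⟩ : ∃ R, R = ∑ i, x i := ⟨_, rfl⟩
  rw [← hRdef] at h' hR0 ⊢
  have hc0 : 0 ≤ R / m := div_nonneg hR0 hm'.le
  obtain ⟨q, hq⟩ : ∃ q, q = Real.sqrt (R / m) := ⟨_, rfl⟩
  rw [← hq]
  have h2 : ∑ i, (R / m * q + 3 / 2 * q * (x i - R / m)) ≤ ∑ i, x i * Real.sqrt (x i) :=
    Finset.sum_le_sum (fun i _ => by rw [hq]; exact tangent_line _ _ hc0 (hx0 i))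
  have h3 : ∑ i, (R / m * q + 3 / 2 * q * (x i - R / m)) = R * q := by
    have e : ∀ i, R / m * q + 3 / 2 * q * (x i - R / m)
        = (R / m * q - 3 / 2 * q * (R / m)) + 3 / 2 * q * x i := fun i => by ring
    rw [Finset.sum_congr rfl (fun i _ => e i), Finset.sum_add_distrib, ← Finset.mul_sum,
      ← hRdef, Finset.sum_const, Finset.card_univ, Fintype.card_fin, nsmul_eq_mul]
    field_simp
    ring
  rw [h3] at h2
  linarith

/-- **Explicit bound for coverings by `m` cylinders.** -/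
theorem capture_bound (K : Set E3) (hKconv : Convex ℝ K) (hKc : IsCompact K)
    (hKint : (interior K).Nonempty) (m : ℕ) (a b : Fin m → E3)
    (hab : ∀ i, OrthoPair (a i) (b i)) (S : Fin m → Set (ℝ × ℝ))
    (hcov : K ⊆ ⋃ i, planeCoords (a i) (b i) ⁻¹' S i) :
    ENNReal.ofReal (1 / 3 + 2 / (9 * Real.sqrt 3 * Real.sqrt m))
      ≤ ∑ i, volume (S i) / volume (planeCoords (a i) (b i) '' K) := by
  rcases Nat.eq_zero_or_pos m with rfl | hm
  · exfalso
    obtain ⟨x, hx⟩ := hKint
    have := hcov (interior_subset hx)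
    simp at this
  have h := capture_implicit K hKconv hKc hKint m hm a b hab S hcov
  obtain ⟨x, hx⟩ : ∃ x : Fin m → ℝ, x = fun i =>
      (min 1 (volume (S i) / volume (planeCoords (a i) (b i) '' K))).toReal := ⟨_, rfl⟩
  have hx0 : ∀ i, 0 ≤ x i := fun i => by rw [hx]; exact (ratio_mem _).1
  have h' : 1 ≤ 3 * (∑ i, x i) - 2 * (∑ i, x i) * Real.sqrt ((∑ i, x i) / m) := by
    rw [hx]; exact h
  have hR0 : 0 ≤ ∑ i, x i := Finset.sum_nonneg (fun i _ => hx0 i)
  have hm' : (0 : ℝ) < m := Nat.cast_pos.2 hm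
  have hsq0 : 0 ≤ Real.sqrt ((∑ i, x i) / m) := Real.sqrt_nonneg _
  have hR3 : 1 / 3 ≤ ∑ i, x i := by nlinarith [mul_nonneg hR0 hsq0]
  have hsq : 1 / (Real.sqrt 3 * Real.sqrt m) ≤ Real.sqrt ((∑ i, x i) / m) := by
    have e : 1 / (Real.sqrt 3 * Real.sqrt m) = Real.sqrt (1 / 3 / m) := by
      rw [Real.sqrt_div (by norm_num), Real.sqrt_div (by norm_num), Real.sqrt_one]
      field_simp
    rw [e]
    exact Real.sqrt_le_sqrt (div_le_div_of_nonneg_right hR3 hm'.le)
  have hs3 : 0 < Real.sqrt 3 := Real.sqrt_pos.2 (by norm_num)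
  have hsm : 0 < Real.sqrt m := Real.sqrt_pos.2 hm'
  have hprod : 1 / 3 * (1 / (Real.sqrt 3 * Real.sqrt m))
      ≤ (∑ i, x i) * Real.sqrt ((∑ i, x i) / m) :=
    mul_le_mul hR3 hsq (by positivity) hR0
  have hfinal : 1 / 3 + 2 / (9 * Real.sqrt 3 * Real.sqrt m) ≤ ∑ i, x i := by
    have e : 2 / (9 * Real.sqrt 3 * Real.sqrt m)
        = 2 / 3 * (1 / 3 * (1 / (Real.sqrt 3 * Real.sqrt m))) := by
      field_simp
      ring
    rw [e]
    linarith
  calc ENNReal.ofReal (1 / 3 + 2 / (9 * Real.sqrt 3 * Real.sqrt m))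
      ≤ ENNReal.ofReal (∑ i, x i) := ENNReal.ofReal_le_ofReal hfinal
    _ = ∑ i, ENNReal.ofReal (x i) := ENNReal.ofReal_sum_of_nonneg (fun i _ => hx0 i)
    _ ≤ ∑ i, volume (S i) / volume (planeCoords (a i) (b i) '' K) := by
        apply Finset.sum_le_sum
        intro i _
        rw [hx]
        simp only
        rw [ENNReal.ofReal_toReal (ne_top_of_le_ne_top ENNReal.one_ne_top (min_le_left _ _))]
        exact min_le_right _ _

end Vale.Agent.Lib.P243.Cap
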