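import Mathlib
import Vale.Agent.Lib.P243.CapMain
import Vale.Agent.Lib.P243.helper18.TetraCyl

/-!
Coverings of a convex body by cylinders whose axes point in `d` directions: cylinders with a
common axis direction merge into one cylinder, so the capture inequality holds with one term
per direction.
-/

namespace Vale.Agent.Lib.P243.Cap

open MeasureTheory Set ENNReal
open scoped RealInnerProductSpace

/-- Expansion of an inner product in an orthonormal basis of Euclidean 3-space. -/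
lemma inner_expand (c : OrthonormalBasis (Fin 3) ℝ E3) (x y : E3) :
    ⟪x, y⟫ = ⟪x, c 0⟫ * ⟪c 0, y⟫ + ⟪x, c 1⟫ * ⟪c 1, y⟫ + ⟪x, c 2⟫ * ⟪c 2, y⟫ := by
  rw [← c.sum_inner_mul_inner x y, Fin.sum_univ_three]

/-- Two orthonormal pairs orthogonal to the same nonzero vector span the same plane: the
plane coordinates with respect to one pair are a linear function of the plane coordinates
with respect to the other. -/
lemma coords_of_same_axis (a b a' b' u : E3) (hab : OrthoPair a b) (hab' : OrthoPair a' b')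
    (hu : u ≠ 0) (hua : ⟪u, a⟫ = 0) (hub : ⟪u, b⟫ = 0) (hua' : ⟪u, a'⟫ = 0)
    (hub' : ⟪u, b'⟫ = 0) :
    ∃ ρ : (ℝ × ℝ) ≃L[ℝ] (ℝ × ℝ), ∀ x, planeCoords a' b' x = ρ (planeCoords a b x) := by
  obtain ⟨ha, hb, hab0⟩ := hab
  have hba : ⟪b, a⟫ = 0 := by rw [real_inner_comm]; exact hab0
  obtain ⟨c, hc0, hc1⟩ := exists_basis_three finrank_E3 a b ha hb hba
  have hcu : ⟪u, c 2⟫ ≠ 0 := by
    intro h0
    apply hu
    have h := inner_expand c u u
    rw [hc0, hc1, hua, hub, h0] at h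
    simp only [zero_mul, add_zero] at h
    exact inner_self_eq_zero.1 h
  have key : ∀ w : E3, ⟪u, w⟫ = 0 → ∀ x : E3, ⟪x, w⟫ = ⟪x, a⟫ * ⟪a, w⟫ + ⟪x, b⟫ * ⟪b, w⟫ := by
    intro w hw x
    have h1 := inner_expand c u w
    rw [hc0, hc1, hua, hub, hw] at h1
    simp only [zero_mul, zero_add] at h1
    have h2 : ⟪c 2, w⟫ = 0 := by
      rcases mul_eq_zero.1 h1.symm with h | h
      · exact absurd h hcu
      · exact h
    have h3 := inner_expand c x w
    rw [hc0, hc1, h2, mul_zero, add_zero] at h3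
    exact h3
  set M : (ℝ × ℝ) →ₗ[ℝ] (ℝ × ℝ) :=
    ((⟪a, a'⟫ • LinearMap.fst ℝ ℝ ℝ + ⟪b, a'⟫ • LinearMap.snd ℝ ℝ ℝ).prod
      (⟪a, b'⟫ • LinearMap.fst ℝ ℝ ℝ + ⟪b, b'⟫ • LinearMap.snd ℝ ℝ ℝ)) with hM
  have hMx : ∀ x, M (planeCoords a b x) = planeCoords a' b' x := by
    intro x
    refine Prod.ext ?_ ?_
    · show ⟪a, a'⟫ * ⟪x, a⟫ + ⟪b, a'⟫ * ⟪x, b⟫ = ⟪x, a'⟫
      rw [key a' hua' x]
      ring
    · show ⟪a, b'⟫ * ⟪x, a⟫ + ⟪b, b'⟫ * ⟪x, b⟫ = ⟪x, b'⟫
      rw [key b' hub' x]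
      ring
  have hsurj : Function.Surjective M := by
    intro w
    obtain ⟨x, hx⟩ := H18.planeL_surjective a' b' hab' w
    rw [H18.planeL_apply] at hx
    exact ⟨planeCoords a b x, by rw [hMx, hx]⟩
  have hinj : Function.Injective M := LinearMap.injective_iff_surjective.2 hsurj
  refine ⟨(LinearEquiv.ofBijective M ⟨hinj, hsurj⟩).toContinuousLinearEquiv, fun x => ?_⟩
  rw [← hMx x]
  rfl

/-- The ratio of the areas of two sets is invariant under preimages by a linear isomorphism. -/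
lemma ratio_preimage (ρ : (ℝ × ℝ) ≃L[ℝ] (ℝ × ℝ)) (S P : Set (ℝ × ℝ)) :
    volume (ρ ⁻¹' S) / volume (ρ ⁻¹' P) = volume S / volume P := by
  obtain ⟨κ, hκ0, hκtop, hκ⟩ := H18.exists_scale (volume : Measure (ℝ × ℝ))
    (volume : Measure (ℝ × ℝ)) ρ.symm 0
  have hκ' : ∀ X : Set (ℝ × ℝ), volume (ρ ⁻¹' X) = κ * volume X := fun X => by
    have h := hκ X
    simp only [zero_add] at h
    rw [← h, ContinuousLinearEquiv.image_symm_eq_preimage]
  rw [hκ' S, hκ' P, ENNReal.mul_div_mul_left _ _ hκ0 hκtop]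

/-- `ψ` is nondecreasing on `[0, 1]`. -/
lemma psi_mono {x y : ℝ} (hx : 0 ≤ x) (hxy : x ≤ y) (hy : y ≤ 1) : psi x ≤ psi y := by
  unfold psi
  obtain ⟨s, hs⟩ : ∃ s, s = Real.sqrt x := ⟨_, rfl⟩
  obtain ⟨t, ht⟩ : ∃ t, t = Real.sqrt y := ⟨_, rfl⟩
  have hs0 : 0 ≤ s := by rw [hs]; exact Real.sqrt_nonneg x
  have hst : s ≤ t := by rw [hs, ht]; exact Real.sqrt_le_sqrt hxy
  have ht1 : t ≤ 1 := by
    rw [ht, Real.sqrt_le_left (by norm_num : (0 : ℝ) ≤ 1)]
    simpa using hy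
  have hx2 : x = s ^ 2 := by rw [hs, Real.sq_sqrt hx]
  have hy2 : y = t ^ 2 := by rw [ht, Real.sq_sqrt (le_trans hx hxy)]
  rw [← hs, ← ht, hx2, hy2]
  have h1 : 0 ≤ (t - s) * (3 * (t + s) - 2 * (t ^ 2 + t * s + s ^ 2)) := by
    apply mul_nonneg (by linarith)
    nlinarith [mul_nonneg hs0 (sub_nonneg.2 ht1), mul_nonneg (le_trans hs0 hst) (sub_nonneg.2 ht1),
      mul_nonneg hs0 (sub_nonneg.2 hst), mul_nonneg hs0 hs0]
  nlinarith

/-- Monotonicity of the capture bound in the relative area. -/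
lemma capture_mono {r r' : ℝ≥0∞} (h : r ≤ r') :
    ENNReal.ofReal (psi (min 1 r).toReal) ≤ ENNReal.ofReal (psi (min 1 r').toReal) := by
  apply ENNReal.ofReal_le_ofReal
  apply psi_mono (ratio_mem r).1 _ (ratio_mem r').2
  exact ENNReal.toReal_mono (ne_top_of_le_ne_top ENNReal.one_ne_top (min_le_left _ _))
    (min_le_min le_rfl h)

/-- **Capture bound for a group of cylinders with a common axis direction.** -/
theorem group_capture (K : Set E3) (hKc : IsCompact K) (hKconv : Convex ℝ K)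
    {ι : Type*} (s : Finset ι) (a b : ι → E3) (hab : ∀ i ∈ s, OrthoPair (a i) (b i)) (u : E3)
    (hax : ∀ i ∈ s, u ≠ 0 ∧ ⟪u, a i⟫ = 0 ∧ ⟪u, b i⟫ = 0)
    (S : ι → Set (ℝ × ℝ)) (hS : ∀ i ∈ s, MeasurableSet (S i)) :
    volume (K ∩ ⋃ i ∈ s, planeCoords (a i) (b i) ⁻¹' S i)
      ≤ ENNReal.ofReal (psi (min 1 (∑ i ∈ s,
          volume (S i) / volume (planeCoords (a i) (b i) '' K))).toReal) * volume K := by
  classical
  rcases s.eq_empty_or_nonempty with rfl | ⟨i₀, hi₀⟩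
  · simp
  have hex : ∀ i, ∃ ρ : (ℝ × ℝ) ≃L[ℝ] (ℝ × ℝ), i ∈ s →
      ∀ x, planeCoords (a i) (b i) x = ρ (planeCoords (a i₀) (b i₀) x) := by
    intro i
    by_cases hi : i ∈ s
    · obtain ⟨ρ, hρ⟩ := coords_of_same_axis (a i₀) (b i₀) (a i) (b i) u (hab i₀ hi₀) (hab i hi)
        (hax i₀ hi₀).1 (hax i₀ hi₀).2.1 (hax i₀ hi₀).2.2 (hax i hi).2.1 (hax i hi).2.2
      exact ⟨ρ, fun _ => hρ⟩
    · exact ⟨ContinuousLinearEquiv.refl ℝ (ℝ × ℝ), fun h => absurd h hi⟩
  choose ρ hρ using hex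
  set S' : Set (ℝ × ℝ) := ⋃ i ∈ s, ρ i ⁻¹' S i with hS'
  have hS'm : MeasurableSet S' :=
    Finset.measurableSet_biUnion s (fun i hi => (ρ i).continuous.measurable (hS i hi))
  have hset : K ∩ ⋃ i ∈ s, planeCoords (a i) (b i) ⁻¹' S i
      = K ∩ planeCoords (a i₀) (b i₀) ⁻¹' S' := by
    ext x
    simp only [mem_inter_iff, mem_iUnion, mem_preimage, hS', exists_prop]
    constructor
    · rintro ⟨hx, i, hi, hxi⟩
      exact ⟨hx, i, hi, by rw [← hρ i hi x]; exact hxi⟩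
    · rintro ⟨hx, i, hi, hxi⟩
      exact ⟨hx, i, hi, by rw [hρ i hi x]; exact hxi⟩
  have hcap := cyl_capture K hKc hKconv (a i₀) (b i₀) (hab i₀ hi₀) S' hS'm
  rw [hset]
  refine le_trans hcap (mul_le_mul_left (capture_mono ?_) _)
  have h1 : volume S' ≤ ∑ i ∈ s, volume (ρ i ⁻¹' S i) := measure_biUnion_finset_le s _
  have h2 : ∀ i ∈ s, volume (ρ i ⁻¹' S i) / volume (planeCoords (a i₀) (b i₀) '' K)
      = volume (S i) / volume (planeCoords (a i) (b i) '' K) := by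
    intro i hi
    have h3 : planeCoords (a i₀) (b i₀) '' K = ρ i ⁻¹' (planeCoords (a i) (b i) '' K) := by
      have h4 : planeCoords (a i) (b i) '' K = ρ i '' (planeCoords (a i₀) (b i₀) '' K) := by
        rw [image_image]
        exact image_congr (fun x _ => hρ i hi x)
      rw [h4, preimage_image_eq _ (ρ i).injective]
    rw [h3, ratio_preimage]
  calc volume S' / volume (planeCoords (a i₀) (b i₀) '' K)
      ≤ (∑ i ∈ s, volume (ρ i ⁻¹' S i)) / volume (planeCoords (a i₀) (b i₀) '' K) :=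
        ENNReal.div_le_div_right h1 _
    _ = ∑ i ∈ s, volume (ρ i ⁻¹' S i) / volume (planeCoords (a i₀) (b i₀) '' K) := by
        simp only [div_eq_mul_inv, Finset.sum_mul]
    _ = ∑ i ∈ s, volume (S i) / volume (planeCoords (a i) (b i) '' K) :=
        Finset.sum_congr rfl h2

/-- **Capture inequality with one term per axis direction.**  If a convex body is covered by
`m` cylinders whose axes point in the directions `u 0, …, u (d - 1)` (cylinder `i` has axis
direction `u (g i)`) and `y k` denotes the total relative base area of the cylinders with axis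
direction `u k`, capped at `1`, then `∑ k, ψ (y k) ≥ 1`. -/
theorem dir_capture_sum (K : Set E3) (hKconv : Convex ℝ K) (hKc : IsCompact K)
    (hKint : (interior K).Nonempty) (m d : ℕ) (a b : Fin m → E3)
    (hab : ∀ i, OrthoPair (a i) (b i)) (u : Fin d → E3) (g : Fin m → Fin d)
    (hax : ∀ i, u (g i) ≠ 0 ∧ ⟪u (g i), a i⟫ = 0 ∧ ⟪u (g i), b i⟫ = 0)
    (S : Fin m → Set (ℝ × ℝ)) (hcov : K ⊆ ⋃ i, planeCoords (a i) (b i) ⁻¹' S i) :
    1 ≤ ∑ k : Fin d, psi (min 1 (∑ i ∈ Finset.univ.filter (fun i => g i = k),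
        volume (S i) / volume (planeCoords (a i) (b i) '' K))).toReal := by
  have hV0 : volume K ≠ 0 := (Measure.measure_pos_of_nonempty_interior _ hKint).ne'
  have hVtop : volume K ≠ ⊤ := hKc.measure_lt_top.ne
  have hcov' : K ⊆ ⋃ k : Fin d, K ∩ ⋃ i ∈ Finset.univ.filter (fun i => g i = k),
      planeCoords (a i) (b i) ⁻¹' toMeasurable volume (S i) := by
    intro x hx
    obtain ⟨i, hi⟩ := mem_iUnion.1 (hcov hx)
    refine mem_iUnion.2 ⟨g i, hx, ?_⟩
    refine mem_iUnion₂.2 ⟨i, ?_, subset_toMeasurable volume (S i) hi⟩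
    exact Finset.mem_filter.2 ⟨Finset.mem_univ i, rfl⟩
  have h1 : volume K ≤ ∑ k : Fin d, ENNReal.ofReal
      (psi (min 1 (∑ i ∈ Finset.univ.filter (fun i => g i = k),
        volume (S i) / volume (planeCoords (a i) (b i) '' K))).toReal) * volume K := by
    refine le_trans (measure_mono hcov') (le_trans (measure_iUnion_fintype_le _ _) ?_)
    apply Finset.sum_le_sum
    intro k _
    have h := group_capture K hKc hKconv (Finset.univ.filter (fun i => g i = k)) a b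
      (fun i _ => hab i) (u k)
      (fun i hi => by
        have hk : g i = k := (Finset.mem_filter.1 hi).2
        rw [← hk]
        exact hax i)
      (fun i => toMeasurable volume (S i)) (fun i _ => measurableSet_toMeasurable _ _)
    simp only [measure_toMeasurable] at h
    exact h
  rw [← Finset.sum_mul] at h1
  have h2 : (1 : ℝ≥0∞) ≤ ∑ k : Fin d, ENNReal.ofReal
      (psi (min 1 (∑ i ∈ Finset.univ.filter (fun i => g i = k),
        volume (S i) / volume (planeCoords (a i) (b i) '' K))).toReal) := by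
    by_contra hlt
    push_neg at hlt
    have h3 := ENNReal.mul_lt_mul_left hV0 hVtop hlt
    rw [one_mul] at h3
    exact absurd h1 (not_le.2 h3)
  rw [← ENNReal.ofReal_sum_of_nonneg (fun k _ => psi_nonneg (ratio_mem _).1 (ratio_mem _).2),
    ENNReal.one_le_ofReal] at h2
  exact h2

/-- From `∑ ψ (x k) ≥ 1` to the implicit inequality `1 ≤ 3 R - 2 R √(R / d)` for the total
`R = ∑ x k`. -/
lemma implicit_of_psi_sum {d : ℕ} (hd : 0 < d) (x : Fin d → ℝ) (hx0 : ∀ k, 0 ≤ x k)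
    (h' : 1 ≤ ∑ k, psi (x k)) :
    1 ≤ 3 * (∑ k, x k) - 2 * (∑ k, x k) * Real.sqrt ((∑ k, x k) / d) := by
  have hR0 : 0 ≤ ∑ i, x i := Finset.sum_nonneg (fun i _ => hx0 i)
  have hm' : (0 : ℝ) < d := Nat.cast_pos.2 hd
  have h4 : ∑ i, psi (x i) = 3 * (∑ i, x i) - 2 * ∑ i, x i * Real.sqrt (x i) := by
    unfold psi
    rw [Finset.sum_sub_distrib, ← Finset.mul_sum]
    congr 1
    rw [Finset.mul_sum]
    apply Finset.sum_congr rfl
    intro i _
    ring
  rw [h4] at h'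
  obtain ⟨R, hRdef⟩ : ∃ R, R = ∑ i, x i := ⟨_, rfl⟩
  rw [← hRdef] at h' hR0 ⊢
  have hc0 : 0 ≤ R / d := div_nonneg hR0 hm'.le
  obtain ⟨q, hq⟩ : ∃ q, q = Real.sqrt (R / d) := ⟨_, rfl⟩
  rw [← hq]
  have h2 : ∑ i, (R / d * q + 3 / 2 * q * (x i - R / d)) ≤ ∑ i, x i * Real.sqrt (x i) :=
    Finset.sum_le_sum (fun i _ => by rw [hq]; exact tangent_line _ _ hc0 (hx0 i))
  have h3 : ∑ i, (R / d * q + 3 / 2 * q * (x i - R / d)) = R * q := by
    have e : ∀ i, R / d * q + 3 / 2 * q * (x i - R / d)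
        = (R / d * q - 3 / 2 * q * (R / d)) + 3 / 2 * q * x i := fun i => by ring
    rw [Finset.sum_congr rfl (fun i _ => e i), Finset.sum_add_distrib, ← Finset.mul_sum,
      ← hRdef, Finset.sum_const, Finset.card_univ, Fintype.card_fin, nsmul_eq_mul]
    field_simp
    ring
  rw [h3] at h2
  linarith

/-- The implicit inequality gives the explicit lower bound `1 / 3 + 2 / (9 √3 √d)`. -/
lemma bound_of_implicit {d : ℕ} (hd : 0 < d) (R : ℝ) (hR0 : 0 ≤ R)
    (h' : 1 ≤ 3 * R - 2 * R * Real.sqrt (R / d)) :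
    1 / 3 + 2 / (9 * Real.sqrt 3 * Real.sqrt d) ≤ R := by
  have hm' : (0 : ℝ) < d := Nat.cast_pos.2 hd
  have hsq0 : 0 ≤ Real.sqrt (R / d) := Real.sqrt_nonneg _
  have hR3 : 1 / 3 ≤ R := by nlinarith [mul_nonneg hR0 hsq0]
  have hsq : 1 / (Real.sqrt 3 * Real.sqrt d) ≤ Real.sqrt (R / d) := by
    have e : 1 / (Real.sqrt 3 * Real.sqrt d) = Real.sqrt (1 / 3 / d) := by
      rw [Real.sqrt_div (by norm_num), Real.sqrt_div (by norm_num), Real.sqrt_one]
      field_simp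
    rw [e]
    exact Real.sqrt_le_sqrt (div_le_div_of_nonneg_right hR3 hm'.le)
  have hs3 : 0 < Real.sqrt 3 := Real.sqrt_pos.2 (by norm_num)
  have hsm : 0 < Real.sqrt d := Real.sqrt_pos.2 hm'
  have hprod : 1 / 3 * (1 / (Real.sqrt 3 * Real.sqrt d)) ≤ R * Real.sqrt (R / d) :=
    mul_le_mul hR3 hsq (by positivity) hR0
  have e : 2 / (9 * Real.sqrt 3 * Real.sqrt d)
      = 2 / 3 * (1 / 3 * (1 / (Real.sqrt 3 * Real.sqrt d))) := by
    field_simp
    ring
  rw [e]
  linarith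

/-- For at most two terms the implicit inequality gives `R ≥ 1 / 2`. -/
lemma half_of_implicit {d : ℕ} (hd : 0 < d) (hd2 : d ≤ 2) (R : ℝ) (hR0 : 0 ≤ R)
    (h' : 1 ≤ 3 * R - 2 * R * Real.sqrt (R / d)) : 1 / 2 ≤ R := by
  by_contra hlt
  push_neg at hlt
  have hd' : (0 : ℝ) < d := Nat.cast_pos.2 hd
  have hd2' : (d : ℝ) ≤ 2 := by exact_mod_cast hd2
  have h1 : Real.sqrt (R / 2) ≤ Real.sqrt (R / d) :=
    Real.sqrt_le_sqrt (div_le_div_of_nonneg_left hR0 hd' hd2')
  obtain ⟨q, hq⟩ : ∃ q, q = Real.sqrt (R / 2) := ⟨_, rfl⟩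
  have hq0 : 0 ≤ q := by rw [hq]; exact Real.sqrt_nonneg _
  have hq2 : q ^ 2 = R / 2 := by rw [hq, Real.sq_sqrt (by positivity)]
  rw [← hq] at h1
  have h2 : 1 ≤ 3 * R - 2 * R * q := by nlinarith [mul_le_mul_of_nonneg_left h1 hR0]
  have hR : R = 2 * q ^ 2 := by linarith
  rw [hR] at h2 hlt
  have hq_lt : q < 1 / 2 := by nlinarith
  nlinarith [mul_nonneg hq0 hq0, mul_pos (by linarith : (0 : ℝ) < 1 - 2 * q)
    (by nlinarith : (0 : ℝ) < 1 + 2 * q - 2 * q ^ 2)]

/-- For at most three terms the implicit inequality gives `R ≥ 4 / 9`. -/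
lemma fourninths_of_implicit {d : ℕ} (hd : 0 < d) (hd3 : d ≤ 3) (R : ℝ) (hR0 : 0 ≤ R)
    (h' : 1 ≤ 3 * R - 2 * R * Real.sqrt (R / d)) : 4 / 9 ≤ R := by
  by_contra hlt
  push_neg at hlt
  have hd' : (0 : ℝ) < d := Nat.cast_pos.2 hd
  have hd3' : (d : ℝ) ≤ 3 := by exact_mod_cast hd3
  have h1 : Real.sqrt (R / 3) ≤ Real.sqrt (R / d) :=
    Real.sqrt_le_sqrt (div_le_div_of_nonneg_left hR0 hd' hd3')
  obtain ⟨q, hq⟩ : ∃ q, q = Real.sqrt (R / 3) := ⟨_, rfl⟩
  have hq0 : 0 ≤ q := by rw [hq]; exact Real.sqrt_nonneg _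
  have hq2 : q ^ 2 = R / 3 := by rw [hq, Real.sq_sqrt (by positivity)]
  rw [← hq] at h1
  have h2 : 1 ≤ 3 * R - 2 * R * q := by nlinarith [mul_le_mul_of_nonneg_left h1 hR0]
  have hR : R = 3 * q ^ 2 := by linarith
  rw [hR] at h2 hlt
  have hqq : 0 ≤ q ^ 2 := sq_nonneg q
  have ha : 1 / 3 ≤ q := by
    by_contra hcon
    push_neg at hcon
    nlinarith [mul_nonneg hq0 hqq]
  have hb : 3 / 8 ≤ q := by
    by_contra hcon
    push_neg at hcon
    nlinarith [mul_nonneg (sub_nonneg.2 ha) hqq]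
  nlinarith [mul_nonneg (sub_nonneg.2 hb) hqq]

lemma ofReal_half : ENNReal.ofReal (1 / 2) = 1 / 2 := by
  rw [ENNReal.ofReal_div_of_pos (by norm_num)]
  simp

lemma ofReal_fourninths : ENNReal.ofReal (4 / 9) = 4 / 9 := by
  rw [ENNReal.ofReal_div_of_pos (by norm_num)]
  simp

/-- The capped group totals sum to at most the total relative area. -/
lemma group_sum_le {m d : ℕ} (g : Fin m → Fin d) (ratio : Fin m → ℝ≥0∞) :
    ENNReal.ofReal (∑ k : Fin d,
        (min 1 (∑ i ∈ Finset.univ.filter (fun i => g i = k), ratio i)).toReal)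
      ≤ ∑ i, ratio i := by
  rw [ENNReal.ofReal_sum_of_nonneg (fun k _ => ENNReal.toReal_nonneg)]
  calc ∑ k : Fin d, ENNReal.ofReal
          (min 1 (∑ i ∈ Finset.univ.filter (fun i => g i = k), ratio i)).toReal
      ≤ ∑ k : Fin d, ∑ i ∈ Finset.univ.filter (fun i => g i = k), ratio i := by
        apply Finset.sum_le_sum
        intro k _
        rw [ENNReal.ofReal_toReal (ne_top_of_le_ne_top ENNReal.one_ne_top (min_le_left _ _))]
        exact min_le_right _ _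
    _ = ∑ i, ratio i := Finset.sum_fiberwise Finset.univ g ratio

/-- **Explicit bound for coverings by cylinders with `d` axis directions.** -/
theorem dir_bound (K : Set E3) (hKconv : Convex ℝ K) (hKc : IsCompact K)
    (hKint : (interior K).Nonempty) (m d : ℕ) (a b : Fin m → E3)
    (hab : ∀ i, OrthoPair (a i) (b i)) (u : Fin d → E3) (g : Fin m → Fin d)
    (hax : ∀ i, u (g i) ≠ 0 ∧ ⟪u (g i), a i⟫ = 0 ∧ ⟪u (g i), b i⟫ = 0)
    (S : Fin m → Set (ℝ × ℝ)) (hcov : K ⊆ ⋃ i, planeCoords (a i) (b i) ⁻¹' S i) :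
    ENNReal.ofReal (1 / 3 + 2 / (9 * Real.sqrt 3 * Real.sqrt d))
      ≤ ∑ i, volume (S i) / volume (planeCoords (a i) (b i) '' K) := by
  have hd : 0 < d := by
    obtain ⟨x, hx⟩ := hKint
    obtain ⟨i, -⟩ := mem_iUnion.1 (hcov (interior_subset hx))
    exact (g i).pos
  have h := dir_capture_sum K hKconv hKc hKint m d a b hab u g hax S hcov
  have h2 := implicit_of_psi_sum hd _ (fun k => (ratio_mem _).1) h
  have h3 := bound_of_implicit hd _ (Finset.sum_nonneg (fun k _ => (ratio_mem _).1)) h2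
  exact le_trans (ENNReal.ofReal_le_ofReal h3)
    (group_sum_le g (fun i => volume (S i) / volume (planeCoords (a i) (b i) '' K)))

/-- **Half-area bound for coverings by cylinders with at most two axis directions.** -/
theorem dir_half (K : Set E3) (hKconv : Convex ℝ K) (hKc : IsCompact K)
    (hKint : (interior K).Nonempty) (m d : ℕ) (hd2 : d ≤ 2) (a b : Fin m → E3)
    (hab : ∀ i, OrthoPair (a i) (b i)) (u : Fin d → E3) (g : Fin m → Fin d)
    (hax : ∀ i, u (g i) ≠ 0 ∧ ⟪u (g i), a i⟫ = 0 ∧ ⟪u (g i), b i⟫ = 0)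
    (S : Fin m → Set (ℝ × ℝ)) (hcov : K ⊆ ⋃ i, planeCoords (a i) (b i) ⁻¹' S i) :
    ENNReal.ofReal (1 / 2)
      ≤ ∑ i, volume (S i) / volume (planeCoords (a i) (b i) '' K) := by
  have hd : 0 < d := by
    obtain ⟨x, hx⟩ := hKint
    obtain ⟨i, -⟩ := mem_iUnion.1 (hcov (interior_subset hx))
    exact (g i).pos
  have h := dir_capture_sum K hKconv hKc hKint m d a b hab u g hax S hcov
  have h2 := implicit_of_psi_sum hd _ (fun k => (ratio_mem _).1) h
  have h3 := half_of_implicit hd hd2 _ (Finset.sum_nonneg (fun k _ => (ratio_mem _).1)) h2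
  exact le_trans (ENNReal.ofReal_le_ofReal h3)
    (group_sum_le g (fun i => volume (S i) / volume (planeCoords (a i) (b i) '' K)))

/-- **Bound `4 / 9` for coverings by cylinders with at most three axis directions.** -/
theorem dir_fourninths (K : Set E3) (hKconv : Convex ℝ K) (hKc : IsCompact K)
    (hKint : (interior K).Nonempty) (m d : ℕ) (hd3 : d ≤ 3) (a b : Fin m → E3)
    (hab : ∀ i, OrthoPair (a i) (b i)) (u : Fin d → E3) (g : Fin m → Fin d)
    (hax : ∀ i, u (g i) ≠ 0 ∧ ⟪u (g i), a i⟫ = 0 ∧ ⟪u (g i), b i⟫ = 0)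
    (S : Fin m → Set (ℝ × ℝ)) (hcov : K ⊆ ⋃ i, planeCoords (a i) (b i) ⁻¹' S i) :
    ENNReal.ofReal (4 / 9)
      ≤ ∑ i, volume (S i) / volume (planeCoords (a i) (b i) '' K) := by
  have hd : 0 < d := by
    obtain ⟨x, hx⟩ := hKint
    obtain ⟨i, -⟩ := mem_iUnion.1 (hcov (interior_subset hx))
    exact (g i).pos
  have h := dir_capture_sum K hKconv hKc hKint m d a b hab u g hax S hcov
  have h2 := implicit_of_psi_sum hd _ (fun k => (ratio_mem _).1) h
  have h3 := fourninths_of_implicit hd hd3 _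
    (Finset.sum_nonneg (fun k _ => (ratio_mem _).1)) h2
  exact le_trans (ENNReal.ofReal_le_ofReal h3)
    (group_sum_le g (fun i => volume (S i) / volume (planeCoords (a i) (b i) '' K)))

end Vale.Agent.Lib.P243.Cap
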