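import Mathlib
import Vale.Agent.Lib.P243.Defs
import Vale.Agent.Lib.P243.Transfer

/-!
Bang's half-area bound in coordinates: cylinders are preimages of planar sets under the
orthonormal coordinates of a plane.
-/

namespace Vale.Agent.Lib.P243

open scoped RealInnerProductSpace
open MeasureTheory Set

/-- The minimal projection area, as an infimum over orthonormal pairs. -/
lemma amin_le_shadow (K : Set E3) (a b : E3) (h : OrthoPair a b) :
    (⨅ (a : E3) (b : E3) (_ : OrthoPair a b), volume (planeCoords a b '' K))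
      ≤ volume (shadow K a b) :=
  iInf_le_of_le a (iInf_le_of_le b (iInf_le_of_le h le_rfl))

lemma exists_orthoPair : ∃ a b : E3, OrthoPair a b := by
  have hb := (EuclideanSpace.basisFun (Fin 3) ℝ).orthonormal
  exact ⟨_, _, hb.1 0, hb.1 1, hb.2 (show (0 : Fin 3) ≠ 1 by decide)⟩

lemma amin_empty (K : Set E3) (hK : K = ∅) :
    (⨅ (a : E3) (b : E3) (_ : OrthoPair a b), volume (planeCoords a b '' K)) = 0 := by
  obtain ⟨a, b, hab⟩ := exists_orthoPair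
  refine le_antisymm ?_ zero_le
  refine iInf_le_of_le a (iInf_le_of_le b (iInf_le_of_le hab ?_))
  rw [hK, image_empty, measure_empty]

/-- Core statement in slab coordinates. -/
theorem coord_core (K : Set E3) (hKconv : Convex ℝ K) (hKc : IsCompact K) (hKne : K.Nonempty)
    (e : E3) (he : ‖e‖ = 1) {m : ℕ} (n : Fin m → E3) (hn : ∀ i, ‖n i‖ = 1)
    (hne : ∀ i, ⟪n i, e⟫ = 0) (S : Fin m → Set (ℝ × ℝ))
    (hcov : ∀ x ∈ K, ∃ i, (⟪x, e⟫, ⟪x, n i⟫) ∈ S i) :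
    (1 / 2 : ENNReal) * (⨅ (a : E3) (b : E3) (_ : OrthoPair a b),
        volume (planeCoords a b '' K)) ≤ ∑ i, volume (S i) := by
  set A : ENNReal := ⨅ (a : E3) (b : E3) (_ : OrthoPair a b),
    volume (planeCoords a b '' K) with hA
  have hpair : ∀ n' : E3, ‖n'‖ = 1 → ⟪n', e⟫ = 0 → OrthoPair e n' := fun n' hn' hne' =>
    ⟨he, hn', by rw [real_inner_comm]; exact hne'⟩
  obtain ⟨x₀, hx₀⟩ := hKne
  obtain ⟨i₀, -⟩ := hcov x₀ hx₀
  have hAfin : A ≠ ⊤ := by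
    have h1 : A ≤ volume (shadow K e (n i₀)) :=
      amin_le_shadow K e (n i₀) (hpair _ (hn i₀) (hne i₀))
    exact (h1.trans_lt (isCompact_shadow hKc e (n i₀)).measure_lt_top).ne
  have hm₀ : ∀ n' : E3, ‖n'‖ = 1 → ⟪n', e⟫ = 0 →
      ENNReal.ofReal A.toReal ≤ volume (shadow K e n') := fun n' hn' hne' =>
    ENNReal.ofReal_toReal_le.trans (amin_le_shadow K e n' (hpair n' hn' hne'))
  have hmain := slab_cover_bound K hKc hKconv ⟨x₀, hx₀⟩ e n hn hne S hcov A.toReal hm₀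
  have hhalf : (1 / 2 : ENNReal) * A = ENNReal.ofReal (A.toReal / 2) := by
    rw [ENNReal.ofReal_div_of_pos (by norm_num : (0 : ℝ) < 2), ENNReal.ofReal_toReal hAfin,
      ENNReal.ofReal_ofNat, one_div, ENNReal.div_eq_inv_mul]
  rw [hhalf]
  exact hmain

/-- A cylinder given in the orthonormal coordinates `(a, b)` of the plane orthogonal to `u`
can be rewritten in slab coordinates `(e, n)` for any unit vector `e` orthogonal to `u`. -/
lemma coord_transfer (a b u e : E3) (hab : OrthoPair a b) (hu : u ≠ 0) (hua : ⟪u, a⟫ = 0)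
    (hub : ⟪u, b⟫ = 0) (he : ‖e‖ = 1) (hue : ⟪u, e⟫ = 0) (S : Set (ℝ × ℝ)) :
    ∃ n : E3, ‖n‖ = 1 ∧ ⟪n, e⟫ = 0 ∧ ∃ S' : Set (ℝ × ℝ), volume S' = volume S ∧
      ∀ x : E3, planeCoords a b x ∈ S → (⟪x, e⟫, ⟪x, n⟫) ∈ S' := by
  set u' : E3 := (‖u‖)⁻¹ • u with hu'
  have hupos : 0 < ‖u‖ := norm_pos_iff.2 hu
  have hu'1 : ‖u'‖ = 1 := by
    rw [hu', norm_smul, norm_inv, norm_norm, inv_mul_cancel₀ hupos.ne']
  have hu'0 : u' ≠ 0 := by
    intro h; rw [h, norm_zero] at hu'1; exact zero_ne_one hu'1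
  have hu'a : ⟪u', a⟫ = 0 := by rw [hu', inner_smul_left, hua, mul_zero]
  have hu'b : ⟪u', b⟫ = 0 := by rw [hu', inner_smul_left, hub, mul_zero]
  have hu'e : ⟪u', e⟫ = 0 := by rw [hu', inner_smul_left, hue, mul_zero]
  have haW : a ∈ (ℝ ∙ u')ᗮ := Submodule.mem_orthogonal_singleton_iff_inner_right.2 hu'a
  have hbW : b ∈ (ℝ ∙ u')ᗮ := Submodule.mem_orthogonal_singleton_iff_inner_right.2 hu'b
  obtain ⟨β, hβ0, hβ1⟩ := exists_basis_two (finrank_orth u' hu'0) (⟨a, haW⟩ : ↥(ℝ ∙ u')ᗮ)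
    ⟨b, hbW⟩ (by rw [Submodule.coe_norm]; exact hab.1) (by rw [Submodule.coe_norm]; exact hab.2.1)
    (by rw [Submodule.coe_inner, real_inner_comm]; exact hab.2.2)
  obtain ⟨n, hn, hne, S', hS'vol, hS'⟩ :=
    cyl_transfer u' e hu'1 he hu'e (planeEquiv β ⁻¹' S)
  refine ⟨n, hn, hne, S', ?_, ?_⟩
  · rw [hS'vol]
    exact (measurePreserving_planeEquiv β).measure_preimage_equiv S
  · intro x hx
    apply hS' x
    change planeEquiv β ((ℝ ∙ u')ᗮ.orthogonalProjectionOnto x) ∈ S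
    rw [planeEquiv_proj, hβ0, hβ1]
    exact hx

/-- A nonzero vector orthogonal to two given vectors of Euclidean 3-space. -/
lemma exists_common_normal (u₁ u₂ : E3) : ∃ e : E3, e ≠ 0 ∧ ⟪u₁, e⟫ = 0 ∧ ⟪u₂, e⟫ = 0 := by
  set P : Submodule ℝ E3 := Submodule.span ℝ (Set.range ![u₁, u₂]) with hP
  have h1 : Module.finrank ℝ ↥P ≤ 2 := by
    have h : Module.finrank ℝ ↥P ≤ Fintype.card (Fin 2) :=
      finrank_range_le_card (R := ℝ) ![u₁, u₂]
    simpa using h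
  have h2 := Submodule.finrank_add_finrank_orthogonal P
  rw [finrank_E3] at h2
  have h3 : Pᗮ ≠ ⊥ := by
    intro h
    rw [h, finrank_bot] at h2
    omega
  obtain ⟨z, hz, hz0⟩ := Submodule.exists_mem_ne_zero_of_ne_bot h3
  refine ⟨z, hz0, ?_, ?_⟩
  · exact (Submodule.mem_orthogonal P z).1 hz u₁ (Submodule.subset_span ⟨0, rfl⟩)
  · exact (Submodule.mem_orthogonal P z).1 hz u₂ (Submodule.subset_span ⟨1, rfl⟩)

/-- Coordinate form of the half-area bound for cylinders whose axes are orthogonal to a common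
nonzero vector `e`. -/
theorem coord_coplanar (K : Set E3) (hKconv : Convex ℝ K) (hKc : IsCompact K) {m : ℕ}
    (a b u : Fin m → E3) (hab : ∀ i, OrthoPair (a i) (b i))
    (hu : ∀ i, u i ≠ 0 ∧ ⟪u i, a i⟫ = 0 ∧ ⟪u i, b i⟫ = 0)
    (e : E3) (he : e ≠ 0) (hue : ∀ i, ⟪u i, e⟫ = 0) (S : Fin m → Set (ℝ × ℝ))
    (hcov : K ⊆ ⋃ i, planeCoords (a i) (b i) ⁻¹' S i) :
    (1 / 2 : ENNReal) * (⨅ (a : E3) (b : E3) (_ : OrthoPair a b),
        volume (planeCoords a b '' K)) ≤ ∑ i, volume (S i) := by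
  rcases K.eq_empty_or_nonempty with hKe | hKne
  · rw [amin_empty K hKe, mul_zero]
    exact zero_le
  · set e' : E3 := (‖e‖)⁻¹ • e with he'
    have hepos : 0 < ‖e‖ := norm_pos_iff.2 he
    have he'1 : ‖e'‖ = 1 := by
      rw [he', norm_smul, norm_inv, norm_norm, inv_mul_cancel₀ hepos.ne']
    have hue' : ∀ i, ⟪u i, e'⟫ = 0 := fun i => by
      rw [he', inner_smul_right, hue i, mul_zero]
    choose n hn hne S' hS'vol hS' using fun i =>
      coord_transfer (a i) (b i) (u i) e' (hab i) (hu i).1 (hu i).2.1 (hu i).2.2 he'1 (hue' i)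
        (S i)
    have hcov' : ∀ x ∈ K, ∃ i, (⟪x, e'⟫, ⟪x, n i⟫) ∈ S' i := by
      intro x hx
      obtain ⟨i, hi⟩ := mem_iUnion.1 (hcov hx)
      exact ⟨i, hS' i x hi⟩
    have := coord_core K hKconv hKc hKne e' he'1 n hn hne S' hcov'
    rwa [Finset.sum_congr rfl fun i _ => hS'vol i] at this

lemma axis_of_basis (c : OrthonormalBasis (Fin 3) ℝ E3) (a b : E3) (h0 : c 0 = a)
    (h1 : c 1 = b) : c 2 ≠ 0 ∧ ⟪c 2, a⟫ = 0 ∧ ⟪c 2, b⟫ = 0 := by
  refine ⟨?_, ?_, ?_⟩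
  · intro h
    have := c.orthonormal.1 2
    rw [h, norm_zero] at this
    exact zero_ne_one this
  · have h : ⟪c 2, c 0⟫ = 0 := c.orthonormal.2 (show (2 : Fin 3) ≠ 0 by decide)
    rwa [h0] at h
  · have h : ⟪c 2, c 1⟫ = 0 := c.orthonormal.2 (show (2 : Fin 3) ≠ 1 by decide)
    rwa [h1] at h

/-- Coordinate form of the half-area bound for two cylinders. -/
theorem coord_two (K : Set E3) (hKconv : Convex ℝ K) (hKc : IsCompact K)
    (a₁ b₁ a₂ b₂ : E3) (h₁ : OrthoPair a₁ b₁) (h₂ : OrthoPair a₂ b₂) (S₁ S₂ : Set (ℝ × ℝ))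
    (hcov : K ⊆ planeCoords a₁ b₁ ⁻¹' S₁ ∪ planeCoords a₂ b₂ ⁻¹' S₂) :
    (1 / 2 : ENNReal) * (⨅ (a : E3) (b : E3) (_ : OrthoPair a b),
        volume (planeCoords a b '' K)) ≤ volume S₁ + volume S₂ := by
  obtain ⟨c₁, hc₁0, hc₁1⟩ := exists_basis_three finrank_E3 a₁ b₁ h₁.1 h₁.2.1
    (by rw [real_inner_comm]; exact h₁.2.2)
  obtain ⟨c₂, hc₂0, hc₂1⟩ := exists_basis_three finrank_E3 a₂ b₂ h₂.1 h₂.2.1
    (by rw [real_inner_comm]; exact h₂.2.2)
  have hu₁ := axis_of_basis c₁ a₁ b₁ hc₁0 hc₁1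
  have hu₂ := axis_of_basis c₂ a₂ b₂ hc₂0 hc₂1
  obtain ⟨e, he, he₁, he₂⟩ := exists_common_normal (c₁ 2) (c₂ 2)
  have hcov' : K ⊆ ⋃ i : Fin 2, planeCoords ((![a₁, a₂] : Fin 2 → E3) i)
      ((![b₁, b₂] : Fin 2 → E3) i) ⁻¹' (![S₁, S₂] : Fin 2 → Set (ℝ × ℝ)) i := by
    intro x hx
    rcases hcov hx with h | h
    · exact mem_iUnion.2 ⟨0, h⟩
    · exact mem_iUnion.2 ⟨1, h⟩
  have := coord_coplanar K hKconv hKc ![a₁, a₂] ![b₁, b₂] ![c₁ 2, c₂ 2]
    (by intro i; fin_cases i <;> [exact h₁; exact h₂])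
    (by intro i; fin_cases i <;> [exact hu₁; exact hu₂]) e he
    (by intro i; fin_cases i <;> [exact he₁; exact he₂]) ![S₁, S₂] hcov'
  rw [Fin.sum_univ_two] at this
  exact this

end Vale.Agent.Lib.P243
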