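import Mathlib

/-!
Real-algebra lemmas behind the planar two-plank covering lemma.  The points
`L = (0, α)`, `B = (β, 0)`, `R = (1, γ)`, `T = (δ, 1)` are touching points of a convex set with
the sides of the unit square; `p, pβ, pδ` and `q, qα, qγ` are values of the two gap functions.
-/

namespace Vale.Agent.Lib.P243

/-- The generic case, first variant: chains `L–T–R` and `L–B–R` and the diagonal `L–R`. -/
lemma alg_x (α β γ δ p pβ pδ q qα qγ : ℝ) (hα : 0 < α) (hα1 : α < 1) (hβ : 0 < β) (hβ1 : β < 1)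
    (hγ : 0 < γ) (hγ1 : γ < 1) (hδ : 0 < δ) (hδ1 : δ < 1)
    (hLT : (1 - α) * pδ + δ * (q - qα) ≤ δ * (1 - α))
    (hTR : (1 - γ) * (p - pδ) + (1 - δ) * (q - qγ) ≤ (1 - δ) * (1 - γ))
    (hBL : α * pβ + β * qα ≤ α * β)
    (hBR : γ * (p - pβ) + (1 - β) * qγ ≤ (1 - β) * γ)
    (hLR : |γ - α| * p + |qγ - qα| ≤ |γ - α|)
    (hE : 0 ≤ (γ - α) * (β * γ * (1 - δ) - α * δ * (1 - β) + α * γ * (δ - β))) :
    p + q ≤ 1 := by
  have hDA : 0 < δ * (1 - γ) + (1 - δ) * (1 - α) := by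
    have h1 : 0 < δ * (1 - γ) := mul_pos hδ (by linarith)
    have h2 : 0 < (1 - δ) * (1 - α) := mul_pos (by linarith) (by linarith)
    linarith
  have hDC : 0 < α * (1 - β) + β * γ := by
    have h1 : 0 < α * (1 - β) := mul_pos hα (by linarith)
    have h2 : 0 < β * γ := mul_pos hβ hγ
    linarith
  have h1 := mul_le_mul_of_nonneg_left hLT
    (mul_nonneg hDC.le (by linarith : (0 : ℝ) ≤ 1 - γ))
  have h2 := mul_le_mul_of_nonneg_left hTR
    (mul_nonneg hDC.le (by linarith : (0 : ℝ) ≤ 1 - α))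
  have h3 := mul_le_mul_of_nonneg_left hBL (mul_nonneg hDA.le hγ.le)
  have h4 := mul_le_mul_of_nonneg_left hBR (mul_nonneg hDA.le hα.le)
  have key : (δ * (1 - γ) + (1 - δ) * (1 - α)) * (α * (1 - β) + β * γ) * (p + q - 1)
      ≤ (β * γ * (1 - δ) - α * δ * (1 - β) + α * γ * (δ - β))
        * ((qγ - qα) - (γ - α) * (1 - p)) := by
    linarith
  have hsign : (β * γ * (1 - δ) - α * δ * (1 - β) + α * γ * (δ - β))
      * ((qγ - qα) - (γ - α) * (1 - p)) ≤ 0 := by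
    have hd1 := le_abs_self (qγ - qα)
    have hd2 := neg_abs_le (qγ - qα)
    rcases le_total 0 (γ - α) with hg | hg
    · rw [abs_of_nonneg hg] at hLR
      rcases hg.eq_or_lt with hg0 | hgpos
      · have hz : |qγ - qα| ≤ 0 := by rw [← hg0] at hLR; linarith
        have hz' : qγ - qα = 0 := abs_eq_zero.1 (le_antisymm hz (abs_nonneg _))
        rw [hz', ← hg0]; simp
      · have hE' : 0 ≤ β * γ * (1 - δ) - α * δ * (1 - β) + α * γ * (δ - β) :=
          nonneg_of_mul_nonneg_right hE hgpos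
        exact mul_nonpos_of_nonneg_of_nonpos hE' (by linarith)
    · rw [abs_of_nonpos hg] at hLR
      rcases hg.eq_or_lt with hg0 | hgneg
      · have hz : |qγ - qα| ≤ 0 := by rw [hg0] at hLR; linarith
        have hz' : qγ - qα = 0 := abs_eq_zero.1 (le_antisymm hz (abs_nonneg _))
        rw [hz', hg0]; simp
      · have hE' : β * γ * (1 - δ) - α * δ * (1 - β) + α * γ * (δ - β) ≤ 0 := by
          by_contra hcon
          have := mul_neg_of_neg_of_pos hgneg (not_le.1 hcon)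
          linarith
        exact mul_nonpos_of_nonpos_of_nonneg hE' (by linarith)
  have hpos := mul_pos hDA hDC
  by_contra hcon
  have h5 : 0 < p + q - 1 := by linarith
  have := mul_pos hpos h5
  linarith

/-- The generic case: no touching point is a corner of the square. -/
lemma alg_generic (α β γ δ p pβ pδ q qα qγ : ℝ) (hα : 0 < α) (hα1 : α < 1) (hβ : 0 < β)
    (hβ1 : β < 1) (hγ : 0 < γ) (hγ1 : γ < 1) (hδ : 0 < δ) (hδ1 : δ < 1)
    (hLT : (1 - α) * pδ + δ * (q - qα) ≤ δ * (1 - α))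
    (hTR : (1 - γ) * (p - pδ) + (1 - δ) * (q - qγ) ≤ (1 - δ) * (1 - γ))
    (hBL : α * pβ + β * qα ≤ α * β)
    (hBR : γ * (p - pβ) + (1 - β) * qγ ≤ (1 - β) * γ)
    (hLR : |γ - α| * p + |qγ - qα| ≤ |γ - α|)
    (hBT : |pδ - pβ| + |δ - β| * q ≤ |δ - β|) :
    p + q ≤ 1 := by
  by_cases hE : 0 ≤ (γ - α) * (β * γ * (1 - δ) - α * δ * (1 - β) + α * γ * (δ - β))
  · exact alg_x α β γ δ p pβ pδ q qα qγ hα hα1 hβ hβ1 hγ hγ1 hδ hδ1 hLT hTR hBL hBR hLR hE
  · rw [not_le] at hE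
    have hE2 : 0 ≤ (δ - β) * (α * δ * (1 - γ) - β * γ * (1 - α) + β * δ * (γ - α)) := by
      by_contra hcon
      rw [not_le] at hcon
      -- E' = -E
      have hid : α * δ * (1 - γ) - β * γ * (1 - α) + β * δ * (γ - α)
          = -(β * γ * (1 - δ) - α * δ * (1 - β) + α * γ * (δ - β)) := by ring
      rw [hid] at hcon
      set E : ℝ := β * γ * (1 - δ) - α * δ * (1 - β) + α * γ * (δ - β) with hEdef
      have hdecomp : E = α * (1 - α) * (β - δ) + (γ - α) * (β * (1 - δ) + α * (δ - β)) := by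
        rw [hEdef]; ring
      have hα' : 0 < α * (1 - α) := mul_pos hα (by linarith)
      rcases lt_trichotomy E 0 with hneg | hzero | hpos
      · -- E < 0: γ - α > 0, δ - β < 0
        have hg : 0 < γ - α := by
          by_contra h
          have := mul_nonneg_of_nonpos_of_nonpos (not_lt.1 h) hneg.le
          linarith
        have hh : δ - β < 0 := by
          by_contra h
          have := mul_nonneg (not_lt.1 h) (by linarith : (0 : ℝ) ≤ -E)
          linarith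
        have hb : 0 ≤ β * (1 - δ) + α * (δ - β) := by nlinarith
        have h1 : 0 ≤ α * (1 - α) * (β - δ) := mul_nonneg hα'.le (by linarith)
        have h2 : 0 ≤ (γ - α) * (β * (1 - δ) + α * (δ - β)) := mul_nonneg hg.le hb
        linarith
      · rw [hzero] at hE; simp at hE
      · -- E > 0: γ - α < 0, δ - β > 0
        have hg : γ - α < 0 := by
          by_contra h
          have := mul_nonneg (not_lt.1 h) hpos.le
          linarith
        have hh : 0 < δ - β := by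
          by_contra h
          have := mul_nonneg_of_nonpos_of_nonpos (not_lt.1 h) (by linarith : -E ≤ 0)
          linarith
        have hb : 0 ≤ β * (1 - δ) + α * (δ - β) := by nlinarith
        have h1 : α * (1 - α) * (β - δ) ≤ 0 :=
          mul_nonpos_of_nonneg_of_nonpos hα'.le (by linarith)
        have h2 : (γ - α) * (β * (1 - δ) + α * (δ - β)) ≤ 0 :=
          mul_nonpos_of_nonpos_of_nonneg hg.le hb
        linarith
    have := alg_x β α δ γ q qα qγ p pβ pδ hβ hβ1 hα hα1 hδ hδ1 hγ hγ1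
      (by linarith) (by linarith) (by linarith) (by linarith) (by linarith) hE2
    linarith

/-- Corner `(0, 0)`: the triangle with vertices `(0, 0)`, `R = (1, γ)`, `T = (δ, 1)`. -/
lemma alg_corner00 (γ δ p pδ q qγ : ℝ) (hγ0 : 0 ≤ γ) (hγ1 : γ ≤ 1) (hδ1 : δ ≤ 1)
    (h1 : γ * p + qγ ≤ γ) (h2 : pδ + δ * q ≤ δ)
    (h3 : (1 - γ) * (p - pδ) + (1 - δ) * (q - qγ) ≤ (1 - δ) * (1 - γ))
    (hq : γ = 1 → qγ = q) : p + q ≤ 1 := by
  rcases eq_or_lt_of_le hγ1 with hγ | hγ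
  · rw [hγ] at h1; rw [hq hγ] at h1; linarith
  · have a1 := mul_le_mul_of_nonneg_left h1 (by linarith : (0 : ℝ) ≤ 1 - δ)
    have a2 := mul_le_mul_of_nonneg_left h2 (by linarith : (0 : ℝ) ≤ 1 - γ)
    have hpos : 0 < 1 - γ * δ := by nlinarith
    have key : (1 - γ * δ) * (p + q - 1) ≤ 0 := by linarith
    by_contra hcon
    have := mul_pos hpos (by linarith : 0 < p + q - 1)
    linarith

/-- Corner `(1, 0)`: the triangle with vertices `(1, 0)`, `L = (0, α)`, `T = (δ, 1)`. -/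
lemma alg_corner10 (α δ p pδ q qα : ℝ) (hα0 : 0 ≤ α) (hα1 : α ≤ 1) (hδ0 : 0 ≤ δ)
    (h1 : α * p + qα ≤ α) (h2 : (p - pδ) + (1 - δ) * q ≤ 1 - δ)
    (h3 : (1 - α) * pδ + δ * (q - qα) ≤ δ * (1 - α))
    (hq : α = 1 → qα = q) : p + q ≤ 1 := by
  rcases eq_or_lt_of_le hα1 with hα | hα
  · rw [hα] at h1; rw [hq hα] at h1; linarith
  · have a1 := mul_le_mul_of_nonneg_left h1 hδ0
    have a2 := mul_le_mul_of_nonneg_left h2 (by linarith : (0 : ℝ) ≤ 1 - α)
    have hpos : 0 < 1 - α * (1 - δ) := by nlinarith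
    have key : (1 - α * (1 - δ)) * (p + q - 1) ≤ 0 := by linarith
    by_contra hcon
    have := mul_pos hpos (by linarith : 0 < p + q - 1)
    linarith

/-- Corner `(0, 1)`: the triangle with vertices `(0, 1)`, `B = (β, 0)`, `R = (1, γ)`. -/
lemma alg_corner01 (β γ p pβ q qγ : ℝ) (hβ0 : 0 ≤ β) (hβ1 : β ≤ 1) (hγ0 : 0 ≤ γ)
    (h1 : pβ + β * q ≤ β) (h2 : (1 - γ) * p + (q - qγ) ≤ 1 - γ)
    (h3 : γ * (p - pβ) + (1 - β) * qγ ≤ (1 - β) * γ)
    (hp : β = 1 → pβ = p) : p + q ≤ 1 := by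
  rcases eq_or_lt_of_le hβ1 with hβ | hβ
  · rw [hβ] at h1; rw [hp hβ] at h1; linarith
  · have a1 := mul_le_mul_of_nonneg_left h1 hγ0
    have a2 := mul_le_mul_of_nonneg_left h2 (by linarith : (0 : ℝ) ≤ 1 - β)
    have hpos : 0 < 1 - β * (1 - γ) := by nlinarith
    have key : (1 - β * (1 - γ)) * (p + q - 1) ≤ 0 := by linarith
    by_contra hcon
    have := mul_pos hpos (by linarith : 0 < p + q - 1)
    linarith

/-- Corner `(1, 1)`: the triangle with vertices `(1, 1)`, `L = (0, α)`, `B = (β, 0)`. -/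
lemma alg_corner11 (α β p pβ q qα : ℝ) (hα0 : 0 ≤ α) (hα1 : α ≤ 1) (hβ0 : 0 ≤ β)
    (h1 : (1 - α) * p + (q - qα) ≤ 1 - α) (h2 : (p - pβ) + (1 - β) * q ≤ 1 - β)
    (h3 : α * pβ + β * qα ≤ α * β)
    (hq : α = 0 → qα = 0) : p + q ≤ 1 := by
  rcases eq_or_lt_of_le hα0 with hα | hα
  · rw [← hα] at h1; rw [hq hα.symm] at h1; linarith
  · have a1 := mul_le_mul_of_nonneg_left h1 hβ0
    have a2 := mul_le_mul_of_nonneg_left h2 hα0
    have hpos : 0 < α + β - α * β := by nlinarith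
    have key : (α + β - α * β) * (p + q - 1) ≤ 0 := by linarith
    by_contra hcon
    have := mul_pos hpos (by linarith : 0 < p + q - 1)
    linarith

/-- All cases together. -/
lemma alg_all (α β γ δ p pβ pδ q qα qγ : ℝ) (hα0 : 0 ≤ α) (hα1 : α ≤ 1) (hβ0 : 0 ≤ β)
    (hβ1 : β ≤ 1) (hγ0 : 0 ≤ γ) (hγ1 : γ ≤ 1) (hδ0 : 0 ≤ δ) (hδ1 : δ ≤ 1)
    (hLT : (1 - α) * pδ + δ * (q - qα) ≤ δ * (1 - α))
    (hTR : (1 - γ) * (p - pδ) + (1 - δ) * (q - qγ) ≤ (1 - δ) * (1 - γ))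
    (hBL : α * pβ + β * qα ≤ α * β)
    (hBR : γ * (p - pβ) + (1 - β) * qγ ≤ (1 - β) * γ)
    (hLR : |γ - α| * p + |qγ - qα| ≤ |γ - α|)
    (hBT : |pδ - pβ| + |δ - β| * q ≤ |δ - β|)
    (hqα0 : α = 0 → qα = 0) (hqα1 : α = 1 → qα = q) (hqγ0 : γ = 0 → qγ = 0)
    (hqγ1 : γ = 1 → qγ = q) (hpβ0 : β = 0 → pβ = 0) (hpβ1 : β = 1 → pβ = p)
    (hpδ0 : δ = 0 → pδ = 0) (hpδ1 : δ = 1 → pδ = p) : p + q ≤ 1 := by
  have a1 := le_abs_self (qγ - qα)
  have a2 := neg_abs_le (qγ - qα)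
  have b1 := le_abs_self (pδ - pβ)
  have b2 := neg_abs_le (pδ - pβ)
  rcases hα0.eq_or_lt with h | hαpos
  · -- α = 0 : corner (0,0) = L
    subst h
    have hq := hqα0 rfl
    rw [hq] at hLT hLR a1
    simp only [sub_zero] at hLR a1
    rw [abs_of_nonneg hγ0] at hLR
    exact alg_corner00 γ δ p pδ q qγ hγ0 hγ1 hδ1 (by linarith) (by linarith) hTR hqγ1
  rcases hα1.eq_or_lt with h | hαlt
  · -- α = 1 : corner (0,1) = L
    subst h
    have hq := hqα1 rfl
    rw [hq] at hBL hLR a2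
    rw [abs_of_nonpos (by linarith : γ - 1 ≤ 0)] at hLR
    exact alg_corner01 β γ p pβ q qγ hβ0 hβ1 hγ0 (by linarith) (by linarith) hBR hpβ1
  rcases hβ0.eq_or_lt with h | hβpos
  · -- β = 0 : corner (0,0) = B
    subst h
    have hp := hpβ0 rfl
    rw [hp] at hBR hBT b1
    simp only [sub_zero] at hBT b1
    rw [abs_of_nonneg hδ0] at hBT
    exact alg_corner00 γ δ p pδ q qγ hγ0 hγ1 hδ1 (by linarith) (by linarith) hTR hqγ1
  rcases hβ1.eq_or_lt with h | hβlt
  · -- β = 1 : corner (1,0) = B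
    subst h
    have hp := hpβ1 rfl
    rw [hp] at hBL hBT b2
    rw [abs_of_nonpos (by linarith : δ - 1 ≤ 0)] at hBT
    exact alg_corner10 α δ p pδ q qα hα0 hα1 hδ0 (by linarith) (by linarith) hLT hqα1
  rcases hγ0.eq_or_lt with h | hγpos
  · -- γ = 0 : corner (1,0) = R
    subst h
    have hq := hqγ0 rfl
    rw [hq] at hTR hLR a2
    rw [abs_of_nonpos (by linarith : 0 - α ≤ 0)] at hLR
    exact alg_corner10 α δ p pδ q qα hα0 hα1 hδ0 (by linarith) (by linarith) hLT hqα1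
  rcases hγ1.eq_or_lt with h | hγlt
  · -- γ = 1 : corner (1,1) = R
    subst h
    have hq := hqγ1 rfl
    rw [hq] at hBR hLR a1
    rw [abs_of_nonneg (by linarith : 0 ≤ 1 - α)] at hLR
    exact alg_corner11 α β p pβ q qα hα0 hα1 hβ0 (by linarith) (by linarith) hBL hqα0
  rcases hδ0.eq_or_lt with h | hδpos
  · -- δ = 0 : corner (0,1) = T
    subst h
    have hp := hpδ0 rfl
    rw [hp] at hTR hBT b2
    rw [abs_of_nonpos (by linarith : 0 - β ≤ 0)] at hBT
    exact alg_corner01 β γ p pβ q qγ hβ0 hβ1 hγ0 (by linarith) (by linarith) hBR hpβ1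
  rcases hδ1.eq_or_lt with h | hδlt
  · -- δ = 1 : corner (1,1) = T
    subst h
    have hp := hpδ1 rfl
    rw [hp] at hLT hBT b1
    rw [abs_of_nonneg (by linarith : 0 ≤ 1 - β)] at hBT
    exact alg_corner11 α β p pβ q qα hα0 hα1 hβ0 (by linarith) (by linarith) hBL hqα0
  exact alg_generic α β γ δ p pβ pδ q qα qγ hαpos hαlt hβpos hβlt hγpos hγlt hδpos hδlt
    hLT hTR hBL hBR hLR hBT

end Vale.Agent.Lib.P243
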