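import Mathlib
import Vale.Agent.Lib.P243.QuadAlg

/-!
A planar covering lemma: two generalized planks `{x ∈ L₁}`, `{y ∈ L₂}` covering a convex set
whose coordinate projections are `[0, 1]`.
-/

namespace Vale.Agent.Lib.P243

open MeasureTheory Set

/-- The measure of the part of `[0, t]` that is not covered by `L`. -/
noncomputable def gapFn (L : Set ℝ) (t : ℝ) : ℝ := (volume (Icc 0 t \ L)).toReal

lemma gapFn_zero (L : Set ℝ) : gapFn L 0 = 0 := by
  unfold gapFn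
  have h : volume (Icc (0 : ℝ) 0 \ L) = 0 := by
    refine measure_mono_null sdiff_subset ?_
    rw [Icc_self]
    exact Real.volume_singleton
  rw [h, ENNReal.toReal_zero]

lemma volume_Icc_diff_ne_top (L : Set ℝ) (s t : ℝ) : volume (Icc s t \ L) ≠ ⊤ :=
  ((measure_mono sdiff_subset).trans_lt measure_Icc_lt_top).ne

lemma gapFn_sub {L : Set ℝ} (hL : MeasurableSet L) {s t : ℝ} (hs : 0 ≤ s) (hst : s ≤ t) :
    gapFn L t - gapFn L s = (volume (Icc s t \ L)).toReal := by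
  unfold gapFn
  have hsplit : Icc 0 t \ L = (Icc 0 s \ L) ∪ (Ioc s t \ L) := by
    rw [← union_sdiff_distrib, Icc_union_Ioc_eq_Icc hs hst]
  have hdisj : Disjoint (Icc 0 s \ L) (Ioc s t \ L) := by
    refine Set.disjoint_left.2 fun x hx hx' => ?_
    exact absurd hx.1.2 (not_le.2 hx'.1.1)
  have hae : (Ioc s t \ L : Set ℝ) =ᵐ[volume] (Icc s t \ L : Set ℝ) :=
    Ioc_ae_eq_Icc.diff (Filter.EventuallyEq.refl _ _)
  rw [hsplit, measure_union hdisj (measurableSet_Ioc.diff hL), measure_congr hae,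
    ENNReal.toReal_add (volume_Icc_diff_ne_top L 0 s) (volume_Icc_diff_ne_top L s t)]
  ring

lemma gapFn_abs {L : Set ℝ} (hL : MeasurableSet L) {s t : ℝ} (hs : 0 ≤ s) (ht : 0 ≤ t) :
    |gapFn L t - gapFn L s| = (volume (uIcc s t \ L)).toReal := by
  rcases le_total s t with h | h
  · rw [uIcc_of_le h, gapFn_sub hL hs h, abs_of_nonneg ENNReal.toReal_nonneg]
  · rw [uIcc_of_ge h, abs_sub_comm, gapFn_sub hL ht h, abs_of_nonneg ENNReal.toReal_nonneg]

lemma gapFn_one {L : Set ℝ} (hL : MeasurableSet L) :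
    gapFn L 1 = 1 - (volume (L ∩ Icc 0 1)).toReal := by
  unfold gapFn
  have h := measure_inter_add_sdiff (μ := volume) (Icc (0 : ℝ) 1) hL
  have hfin : volume (Icc (0 : ℝ) 1 ∩ L) ≠ ⊤ :=
    ((measure_mono inter_subset_left).trans_lt measure_Icc_lt_top).ne
  have h2 := congrArg ENNReal.toReal h
  rw [ENNReal.toReal_add hfin (volume_Icc_diff_ne_top L 0 1), Real.volume_Icc] at h2
  rw [inter_comm L]
  simp at h2
  linarith

/-- Lebesgue measure of the preimage of a set under an affine map of the line. -/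
lemma volume_affine_preimage (s d : ℝ) (hd : d ≠ 0) (A : Set ℝ) :
    volume ((fun θ : ℝ => s + d * θ) ⁻¹' A) = ENNReal.ofReal |d⁻¹| * volume A := by
  have h1 : (fun θ : ℝ => s + d * θ) ⁻¹' A = (fun θ : ℝ => d * θ) ⁻¹' ((fun y : ℝ => s + y) ⁻¹' A) :=
    rfl
  rw [h1, Real.volume_preimage_mul_left hd, measure_preimage_add]

/-- If every point of the segment from `(x₁, y₁)` to `(x₂, y₂)` has its first coordinate in
`L₁` or its second coordinate in `L₂`, then the uncovered parts of the two coordinate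
projections of the segment are small. -/
lemma seg_meas (L₁ L₂ : Set ℝ) (hL₁ : MeasurableSet L₁) (hL₂ : MeasurableSet L₂)
    (x₁ x₂ y₁ y₂ : ℝ)
    (hcov : ∀ θ ∈ Icc (0 : ℝ) 1, x₁ + (x₂ - x₁) * θ ∈ L₁ ∨ y₁ + (y₂ - y₁) * θ ∈ L₂) :
    |y₂ - y₁| * (volume (uIcc x₁ x₂ \ L₁)).toReal + |x₂ - x₁| * (volume (uIcc y₁ y₂ \ L₂)).toReal
      ≤ |x₂ - x₁| * |y₂ - y₁| := by
  -- the general scaling statement
  have key : ∀ (L : Set ℝ), MeasurableSet L → ∀ u v : ℝ,
      |v - u| * (volume (Icc (0 : ℝ) 1 ∩ (fun θ : ℝ => u + (v - u) * θ) ⁻¹' Lᶜ)).toReal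
        = (volume (uIcc u v \ L)).toReal := by
    intro L hL u v
    rcases eq_or_ne u v with rfl | huv
    · rw [sub_self, abs_zero, zero_mul, uIcc_self]
      have : volume (({u} : Set ℝ) \ L) = 0 :=
        measure_mono_null sdiff_subset Real.volume_singleton
      rw [this, ENNReal.toReal_zero]
    · have hd : v - u ≠ 0 := sub_ne_zero.2 (Ne.symm huv)
      have hset : Icc (0 : ℝ) 1 ∩ (fun θ : ℝ => u + (v - u) * θ) ⁻¹' Lᶜ
          = (fun θ : ℝ => u + (v - u) * θ) ⁻¹' (uIcc u v \ L) := by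
        ext θ
        simp only [mem_inter_iff, mem_Icc, mem_preimage, mem_compl_iff, mem_sdiff, mem_uIcc]
        constructor
        · rintro ⟨⟨h0, h1⟩, hL⟩
          refine ⟨?_, hL⟩
          rcases lt_or_gt_of_ne hd with hneg | hpos
          · right
            constructor <;> nlinarith
          · left
            constructor <;> nlinarith
        · rintro ⟨h, hL⟩
          refine ⟨?_, hL⟩
          rcases lt_or_gt_of_ne hd with hneg | hpos
          · rcases h with ⟨h1, h2⟩ | ⟨h1, h2⟩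
            · have : (v - u) * θ = 0 := by nlinarith
              have hθ : θ = 0 := by
                rcases mul_eq_zero.1 this with h | h
                · exact absurd h hd
                · exact h
              rw [hθ]; norm_num
            · constructor <;> nlinarith
          · rcases h with ⟨h1, h2⟩ | ⟨h1, h2⟩
            · constructor <;> nlinarith
            · have : (v - u) * θ = 0 := by nlinarith
              have hθ : θ = 0 := by
                rcases mul_eq_zero.1 this with h | h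
                · exact absurd h hd
                · exact h
              rw [hθ]; norm_num
      rw [hset, volume_affine_preimage u (v - u) hd, ENNReal.toReal_mul,
        ENNReal.toReal_ofReal (abs_nonneg _), abs_inv, ← mul_assoc,
        mul_inv_cancel₀ (abs_ne_zero.2 hd), one_mul]
  set A : Set ℝ := Icc (0 : ℝ) 1 ∩ (fun θ : ℝ => x₁ + (x₂ - x₁) * θ) ⁻¹' L₁ᶜ with hA
  set B : Set ℝ := Icc (0 : ℝ) 1 ∩ (fun θ : ℝ => y₁ + (y₂ - y₁) * θ) ⁻¹' L₂ᶜ with hB
  have hAm : MeasurableSet A :=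
    measurableSet_Icc.inter (hL₁.compl.preimage (by fun_prop))
  have hBm : MeasurableSet B :=
    measurableSet_Icc.inter (hL₂.compl.preimage (by fun_prop))
  have hdisj : Disjoint A B := by
    refine Set.disjoint_left.2 fun θ hθA hθB => ?_
    rcases hcov θ hθA.1 with h | h
    · exact hθA.2 h
    · exact hθB.2 h
  have hAfin : volume A ≠ ⊤ :=
    ((measure_mono inter_subset_left).trans_lt measure_Icc_lt_top).ne
  have hBfin : volume B ≠ ⊤ :=
    ((measure_mono inter_subset_left).trans_lt measure_Icc_lt_top).ne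
  have hsum : (volume A).toReal + (volume B).toReal ≤ 1 := by
    have h1 : volume (A ∪ B) ≤ volume (Icc (0 : ℝ) 1) :=
      measure_mono (union_subset inter_subset_left inter_subset_left)
    rw [measure_union hdisj hBm, Real.volume_Icc] at h1
    have h2 := ENNReal.toReal_mono ENNReal.ofReal_ne_top h1
    rw [ENNReal.toReal_add hAfin hBfin, ENNReal.toReal_ofReal (by norm_num)] at h2
    linarith
  have hx := key L₁ hL₁ x₁ x₂
  have hy := key L₂ hL₂ y₁ y₂
  rw [← hx, ← hy]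
  have ha : 0 ≤ |x₂ - x₁| := abs_nonneg _
  have hb : 0 ≤ |y₂ - y₁| := abs_nonneg _
  have hA0 : 0 ≤ (volume A).toReal := ENNReal.toReal_nonneg
  have hB0 : 0 ≤ (volume B).toReal := ENNReal.toReal_nonneg
  have : |y₂ - y₁| * (|x₂ - x₁| * (volume A).toReal) + |x₂ - x₁| * (|y₂ - y₁| * (volume B).toReal)
      = |x₂ - x₁| * |y₂ - y₁| * ((volume A).toReal + (volume B).toReal) := by ring
  rw [this]
  have := mul_le_mul_of_nonneg_left hsum (mul_nonneg ha hb)
  linarith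

/-- Segment inequality for a convex planar set `K'` covered by `{x ∈ L₁} ∪ {y ∈ L₂}`, in terms
of the gap functions of `L₁` and `L₂`. -/
lemma seg_gap (K' : Set (ℝ × ℝ)) (hconv : Convex ℝ K') (L₁ L₂ : Set ℝ) (hL₁ : MeasurableSet L₁)
    (hL₂ : MeasurableSet L₂) (hcov : ∀ z ∈ K', z.1 ∈ L₁ ∨ z.2 ∈ L₂)
    (x₁ y₁ x₂ y₂ : ℝ) (h₁ : (x₁, y₁) ∈ K') (h₂ : (x₂, y₂) ∈ K')
    (hx₁ : 0 ≤ x₁) (hy₁ : 0 ≤ y₁) (hx₂ : 0 ≤ x₂) (hy₂ : 0 ≤ y₂) :
    |y₂ - y₁| * |gapFn L₁ x₂ - gapFn L₁ x₁| + |x₂ - x₁| * |gapFn L₂ y₂ - gapFn L₂ y₁|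
      ≤ |x₂ - x₁| * |y₂ - y₁| := by
  rw [gapFn_abs hL₁ hx₁ hx₂, gapFn_abs hL₂ hy₁ hy₂]
  apply seg_meas L₁ L₂ hL₁ hL₂
  intro θ hθ
  have hmem : (1 - θ) • (x₁, y₁) + θ • (x₂, y₂) ∈ K' :=
    hconv h₁ h₂ (sub_nonneg.2 hθ.2) hθ.1 (by ring)
  have h := hcov _ hmem
  simp only [Prod.smul_mk, Prod.mk_add_mk, smul_eq_mul] at h
  have e1 : (1 - θ) * x₁ + θ * x₂ = x₁ + (x₂ - x₁) * θ := by ring
  have e2 : (1 - θ) * y₁ + θ * y₂ = y₁ + (y₂ - y₁) * θ := by ring
  rw [e1, e2] at h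
  exact h

/-- Signed consequences of an inequality between absolute values. -/
lemma abs_seg {a b u v : ℝ} (h : |b| * |u| + |a| * |v| ≤ |a| * |b|) :
    (|b| * u + |a| * v ≤ |a| * |b|) ∧ (|b| * u - |a| * v ≤ |a| * |b|) ∧
    (-(|b| * u) + |a| * v ≤ |a| * |b|) ∧ (-(|b| * u) - |a| * v ≤ |a| * |b|) := by
  have hu := le_abs_self u
  have hu' := neg_abs_le u
  have hv := le_abs_self v
  have hv' := neg_abs_le v
  have ha := abs_nonneg a
  have hb := abs_nonneg b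
  have h1 := mul_le_mul_of_nonneg_left hu hb
  have h2 := mul_le_mul_of_nonneg_left hu' hb
  have h3 := mul_le_mul_of_nonneg_left hv ha
  have h4 := mul_le_mul_of_nonneg_left hv' ha
  refine ⟨?_, ?_, ?_, ?_⟩ <;> linarith

/-- **Two generalized planks in the plane.**  Let `K'` be a convex subset of the unit square
containing points `(0, α)`, `(β, 0)`, `(1, γ)`, `(δ, 1)` on the four sides.  If every point of
`K'` has its first coordinate in `L₁` or its second coordinate in `L₂`, then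
`|L₁ ∩ [0,1]| + |L₂ ∩ [0,1]| ≥ 1`. -/
theorem quad_cover (K' : Set (ℝ × ℝ)) (hconv : Convex ℝ K')
    (hbox : ∀ z ∈ K', 0 ≤ z.1 ∧ z.1 ≤ 1 ∧ 0 ≤ z.2 ∧ z.2 ≤ 1) (α β γ δ : ℝ)
    (hL : ((0 : ℝ), α) ∈ K') (hB : (β, (0 : ℝ)) ∈ K') (hR : ((1 : ℝ), γ) ∈ K')
    (hT : (δ, (1 : ℝ)) ∈ K') (L₁ L₂ : Set ℝ) (hL₁ : MeasurableSet L₁) (hL₂ : MeasurableSet L₂)
    (hcov : ∀ z ∈ K', z.1 ∈ L₁ ∨ z.2 ∈ L₂) :
    1 ≤ (volume (L₁ ∩ Icc 0 1)).toReal + (volume (L₂ ∩ Icc 0 1)).toReal := by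
  have hα := hbox _ hL
  have hβ := hbox _ hB
  have hγ := hbox _ hR
  have hδ := hbox _ hT
  simp only at hα hβ hγ hδ
  have hα0 : 0 ≤ α := hα.2.2.1
  have hα1 : α ≤ 1 := hα.2.2.2
  have hβ0 : 0 ≤ β := hβ.1
  have hβ1 : β ≤ 1 := hβ.2.1
  have hγ0 : 0 ≤ γ := hγ.2.2.1
  have hγ1 : γ ≤ 1 := hγ.2.2.2
  have hδ0 : 0 ≤ δ := hδ.1
  have hδ1 : δ ≤ 1 := hδ.2.1
  have hseg := seg_gap K' hconv L₁ L₂ hL₁ hL₂ hcov
  have P0 := gapFn_zero L₁
  have Q0 := gapFn_zero L₂
  have sLT := (abs_seg (hseg 0 α δ 1 hL hT le_rfl hα0 hδ0 zero_le_one)).1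
  have sTR := (abs_seg (hseg δ 1 1 γ hT hR hδ0 zero_le_one zero_le_one hγ0)).2.1
  have sBL := (abs_seg (hseg β 0 0 α hB hL hβ0 le_rfl le_rfl hα0)).2.2.1
  have sBR := (abs_seg (hseg β 0 1 γ hB hR hβ0 le_rfl zero_le_one hγ0)).1
  have sLR := hseg 0 α 1 γ hL hR le_rfl hα0 zero_le_one hγ0
  have sBT := hseg β 0 δ 1 hB hT hβ0 le_rfl hδ0 zero_le_one
  simp only [sub_zero, P0, Q0] at sLT sBR sLR sBT
  simp only [zero_sub, P0, Q0, sub_zero] at sBL
  rw [abs_of_nonneg (by linarith : (0 : ℝ) ≤ 1 - α), abs_of_nonneg hδ0] at sLT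
  rw [abs_of_nonpos (by linarith : γ - 1 ≤ 0), abs_of_nonneg (by linarith : (0 : ℝ) ≤ 1 - δ)]
    at sTR
  rw [abs_of_nonneg hα0, abs_neg, abs_of_nonneg hβ0] at sBL
  rw [abs_of_nonneg hγ0, abs_of_nonneg (by linarith : (0 : ℝ) ≤ 1 - β)] at sBR
  rw [abs_one, one_mul, one_mul] at sLR
  rw [abs_one, one_mul, mul_one] at sBT
  have hp1 := le_abs_self (gapFn L₁ 1)
  have hq1 := le_abs_self (gapFn L₂ 1)
  have hLR : |γ - α| * gapFn L₁ 1 + |gapFn L₂ γ - gapFn L₂ α| ≤ |γ - α| := by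
    have := mul_le_mul_of_nonneg_left hp1 (abs_nonneg (γ - α))
    linarith
  have hBT : |gapFn L₁ δ - gapFn L₁ β| + |δ - β| * gapFn L₂ 1 ≤ |δ - β| := by
    have := mul_le_mul_of_nonneg_left hq1 (abs_nonneg (δ - β))
    linarith
  have hmain := alg_all α β γ δ (gapFn L₁ 1) (gapFn L₁ β) (gapFn L₁ δ) (gapFn L₂ 1)
    (gapFn L₂ α) (gapFn L₂ γ) hα0 hα1 hβ0 hβ1 hγ0 hγ1 hδ0 hδ1
    (by linarith) (by linarith) (by linarith) (by linarith) hLR hBT
    (fun h => by rw [h]; exact Q0) (fun h => by rw [h]) (fun h => by rw [h]; exact Q0)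
    (fun h => by rw [h]) (fun h => by rw [h]; exact P0) (fun h => by rw [h])
    (fun h => by rw [h]; exact P0) (fun h => by rw [h])
  rw [gapFn_one hL₁, gapFn_one hL₂] at hmain
  linarith

end Vale.Agent.Lib.P243
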