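import Mathlib
import Vale.Agent.Lib.P243.Slab
import Vale.Agent.Lib.P243.Quad

/-!
The directionwise (relative) bound for two cylinders in slab coordinates.
-/

namespace Vale.Agent.Lib.P243

open scoped RealInnerProductSpace
open MeasureTheory Set

variable {F : Type*} [NormedAddCommGroup F] [InnerProductSpace ℝ F]

lemma plank_mono (a₁ a₂ w₁ w₂ ℓ₁ ℓ₂ : ℝ) (ha₁ : 0 ≤ a₁) (ha₂ : 0 ≤ a₂) (h₁ : a₁ ≤ w₁)
    (h₂ : a₂ ≤ w₂) (hℓ₁ : 0 ≤ ℓ₁) (hℓ₂ : 0 ≤ ℓ₂) (h : w₁ * w₂ ≤ ℓ₁ * w₂ + ℓ₂ * w₁) :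
    a₁ * a₂ ≤ ℓ₁ * a₂ + ℓ₂ * a₁ := by
  rcases ha₁.eq_or_lt with h0 | hpos₁
  · rw [← h0, zero_mul, mul_zero, add_zero]; exact mul_nonneg hℓ₁ ha₂
  rcases ha₂.eq_or_lt with h0 | hpos₂
  · rw [← h0, mul_zero, mul_zero, zero_add]; exact mul_nonneg hℓ₂ ha₁
  have hw₁ : 0 < w₁ := lt_of_lt_of_le hpos₁ h₁
  have hw₂ : 0 < w₂ := lt_of_lt_of_le hpos₂ h₂
  by_contra hcon
  rw [not_le] at hcon
  have k1 := mul_le_mul_of_nonneg_left h₁ (mul_nonneg (mul_nonneg hℓ₁ ha₂) hw₂.le)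
  have k2 := mul_le_mul_of_nonneg_left h₂ (mul_nonneg (mul_nonneg hℓ₂ ha₁) hw₁.le)
  have k3 := mul_le_mul_of_nonneg_left h (mul_nonneg ha₁ ha₂)
  have k4 := mul_lt_mul_of_pos_right hcon (mul_pos hw₁ hw₂)
  linarith

/-- **Two generalized planks, relative widths.**  If a compact convex set `Kτ` is covered by
`{x | ⟪x, n₁⟫ ∈ L₁} ∪ {x | ⟪x, n₂⟫ ∈ L₂}`, then the measures of `L₁`, `L₂` relative to the widths
of `Kτ` in the directions `n₁`, `n₂` add up to at least `1` (in a multiplied-out, monotone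
form). -/
lemma slice_two (Kτ : Set F) (hc : IsCompact Kτ) (hconv : Convex ℝ Kτ) (hne : Kτ.Nonempty)
    (n₁ n₂ : F) (L₁ L₂ : Set ℝ) (hL₁ : MeasurableSet L₁) (hL₂ : MeasurableSet L₂)
    (hcov : ∀ x ∈ Kτ, ⟪x, n₁⟫ ∈ L₁ ∨ ⟪x, n₂⟫ ∈ L₂) :
    ∃ ℓ₁ ℓ₂ : ℝ, 0 ≤ ℓ₁ ∧ 0 ≤ ℓ₂ ∧ ENNReal.ofReal ℓ₁ ≤ volume L₁ ∧
      ENNReal.ofReal ℓ₂ ≤ volume L₂ ∧
      ∀ a₁ a₂ : ℝ, 0 ≤ a₁ → 0 ≤ a₂ → (∃ p ∈ Kτ, ∃ q ∈ Kτ, a₁ ≤ ⟪p - q, n₁⟫) →
        (∃ p ∈ Kτ, ∃ q ∈ Kτ, a₂ ≤ ⟪p - q, n₂⟫) → a₁ * a₂ ≤ ℓ₁ * a₂ + ℓ₂ * a₁ := by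
  have hcont : ∀ n : F, ContinuousOn (fun x : F => ⟪x, n⟫) Kτ := fun n =>
    (continuous_id.inner continuous_const).continuousOn
  obtain ⟨pR, hpR, hmax₁⟩ := hc.exists_isMaxOn hne (hcont n₁)
  obtain ⟨pL, hpL, hmin₁⟩ := hc.exists_isMinOn hne (hcont n₁)
  obtain ⟨pT, hpT, hmax₂⟩ := hc.exists_isMaxOn hne (hcont n₂)
  obtain ⟨pB, hpB, hmin₂⟩ := hc.exists_isMinOn hne (hcont n₂)
  set M₁ : ℝ := ⟪pR, n₁⟫ with hM₁
  set m₁ : ℝ := ⟪pL, n₁⟫ with hm₁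
  set M₂ : ℝ := ⟪pT, n₂⟫ with hM₂
  set m₂ : ℝ := ⟪pB, n₂⟫ with hm₂
  have hlo₁ : ∀ x ∈ Kτ, m₁ ≤ ⟪x, n₁⟫ := fun x hx => hmin₁ hx
  have hhi₁ : ∀ x ∈ Kτ, ⟪x, n₁⟫ ≤ M₁ := fun x hx => hmax₁ hx
  have hlo₂ : ∀ x ∈ Kτ, m₂ ≤ ⟪x, n₂⟫ := fun x hx => hmin₂ hx
  have hhi₂ : ∀ x ∈ Kτ, ⟪x, n₂⟫ ≤ M₂ := fun x hx => hmax₂ hx
  set w₁ : ℝ := M₁ - m₁ with hw₁def
  set w₂ : ℝ := M₂ - m₂ with hw₂def
  have hw₁ : 0 ≤ w₁ := sub_nonneg.2 (hlo₁ pR hpR)
  have hw₂ : 0 ≤ w₂ := sub_nonneg.2 (hlo₂ pT hpT)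
  set ℓ₁ : ℝ := (volume (L₁ ∩ Icc m₁ M₁)).toReal with hℓ₁
  set ℓ₂ : ℝ := (volume (L₂ ∩ Icc m₂ M₂)).toReal with hℓ₂
  have hfin₁ : volume (L₁ ∩ Icc m₁ M₁) ≠ ⊤ :=
    ((measure_mono inter_subset_right).trans_lt measure_Icc_lt_top).ne
  have hfin₂ : volume (L₂ ∩ Icc m₂ M₂) ≠ ⊤ :=
    ((measure_mono inter_subset_right).trans_lt measure_Icc_lt_top).ne
  have hℓ₁0 : 0 ≤ ℓ₁ := ENNReal.toReal_nonneg
  have hℓ₂0 : 0 ≤ ℓ₂ := ENNReal.toReal_nonneg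
  have hcore : w₁ * w₂ ≤ ℓ₁ * w₂ + ℓ₂ * w₁ := by
    rcases hw₁.eq_or_lt with h0 | hw₁pos
    · rw [← h0, zero_mul, mul_zero, add_zero]; exact mul_nonneg hℓ₁0 hw₂
    rcases hw₂.eq_or_lt with h0 | hw₂pos
    · rw [← h0, mul_zero, mul_zero, zero_add]; exact mul_nonneg hℓ₂0 hw₁
    set N : F → ℝ × ℝ := fun x => ((⟪x, n₁⟫ - m₁) / w₁, (⟪x, n₂⟫ - m₂) / w₂) with hN
    have hK'conv : Convex ℝ (N '' Kτ) := by
      rintro _ ⟨x, hx, rfl⟩ _ ⟨y, hy, rfl⟩ a b ha hb hab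
      refine ⟨a • x + b • y, hconv hx hy ha hb hab, ?_⟩
      have hb' : b = 1 - a := by linarith
      simp only [hN, Prod.smul_mk, Prod.mk_add_mk, smul_eq_mul, inner_add_left, inner_smul_left,
        RCLike.conj_to_real]
      rw [hb']
      refine Prod.ext ?_ ?_
      · simp only
        field_simp
        ring
      · simp only
        field_simp
        ring
    have hbox : ∀ z ∈ N '' Kτ, 0 ≤ z.1 ∧ z.1 ≤ 1 ∧ 0 ≤ z.2 ∧ z.2 ≤ 1 := by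
      rintro _ ⟨x, hx, rfl⟩
      refine ⟨div_nonneg (sub_nonneg.2 (hlo₁ x hx)) hw₁pos.le,
        div_le_one_of_le₀ (by linarith [hhi₁ x hx]) hw₁pos.le,
        div_nonneg (sub_nonneg.2 (hlo₂ x hx)) hw₂pos.le,
        div_le_one_of_le₀ (by linarith [hhi₂ x hx]) hw₂pos.le⟩
    have hL : ((0 : ℝ), (⟪pL, n₂⟫ - m₂) / w₂) ∈ N '' Kτ :=
      ⟨pL, hpL, by simp only [hN]; rw [← hm₁, sub_self, zero_div]⟩
    have hB : ((⟪pB, n₁⟫ - m₁) / w₁, (0 : ℝ)) ∈ N '' Kτ :=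
      ⟨pB, hpB, by simp only [hN]; rw [← hm₂, sub_self, zero_div]⟩
    have hR : ((1 : ℝ), (⟪pR, n₂⟫ - m₂) / w₂) ∈ N '' Kτ :=
      ⟨pR, hpR, by simp only [hN]; rw [← hM₁, ← hw₁def, div_self hw₁pos.ne']⟩
    have hT : ((⟪pT, n₁⟫ - m₁) / w₁, (1 : ℝ)) ∈ N '' Kτ :=
      ⟨pT, hpT, by simp only [hN]; rw [← hM₂, ← hw₂def, div_self hw₂pos.ne']⟩
    have hcov' : ∀ z ∈ N '' Kτ, z.1 ∈ (fun s : ℝ => m₁ + w₁ * s) ⁻¹' L₁ ∨
        z.2 ∈ (fun s : ℝ => m₂ + w₂ * s) ⁻¹' L₂ := by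
      rintro _ ⟨x, hx, rfl⟩
      have e1 : m₁ + w₁ * ((⟪x, n₁⟫ - m₁) / w₁) = ⟪x, n₁⟫ := by field_simp; ring
      have e2 : m₂ + w₂ * ((⟪x, n₂⟫ - m₂) / w₂) = ⟪x, n₂⟫ := by field_simp; ring
      rcases hcov x hx with h | h
      · left; simp only [hN, mem_preimage]; rw [e1]; exact h
      · right; simp only [hN, mem_preimage]; rw [e2]; exact h
    have hq := quad_cover (N '' Kτ) hK'conv hbox _ _ _ _ hL hB hR hT _ _
      (hL₁.preimage (by fun_prop : Measurable fun s : ℝ => m₁ + w₁ * s))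
      (hL₂.preimage (by fun_prop : Measurable fun s : ℝ => m₂ + w₂ * s)) hcov'
    have hscale : ∀ (L : Set ℝ) (m M : ℝ), 0 < M - m →
        (volume ((fun s : ℝ => m + (M - m) * s) ⁻¹' L ∩ Icc 0 1)).toReal
          = (volume (L ∩ Icc m M)).toReal / (M - m) := by
      intro L m M hw
      have hset : (fun s : ℝ => m + (M - m) * s) ⁻¹' L ∩ Icc 0 1
          = (fun s : ℝ => m + (M - m) * s) ⁻¹' (L ∩ Icc m M) := by
        ext s
        simp only [mem_inter_iff, mem_preimage, mem_Icc]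
        constructor
        · rintro ⟨h1, h2, h3⟩
          exact ⟨h1, by nlinarith, by nlinarith⟩
        · rintro ⟨h1, h2, h3⟩
          refine ⟨h1, ?_, ?_⟩
          · by_contra hneg
            have := mul_neg_of_pos_of_neg hw (not_le.1 hneg)
            linarith
          · by_contra hgt
            have := mul_lt_mul_of_pos_left (not_le.1 hgt) hw
            linarith
      rw [hset, volume_affine_preimage m (M - m) hw.ne', ENNReal.toReal_mul,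
        ENNReal.toReal_ofReal (abs_nonneg _), abs_of_pos (inv_pos.2 hw), div_eq_inv_mul]
    rw [hscale L₁ m₁ M₁ hw₁pos, hscale L₂ m₂ M₂ hw₂pos] at hq
    have h2 := mul_le_mul_of_nonneg_left hq (mul_pos hw₁pos hw₂pos).le
    have e : w₁ * w₂ * (ℓ₁ / w₁ + ℓ₂ / w₂) = ℓ₁ * w₂ + ℓ₂ * w₁ := by
      field_simp
    rw [mul_one] at h2
    rw [← e]
    exact h2
  refine ⟨ℓ₁, ℓ₂, hℓ₁0, hℓ₂0, ?_, ?_, ?_⟩
  · rw [hℓ₁, ENNReal.ofReal_toReal hfin₁]; exact measure_mono inter_subset_left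
  · rw [hℓ₂, ENNReal.ofReal_toReal hfin₂]; exact measure_mono inter_subset_left
  · rintro a₁ a₂ ha₁ ha₂ ⟨p, hp, q, hq, hpq⟩ ⟨p', hp', q', hq', hpq'⟩
    refine plank_mono a₁ a₂ w₁ w₂ ℓ₁ ℓ₂ ha₁ ha₂ ?_ ?_ hℓ₁0 hℓ₂0 hcore
    · rw [inner_sub_left] at hpq
      linarith [hhi₁ p hp, hlo₁ q hq]
    · rw [inner_sub_left] at hpq'
      linarith [hhi₂ p' hp', hlo₂ q' hq']

/-- **Directionwise bound for two cylinders in slab coordinates.**  `K` is compact convex,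
`e, n₁, n₂` are arbitrary vectors and `K` is covered by the two sets
`{x | (⟪x, e⟫, ⟪x, nᵢ⟫) ∈ Sᵢ}`.  Then, with `Dᵢ` the shadow of `K` in the coordinates
`(⟪x, e⟫, ⟪x, nᵢ⟫)`, we have `|D₁| |D₂| ≤ 2 (|S₁| |D₂| + |S₂| |D₁|)`. -/
theorem slab_two (K : Set F) (hKc : IsCompact K) (hK : Convex ℝ K) (hKne : K.Nonempty)
    (e n₁ n₂ : F) (S₁ S₂ : Set (ℝ × ℝ))
    (hcov : ∀ x ∈ K, (⟪x, e⟫, ⟪x, n₁⟫) ∈ S₁ ∨ (⟪x, e⟫, ⟪x, n₂⟫) ∈ S₂) :
    volume (shadow K e n₁) * volume (shadow K e n₂)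
      ≤ 2 * (volume S₁ * volume (shadow K e n₂) + volume S₂ * volume (shadow K e n₁)) := by
  -- measurable hulls
  set S₁' : Set (ℝ × ℝ) := toMeasurable volume S₁ with hS₁'
  set S₂' : Set (ℝ × ℝ) := toMeasurable volume S₂ with hS₂'
  have hS₁m : MeasurableSet S₁' := measurableSet_toMeasurable _ _
  have hS₂m : MeasurableSet S₂' := measurableSet_toMeasurable _ _
  have hS₁v : volume S₁' = volume S₁ := measure_toMeasurable _
  have hS₂v : volume S₂' = volume S₂ := measure_toMeasurable _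
  have hcov' : ∀ x ∈ K, (⟪x, e⟫, ⟪x, n₁⟫) ∈ S₁' ∨ (⟪x, e⟫, ⟪x, n₂⟫) ∈ S₂' := by
    intro x hx
    rcases hcov x hx with h | h
    · exact Or.inl (subset_toMeasurable _ _ h)
    · exact Or.inr (subset_toMeasurable _ _ h)
  -- extreme heights
  have hcont : ContinuousOn (fun x : F => ⟪x, e⟫) K :=
    (continuous_id.inner continuous_const).continuousOn
  obtain ⟨x₀, hx₀, hmin⟩ := hKc.exists_isMinOn hKne hcont
  obtain ⟨x₁, hx₁, hmax⟩ := hKc.exists_isMaxOn hKne hcont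
  set τ₀ : ℝ := ⟪x₀, e⟫ with hτ₀
  set τ₁ : ℝ := ⟪x₁, e⟫ with hτ₁
  have hlo : ∀ x ∈ K, τ₀ ≤ ⟪x, e⟫ := fun x hx => hmin hx
  have hhi : ∀ x ∈ K, ⟪x, e⟫ ≤ τ₁ := fun x hx => hmax hx
  rcases lt_or_ge τ₀ τ₁ with hτ | hle
  swap
  · -- flat case: the shadows are null sets
    have hzero : ∀ n : F, volume (shadow K e n) = 0 := by
      intro n
      have hsub : shadow K e n ⊆ ({τ₀} : Set ℝ) ×ˢ (univ : Set ℝ) := by
        rintro ⟨a, b⟩ ⟨x, hx, hxe⟩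
        have h1 : ⟪x, e⟫ = a := (Prod.mk.inj hxe).1
        refine ⟨?_, mem_univ _⟩
        rw [mem_singleton_iff, ← h1]
        exact le_antisymm ((hhi x hx).trans hle) (hlo x hx)
      have hz : volume (({τ₀} : Set ℝ) ×ˢ (univ : Set ℝ)) = 0 := by
        rw [Measure.volume_eq_prod, Measure.prod_prod, Real.volume_singleton, zero_mul]
      exact measure_mono_null hsub hz
    rw [hzero n₁, zero_mul]
    exact zero_le
  set H : ℝ := τ₁ - τ₀ with hH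
  have hHpos : 0 < H := sub_pos.2 hτ
  set c : ℝ := (τ₀ + τ₁) / 2 with hc
  have hc₀ : τ₀ < c := by rw [hc]; linarith
  have hc₁ : c < τ₁ := by rw [hc]; linarith
  have hcH : c - τ₀ = H / 2 := by rw [hc, hH]; ring
  have hcH' : τ₁ - c = H / 2 := by rw [hc, hH]; ring
  -- the middle section
  set Kc : Set F := K ∩ {x : F | ⟪x, e⟫ = c} with hKcdef
  have hKcc : IsCompact Kc :=
    hKc.inter_right (isClosed_eq (continuous_id.inner continuous_const) continuous_const)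
  have hKcne : Kc.Nonempty := by
    obtain ⟨x, hx, hxe⟩ := exists_mem_height hK e hx₀ hx₁ hc₀ hc₁
    exact ⟨x, hx, hxe⟩
  have hmid : ∀ n : F, ∃ p ∈ Kc, ∃ q ∈ Kc, 0 ≤ ⟪p - q, n⟫ ∧
      ∀ p' ∈ Kc, ∀ q' ∈ Kc, ⟪p' - q', n⟫ ≤ ⟪p - q, n⟫ := by
    intro n
    have hcn : ContinuousOn (fun x : F => ⟪x, n⟫) Kc :=
      (continuous_id.inner continuous_const).continuousOn
    obtain ⟨p, hp, hpmax⟩ := hKcc.exists_isMaxOn hKcne hcn
    obtain ⟨q, hq, hqmin⟩ := hKcc.exists_isMinOn hKcne hcn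
    refine ⟨p, hp, q, hq, ?_, ?_⟩
    · rw [inner_sub_left]; exact sub_nonneg.2 (hqmin hp)
    · intro p' hp' q' hq'
      rw [inner_sub_left, inner_sub_left]
      have h1 : ⟪p', n⟫ ≤ ⟪p, n⟫ := hpmax hp'
      have h2 : ⟪q, n⟫ ≤ ⟪q', n⟫ := hqmin hq'
      linarith
  obtain ⟨p₁, hp₁, q₁, hq₁, hw₁0, hw₁max⟩ := hmid n₁
  obtain ⟨p₂, hp₂, q₂, hq₂, hw₂0, hw₂max⟩ := hmid n₂
  set w₁ : ℝ := ⟪p₁ - q₁, n₁⟫ with hw₁
  set w₂ : ℝ := ⟪p₂ - q₂, n₂⟫ with hw₂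
  -- areas of the shadows
  have hDfin : ∀ n : F, volume (shadow K e n) ≠ ⊤ := fun n =>
    (isCompact_shadow hKc e n).measure_lt_top.ne
  have harea : ∀ (n : F) (w : ℝ), 0 ≤ w → (∀ p' ∈ Kc, ∀ q' ∈ Kc, ⟪p' - q', n⟫ ≤ w) →
      (volume (shadow K e n)).toReal ≤ H * w := by
    intro n w hw0 hwmax
    have h := shadow_area_bound K hKc hK e n τ₀ τ₁ x₀ x₁ hx₀ hx₁ rfl rfl hlo hhi c hc₀ hc₁ w
      (fun p hp q hq hpe hqe => hwmax p ⟨hp, hpe⟩ q ⟨hq, hqe⟩)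
    have hmin2 : 2 * min (c - τ₀) (τ₁ - c) = H := by
      rw [hcH, hcH', min_self]; ring
    rw [hmin2] at h
    have h3 := ENNReal.toReal_mono ENNReal.ofReal_ne_top h
    rw [ENNReal.toReal_mul, ENNReal.toReal_ofReal hHpos.le,
      ENNReal.toReal_ofReal (by positivity)] at h3
    by_contra hcon
    rw [not_le] at hcon
    have := mul_lt_mul_of_pos_right hcon hHpos
    nlinarith
  set A₁ : ℝ := (volume (shadow K e n₁)).toReal with hA₁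
  set A₂ : ℝ := (volume (shadow K e n₂)).toReal with hA₂
  have hA₁0 : 0 ≤ A₁ := ENNReal.toReal_nonneg
  have hA₂0 : 0 ≤ A₂ := ENNReal.toReal_nonneg
  have hA₁e : volume (shadow K e n₁) = ENNReal.ofReal A₁ :=
    (ENNReal.ofReal_toReal (hDfin n₁)).symm
  have hA₂e : volume (shadow K e n₂) = ENNReal.ofReal A₂ :=
    (ENNReal.ofReal_toReal (hDfin n₂)).symm
  have hA₁w : A₁ ≤ H * w₁ := harea n₁ w₁ hw₁0 hw₁max
  have hA₂w : A₂ ≤ H * w₂ := harea n₂ w₂ hw₂0 hw₂max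
  -- pointwise bound
  have hpt : ∀ τ ∈ Icc τ₀ τ₁,
      ENNReal.ofReal (2 * (A₁ * A₂) * min (τ - τ₀) (τ₁ - τ) / H ^ 2)
        ≤ ENNReal.ofReal A₂ * volume (Prod.mk τ ⁻¹' S₁')
          + ENNReal.ofReal A₁ * volume (Prod.mk τ ⁻¹' S₂') := by
    intro τ hτm
    rcases le_or_gt (min (τ - τ₀) (τ₁ - τ)) 0 with hmin0 | hminpos
    · rw [ENNReal.ofReal_of_nonpos]
      · exact zero_le
      · apply div_nonpos_of_nonpos_of_nonneg _ (by positivity)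
        exact mul_nonpos_of_nonneg_of_nonpos (by positivity) hmin0
    have hτ0 : τ₀ < τ := by have := (lt_min_iff.1 hminpos).1; linarith
    have hτ1 : τ < τ₁ := by have := (lt_min_iff.1 hminpos).2; linarith
    set θ : ℝ := 2 * min (τ - τ₀) (τ₁ - τ) / H with hθ
    have hθpos : 0 < θ := by positivity
    set Kτ : Set F := K ∩ {x : F | ⟪x, e⟫ = τ} with hKτ
    have hKτc : IsCompact Kτ :=
      hKc.inter_right (isClosed_eq (continuous_id.inner continuous_const) continuous_const)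
    have hKτconv : Convex ℝ Kτ := by
      apply hK.inter
      intro x hx y hy α β hα hβ hαβ
      change ⟪α • x + β • y, e⟫ = τ
      rw [inner_add_left, inner_smul_left, inner_smul_left, (hx : ⟪x, e⟫ = τ),
        (hy : ⟪y, e⟫ = τ)]
      simp only [RCLike.conj_to_real]
      rw [← add_mul, hαβ, one_mul]
    have hKτne : Kτ.Nonempty := by
      obtain ⟨x, hx, hxe⟩ := exists_mem_height hK e hx₀ hx₁ hτ0 hτ1
      exact ⟨x, hx, hxe⟩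
    -- the section at height `τ` contains a scaled copy of the middle section
    have hcone : ∀ (n : F) (p q : F), p ∈ Kc → q ∈ Kc →
        ∃ p' ∈ Kτ, ∃ q' ∈ Kτ, θ * ⟪p - q, n⟫ ≤ ⟪p' - q', n⟫ := by
      intro n p q hp hq
      have hpe : ⟪p, e⟫ = c := hp.2
      have hqe : ⟪q, e⟫ = c := hq.2
      rcases le_total τ c with hle | hge
      · have hθlam : θ = (τ - τ₀) / (H / 2) := by
          rw [hθ, min_eq_left (by linarith)]; field_simp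
        set lam : ℝ := (τ - τ₀) / (H / 2) with hlam
        have hd : 0 < H / 2 := by positivity
        have hlam0 : 0 ≤ lam := div_nonneg (by linarith) hd.le
        have hlam1 : lam ≤ 1 := div_le_one_of_le₀ (by linarith) hd.le
        have hlamd : lam * (H / 2) = τ - τ₀ := div_mul_cancel₀ _ hd.ne'
        have hheight : ∀ u : F, ⟪u, e⟫ = c → ⟪(1 - lam) • x₀ + lam • u, e⟫ = τ := by
          intro u hu
          rw [inner_add_left, inner_smul_left, inner_smul_left, hu, ← hτ₀]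
          simp only [RCLike.conj_to_real]
          have : lam * c = lam * τ₀ + lam * (H / 2) := by rw [← hcH]; ring
          linarith
        refine ⟨(1 - lam) • x₀ + lam • p,
          ⟨hK hx₀ hp.1 (sub_nonneg.2 hlam1) hlam0 (by ring), hheight p hpe⟩,
          (1 - lam) • x₀ + lam • q,
          ⟨hK hx₀ hq.1 (sub_nonneg.2 hlam1) hlam0 (by ring), hheight q hqe⟩, ?_⟩
        have : (1 - lam) • x₀ + lam • p - ((1 - lam) • x₀ + lam • q) = lam • (p - q) := by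
          rw [smul_sub]; abel
        rw [this, inner_smul_left, hθlam]
        simp only [RCLike.conj_to_real]
        exact le_rfl
      · have hθlam : θ = (τ₁ - τ) / (H / 2) := by
          rw [hθ, min_eq_right (by linarith)]; field_simp
        set lam : ℝ := (τ₁ - τ) / (H / 2) with hlam
        have hd : 0 < H / 2 := by positivity
        have hlam0 : 0 ≤ lam := div_nonneg (by linarith) hd.le
        have hlam1 : lam ≤ 1 := div_le_one_of_le₀ (by linarith) hd.le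
        have hlamd : lam * (H / 2) = τ₁ - τ := div_mul_cancel₀ _ hd.ne'
        have hheight : ∀ u : F, ⟪u, e⟫ = c → ⟪(1 - lam) • x₁ + lam • u, e⟫ = τ := by
          intro u hu
          rw [inner_add_left, inner_smul_left, inner_smul_left, hu, ← hτ₁]
          simp only [RCLike.conj_to_real]
          have : lam * c = lam * τ₁ - lam * (H / 2) := by rw [← hcH']; ring
          linarith
        refine ⟨(1 - lam) • x₁ + lam • p,
          ⟨hK hx₁ hp.1 (sub_nonneg.2 hlam1) hlam0 (by ring), hheight p hpe⟩,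
          (1 - lam) • x₁ + lam • q,
          ⟨hK hx₁ hq.1 (sub_nonneg.2 hlam1) hlam0 (by ring), hheight q hqe⟩, ?_⟩
        have : (1 - lam) • x₁ + lam • p - ((1 - lam) • x₁ + lam • q) = lam • (p - q) := by
          rw [smul_sub]; abel
        rw [this, inner_smul_left, hθlam]
        simp only [RCLike.conj_to_real]
        exact le_rfl
    obtain ⟨p₁', hp₁', q₁', hq₁', hpq₁⟩ := hcone n₁ p₁ q₁ hp₁ hq₁
    obtain ⟨p₂', hp₂', q₂', hq₂', hpq₂⟩ := hcone n₂ p₂ q₂ hp₂ hq₂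
    have hcovτ : ∀ x ∈ Kτ, ⟪x, n₁⟫ ∈ Prod.mk τ ⁻¹' S₁' ∨ ⟪x, n₂⟫ ∈ Prod.mk τ ⁻¹' S₂' := by
      intro x hx
      have hxe : ⟪x, e⟫ = τ := hx.2
      rcases hcov' x hx.1 with h | h
      · left; rw [hxe] at h; exact h
      · right; rw [hxe] at h; exact h
    obtain ⟨ℓ₁, ℓ₂, hℓ₁0, hℓ₂0, hℓ₁v, hℓ₂v, hall⟩ :=
      slice_two Kτ hKτc hKτconv hKτne n₁ n₂ _ _ (measurable_prodMk_left hS₁m)
        (measurable_prodMk_left hS₂m) hcovτ
    have hb₁ : θ * A₁ / H ≤ θ * w₁ := by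
      rw [div_le_iff₀ hHpos]
      have := mul_le_mul_of_nonneg_left hA₁w hθpos.le
      linarith
    have hb₂ : θ * A₂ / H ≤ θ * w₂ := by
      rw [div_le_iff₀ hHpos]
      have := mul_le_mul_of_nonneg_left hA₂w hθpos.le
      linarith
    have hineq := hall (θ * A₁ / H) (θ * A₂ / H) (by positivity) (by positivity)
      ⟨p₁', hp₁', q₁', hq₁', hb₁.trans hpq₁⟩ ⟨p₂', hp₂', q₂', hq₂', hb₂.trans hpq₂⟩
    have hreal : 2 * (A₁ * A₂) * min (τ - τ₀) (τ₁ - τ) / H ^ 2 ≤ A₂ * ℓ₁ + A₁ * ℓ₂ := by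
      have e1 : 2 * (A₁ * A₂) * min (τ - τ₀) (τ₁ - τ) / H ^ 2 = θ * A₁ * A₂ / H := by
        rw [hθ]; field_simp
      rw [e1]
      have h3 := mul_le_mul_of_nonneg_left hineq (div_pos hHpos hθpos).le
      have e2 : H / θ * (θ * A₁ / H * (θ * A₂ / H)) = θ * A₁ * A₂ / H := by field_simp
      have e3 : H / θ * (ℓ₁ * (θ * A₂ / H) + ℓ₂ * (θ * A₁ / H)) = A₂ * ℓ₁ + A₁ * ℓ₂ := by
        field_simp
      rw [e2, e3] at h3
      exact h3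
    calc ENNReal.ofReal (2 * (A₁ * A₂) * min (τ - τ₀) (τ₁ - τ) / H ^ 2)
        ≤ ENNReal.ofReal (A₂ * ℓ₁ + A₁ * ℓ₂) := ENNReal.ofReal_le_ofReal hreal
      _ = ENNReal.ofReal A₂ * ENNReal.ofReal ℓ₁ + ENNReal.ofReal A₁ * ENNReal.ofReal ℓ₂ := by
          rw [ENNReal.ofReal_add (mul_nonneg hA₂0 hℓ₁0) (mul_nonneg hA₁0 hℓ₂0),
            ENNReal.ofReal_mul hA₂0, ENNReal.ofReal_mul hA₁0]
      _ ≤ _ := add_le_add (mul_le_mul' le_rfl hℓ₁v) (mul_le_mul' le_rfl hℓ₂v)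
  -- integration
  have hm₁ : Measurable (fun τ => volume (Prod.mk τ ⁻¹' S₁')) :=
    measurable_measure_prodMk_left hS₁m
  have hm₂ : Measurable (fun τ => volume (Prod.mk τ ⁻¹' S₂')) :=
    measurable_measure_prodMk_left hS₂m
  have hAA : 0 ≤ A₁ * A₂ := mul_nonneg hA₁0 hA₂0
  have htent : ENNReal.ofReal (A₁ * A₂ / 2)
      = ∫⁻ τ in Ioc τ₀ τ₁, ENNReal.ofReal (2 * (A₁ * A₂) * min (τ - τ₀) (τ₁ - τ) / H ^ 2) := by
    have hcontf : Continuous fun τ : ℝ => 2 * (A₁ * A₂) * min (τ - τ₀) (τ₁ - τ) / H ^ 2 := by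
      fun_prop
    have hint : IntegrableOn (fun τ : ℝ => 2 * (A₁ * A₂) * min (τ - τ₀) (τ₁ - τ) / H ^ 2)
        (Ioc τ₀ τ₁) volume := hcontf.integrableOn_Icc.mono_set Ioc_subset_Icc_self
    have hnn : 0 ≤ᵐ[volume.restrict (Ioc τ₀ τ₁)]
        (fun τ : ℝ => 2 * (A₁ * A₂) * min (τ - τ₀) (τ₁ - τ) / H ^ 2) := by
      refine ae_restrict_of_forall_mem measurableSet_Ioc fun τ hτm => ?_
      have : 0 ≤ min (τ - τ₀) (τ₁ - τ) := le_min (by linarith [hτm.1]) (by linarith [hτm.2])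
      change 0 ≤ 2 * (A₁ * A₂) * min (τ - τ₀) (τ₁ - τ) / H ^ 2
      positivity
    rw [← ofReal_integral_eq_lintegral_ofReal hint hnn,
      ← intervalIntegral.integral_of_le hτ.le]
    congr 1
    have : ∀ τ : ℝ, 2 * (A₁ * A₂) * min (τ - τ₀) (τ₁ - τ) / H ^ 2
        = (2 * (A₁ * A₂) / H ^ 2) * min (τ - τ₀) (τ₁ - τ) := fun τ => by ring
    simp only [this]
    rw [intervalIntegral.integral_const_mul, tent_integral τ₀ τ₁ hτ.le]
    field_simp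
    rw [hH]; ring
  have hprod₁ : ∫⁻ τ, volume (Prod.mk τ ⁻¹' S₁') = volume S₁' := by
    rw [Measure.volume_eq_prod, Measure.prod_apply hS₁m]
  have hprod₂ : ∫⁻ τ, volume (Prod.mk τ ⁻¹' S₂') = volume S₂' := by
    rw [Measure.volume_eq_prod, Measure.prod_apply hS₂m]
  have hfinal : ENNReal.ofReal (A₁ * A₂ / 2)
      ≤ ENNReal.ofReal A₂ * volume S₁ + ENNReal.ofReal A₁ * volume S₂ := by
    calc ENNReal.ofReal (A₁ * A₂ / 2)
        = ∫⁻ τ in Ioc τ₀ τ₁,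
            ENNReal.ofReal (2 * (A₁ * A₂) * min (τ - τ₀) (τ₁ - τ) / H ^ 2) := htent
      _ ≤ ∫⁻ τ in Ioc τ₀ τ₁, (ENNReal.ofReal A₂ * volume (Prod.mk τ ⁻¹' S₁')
            + ENNReal.ofReal A₁ * volume (Prod.mk τ ⁻¹' S₂')) :=
          setLIntegral_mono' measurableSet_Ioc
            (fun τ hτm => hpt τ (Ioc_subset_Icc_self hτm))
      _ ≤ ∫⁻ τ, (ENNReal.ofReal A₂ * volume (Prod.mk τ ⁻¹' S₁')
            + ENNReal.ofReal A₁ * volume (Prod.mk τ ⁻¹' S₂')) := setLIntegral_le_lintegral _ _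
      _ = ENNReal.ofReal A₂ * volume S₁' + ENNReal.ofReal A₁ * volume S₂' := by
          rw [lintegral_add_left (hm₁.const_mul _), lintegral_const_mul _ hm₁,
            lintegral_const_mul _ hm₂, hprod₁, hprod₂]
      _ = ENNReal.ofReal A₂ * volume S₁ + ENNReal.ofReal A₁ * volume S₂ := by
          rw [hS₁v, hS₂v]
  rw [hA₁e, hA₂e]
  have h2 : ENNReal.ofReal A₁ * ENNReal.ofReal A₂ = 2 * ENNReal.ofReal (A₁ * A₂ / 2) := by
    rw [← ENNReal.ofReal_mul hA₁0, ← ENNReal.ofReal_ofNat 2,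
      ← ENNReal.ofReal_mul (by norm_num : (0 : ℝ) ≤ 2)]
    congr 1
    ring
  rw [h2]
  calc 2 * ENNReal.ofReal (A₁ * A₂ / 2)
      ≤ 2 * (ENNReal.ofReal A₂ * volume S₁ + ENNReal.ofReal A₁ * volume S₂) :=
        mul_le_mul' le_rfl hfinal
    _ = 2 * (volume S₁ * ENNReal.ofReal A₂ + volume S₂ * ENNReal.ofReal A₁) := by
        rw [mul_comm (ENNReal.ofReal A₂), mul_comm (ENNReal.ofReal A₁)]

end Vale.Agent.Lib.P243
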