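import Mathlib
import Vale.Agent.Lib.P243.Coord
import Vale.Agent.Lib.P243.Slab2

/-!
The directionwise (relative) half-area bound for two cylinders in Euclidean 3-space.
-/

namespace Vale.Agent.Lib.P243

open scoped RealInnerProductSpace
open MeasureTheory Set

/-- Orthonormal plane coordinates `(a, b)` of the plane orthogonal to `u` and slab coordinates
`(e, n)` of the same plane differ by a measure-preserving bijection of `ℝ × ℝ`. -/
lemma coord_transfer_equiv (a b u e : E3) (hab : OrthoPair a b) (hu : u ≠ 0) (hua : ⟪u, a⟫ = 0)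
    (hub : ⟪u, b⟫ = 0) (he : ‖e‖ = 1) (hue : ⟪u, e⟫ = 0) :
    ∃ n : E3, ∃ Ψ : ℝ × ℝ ≃ᵐ ℝ × ℝ, MeasurePreserving Ψ volume volume ∧
      ∀ x : E3, Ψ (planeCoords a b x) = (⟪x, e⟫, ⟪x, n⟫) := by
  set u' : E3 := (‖u‖)⁻¹ • u with hu'
  have hupos : 0 < ‖u‖ := norm_pos_iff.2 hu
  have hu'1 : ‖u'‖ = 1 := by
    rw [hu', norm_smul, norm_inv, norm_norm, inv_mul_cancel₀ hupos.ne']
  have hu'0 : u' ≠ 0 := by
    intro h; rw [h, norm_zero] at hu'1; exact zero_ne_one hu'1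
  have hu'a : ⟪u', a⟫ = 0 := by rw [hu', inner_smul_left, hua, mul_zero]
  have hu'b : ⟪u', b⟫ = 0 := by rw [hu', inner_smul_left, hub, mul_zero]
  have hu'e : ⟪u', e⟫ = 0 := by rw [hu', inner_smul_left, hue, mul_zero]
  have haW : a ∈ (ℝ ∙ u')ᗮ := Submodule.mem_orthogonal_singleton_iff_inner_right.2 hu'a
  have hbW : b ∈ (ℝ ∙ u')ᗮ := Submodule.mem_orthogonal_singleton_iff_inner_right.2 hu'b
  have heW : e ∈ (ℝ ∙ u')ᗮ := Submodule.mem_orthogonal_singleton_iff_inner_right.2 hu'e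
  obtain ⟨β, hβ0, hβ1⟩ := exists_basis_two (finrank_orth u' hu'0) (⟨a, haW⟩ : ↥(ℝ ∙ u')ᗮ)
    ⟨b, hbW⟩ (by rw [Submodule.coe_norm]; exact hab.1) (by rw [Submodule.coe_norm]; exact hab.2.1)
    (by rw [Submodule.coe_inner, real_inner_comm]; exact hab.2.2)
  obtain ⟨β', hβ'0⟩ := exists_basis_one (finrank_orth u' hu'0) (⟨e, heW⟩ : ↥(ℝ ∙ u')ᗮ)
    (by rw [Submodule.coe_norm]; exact he)
  refine ⟨((β' 1 : ↥(ℝ ∙ u')ᗮ) : E3), (planeEquiv β).symm.trans (planeEquiv β'),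
    (MeasurePreserving.symm (planeEquiv β) (measurePreserving_planeEquiv β)).trans
      (measurePreserving_planeEquiv β'), ?_⟩
  intro x
  have h1 : planeCoords a b x = planeEquiv β ((ℝ ∙ u')ᗮ.orthogonalProjectionOnto x) := by
    rw [planeEquiv_proj, hβ0, hβ1]; rfl
  rw [h1, MeasurableEquiv.trans_apply, MeasurableEquiv.symm_apply_apply, planeEquiv_proj, hβ'0]

/-- Multiplied-out form of the directionwise bound for two cylinders. -/
theorem coord_two_mul (K : Set E3) (hKconv : Convex ℝ K) (hKc : IsCompact K)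
    (a₁ b₁ a₂ b₂ : E3) (h₁ : OrthoPair a₁ b₁) (h₂ : OrthoPair a₂ b₂) (S₁ S₂ : Set (ℝ × ℝ))
    (hcov : K ⊆ planeCoords a₁ b₁ ⁻¹' S₁ ∪ planeCoords a₂ b₂ ⁻¹' S₂) :
    volume (planeCoords a₁ b₁ '' K) * volume (planeCoords a₂ b₂ '' K)
      ≤ 2 * (volume S₁ * volume (planeCoords a₂ b₂ '' K)
          + volume S₂ * volume (planeCoords a₁ b₁ '' K)) := by
  rcases K.eq_empty_or_nonempty with hKe | hKne
  · rw [hKe, image_empty, measure_empty, zero_mul]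
    exact zero_le
  obtain ⟨c₁, hc₁0, hc₁1⟩ := exists_basis_three finrank_E3 a₁ b₁ h₁.1 h₁.2.1
    (by rw [real_inner_comm]; exact h₁.2.2)
  obtain ⟨c₂, hc₂0, hc₂1⟩ := exists_basis_three finrank_E3 a₂ b₂ h₂.1 h₂.2.1
    (by rw [real_inner_comm]; exact h₂.2.2)
  have hu₁ := axis_of_basis c₁ a₁ b₁ hc₁0 hc₁1
  have hu₂ := axis_of_basis c₂ a₂ b₂ hc₂0 hc₂1
  obtain ⟨e, he, he₁, he₂⟩ := exists_common_normal (c₁ 2) (c₂ 2)
  set e' : E3 := (‖e‖)⁻¹ • e with he'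
  have hepos : 0 < ‖e‖ := norm_pos_iff.2 he
  have he'1 : ‖e'‖ = 1 := by
    rw [he', norm_smul, norm_inv, norm_norm, inv_mul_cancel₀ hepos.ne']
  have hue₁ : ⟪c₁ 2, e'⟫ = 0 := by rw [he', inner_smul_right, he₁, mul_zero]
  have hue₂ : ⟪c₂ 2, e'⟫ = 0 := by rw [he', inner_smul_right, he₂, mul_zero]
  obtain ⟨n₁, Ψ₁, hΨ₁, hΨ₁x⟩ :=
    coord_transfer_equiv a₁ b₁ (c₁ 2) e' h₁ hu₁.1 hu₁.2.1 hu₁.2.2 he'1 hue₁
  obtain ⟨n₂, Ψ₂, hΨ₂, hΨ₂x⟩ :=
    coord_transfer_equiv a₂ b₂ (c₂ 2) e' h₂ hu₂.1 hu₂.2.1 hu₂.2.2 he'1 hue₂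
  have hvolimg : ∀ (Ψ : ℝ × ℝ ≃ᵐ ℝ × ℝ), MeasurePreserving Ψ volume volume →
      ∀ T : Set (ℝ × ℝ), volume (Ψ '' T) = volume T := by
    intro Ψ hΨ T
    rw [MeasurableEquiv.image_eq_preimage_symm]
    exact (MeasurePreserving.symm Ψ hΨ).measure_preimage_equiv T
  have hsh₁ : shadow K e' n₁ = Ψ₁ '' (planeCoords a₁ b₁ '' K) := by
    rw [Set.image_image]
    unfold shadow
    exact Set.image_congr fun x _ => (hΨ₁x x).symm
  have hsh₂ : shadow K e' n₂ = Ψ₂ '' (planeCoords a₂ b₂ '' K) := by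
    rw [Set.image_image]
    unfold shadow
    exact Set.image_congr fun x _ => (hΨ₂x x).symm
  have hcov' : ∀ x ∈ K, (⟪x, e'⟫, ⟪x, n₁⟫) ∈ Ψ₁ '' S₁ ∨ (⟪x, e'⟫, ⟪x, n₂⟫) ∈ Ψ₂ '' S₂ := by
    intro x hx
    rcases hcov hx with h | h
    · left; rw [← hΨ₁x x]; exact mem_image_of_mem _ h
    · right; rw [← hΨ₂x x]; exact mem_image_of_mem _ h
  have hmain := slab_two K hKc hKconv hKne e' n₁ n₂ (Ψ₁ '' S₁) (Ψ₂ '' S₂) hcov'
  rw [hsh₁, hsh₂, hvolimg Ψ₁ hΨ₁, hvolimg Ψ₂ hΨ₂, hvolimg Ψ₁ hΨ₁, hvolimg Ψ₂ hΨ₂] at hmain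
  exact hmain

/-- The coordinate projection of a set with nonempty interior has positive area. -/
lemma volume_planeCoords_pos (K : Set E3) (hKint : (interior K).Nonempty) (a b : E3)
    (hab : OrthoPair a b) : 0 < volume (planeCoords a b '' K) := by
  obtain ⟨x, hx⟩ := hKint
  obtain ⟨r, hr, hball⟩ := Metric.isOpen_iff.1 isOpen_interior x hx
  have hballK : Metric.ball x r ⊆ K := hball.trans interior_subset
  set s₀ : ℝ := ⟪x, a⟫ with hs₀
  set t₀ : ℝ := ⟪x, b⟫ with ht₀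
  have hsub : Ioo (s₀ - r / 2) (s₀ + r / 2) ×ˢ Ioo (t₀ - r / 2) (t₀ + r / 2)
      ⊆ planeCoords a b '' K := by
    rintro ⟨s, t⟩ ⟨hs, ht⟩
    simp only [mem_Ioo] at hs ht
    refine ⟨x + ((s - s₀) • a + (t - t₀) • b), hballK ?_, ?_⟩
    · rw [Metric.mem_ball, dist_eq_norm, add_sub_cancel_left]
      calc ‖(s - s₀) • a + (t - t₀) • b‖ ≤ ‖(s - s₀) • a‖ + ‖(t - t₀) • b‖ := norm_add_le _ _
        _ = |s - s₀| + |t - t₀| := by
            rw [norm_smul, norm_smul, hab.1, hab.2.1, mul_one, mul_one, Real.norm_eq_abs,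
              Real.norm_eq_abs]
        _ < r := by
            have h1 : |s - s₀| < r / 2 := abs_lt.2 ⟨by linarith [hs.1], by linarith [hs.2]⟩
            have h2 : |t - t₀| < r / 2 := abs_lt.2 ⟨by linarith [ht.1], by linarith [ht.2]⟩
            linarith
    · have haa : ⟪a, a⟫ = 1 := by rw [real_inner_self_eq_norm_sq, hab.1]; norm_num
      have hbb : ⟪b, b⟫ = 1 := by rw [real_inner_self_eq_norm_sq, hab.2.1]; norm_num
      have hba : ⟪b, a⟫ = 0 := by rw [real_inner_comm]; exact hab.2.2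
      unfold planeCoords
      refine Prod.ext ?_ ?_
      · change ⟪x + ((s - s₀) • a + (t - t₀) • b), a⟫ = s
        rw [inner_add_left, inner_add_left, inner_smul_left, inner_smul_left, haa, hba]
        simp only [RCLike.conj_to_real]
        rw [← hs₀]; ring
      · change ⟪x + ((s - s₀) • a + (t - t₀) • b), b⟫ = t
        rw [inner_add_left, inner_add_left, inner_smul_left, inner_smul_left, hbb, hab.2.2]
        simp only [RCLike.conj_to_real]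
        rw [← ht₀]; ring
  have hpos : 0 < volume (Ioo (s₀ - r / 2) (s₀ + r / 2) ×ˢ Ioo (t₀ - r / 2) (t₀ + r / 2)) := by
    rw [Measure.volume_eq_prod, Measure.prod_prod, Real.volume_Ioo, Real.volume_Ioo]
    have h1 : 0 < s₀ + r / 2 - (s₀ - r / 2) := by linarith
    have h2 : 0 < t₀ + r / 2 - (t₀ - r / 2) := by linarith
    exact ENNReal.mul_pos (ENNReal.ofReal_pos.2 h1).ne' (ENNReal.ofReal_pos.2 h2).ne'
  exact lt_of_lt_of_le hpos (measure_mono hsub)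

/-- **Directionwise half-area bound for two cylinders.** -/
theorem coord_two_directionwise (K : Set E3) (hKconv : Convex ℝ K) (hKc : IsCompact K)
    (hKint : (interior K).Nonempty)
    (a₁ b₁ a₂ b₂ : E3) (h₁ : OrthoPair a₁ b₁) (h₂ : OrthoPair a₂ b₂) (S₁ S₂ : Set (ℝ × ℝ))
    (hcov : K ⊆ planeCoords a₁ b₁ ⁻¹' S₁ ∪ planeCoords a₂ b₂ ⁻¹' S₂) :
    (1 / 2 : ENNReal) ≤ volume S₁ / volume (planeCoords a₁ b₁ '' K)
      + volume S₂ / volume (planeCoords a₂ b₂ '' K) := by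
  have hmul := coord_two_mul K hKconv hKc a₁ b₁ a₂ b₂ h₁ h₂ S₁ S₂ hcov
  set D₁ : ENNReal := volume (planeCoords a₁ b₁ '' K) with hD₁
  set D₂ : ENNReal := volume (planeCoords a₂ b₂ '' K) with hD₂
  have hcontc : ∀ a b : E3, Continuous (planeCoords a b) := fun a b =>
    (continuous_id.inner continuous_const).prodMk (continuous_id.inner continuous_const)
  have hD₁0 : D₁ ≠ 0 := (volume_planeCoords_pos K hKint a₁ b₁ h₁).ne'
  have hD₂0 : D₂ ≠ 0 := (volume_planeCoords_pos K hKint a₂ b₂ h₂).ne'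
  have hD₁t : D₁ ≠ ⊤ := (hKc.image (hcontc a₁ b₁)).measure_lt_top.ne
  have hD₂t : D₂ ≠ ⊤ := (hKc.image (hcontc a₂ b₂)).measure_lt_top.ne
  have hprod0 : D₁ * D₂ ≠ 0 := mul_ne_zero hD₁0 hD₂0
  have hprodt : D₁ * D₂ ≠ ⊤ := ENNReal.mul_ne_top hD₁t hD₂t
  have e1 : volume S₁ / D₁ = volume S₁ * D₂ / (D₁ * D₂) :=
    (ENNReal.mul_div_mul_right _ _ hD₂0 hD₂t).symm
  have e2 : volume S₂ / D₂ = volume S₂ * D₁ / (D₁ * D₂) := by
    rw [mul_comm (volume S₂), ENNReal.mul_div_mul_left _ _ hD₁0 hD₁t]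
  rw [e1, e2, ← ENNReal.add_div, ENNReal.le_div_iff_mul_le (Or.inl hprod0) (Or.inl hprodt)]
  have h3 : (1 / 2 : ENNReal) * (2 * (volume S₁ * D₂ + volume S₂ * D₁))
      = volume S₁ * D₂ + volume S₂ * D₁ := by
    rw [← mul_assoc, one_div, ENNReal.inv_mul_cancel (by norm_num) (by norm_num), one_mul]
  calc (1 / 2 : ENNReal) * (D₁ * D₂)
      ≤ (1 / 2 : ENNReal) * (2 * (volume S₁ * D₂ + volume S₂ * D₁)) :=
        mul_le_mul' le_rfl hmul
    _ = volume S₁ * D₂ + volume S₂ * D₁ := h3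

end Vale.Agent.Lib.P243
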