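import Mathlib
import Vale.Agent.Lib.P243.Transfer
import Vale.Agent.Lib.P243.Coord

/-!
Bang's half-area bound for cylinder coverings of a compact convex set in Euclidean 3-space
whose axes are all parallel to one plane.
-/

namespace Vale.Agent.Lib.P243

open scoped RealInnerProductSpace
open MeasureTheory Set

/-- Core statement in slab coordinates, with the minimal projection area on the left. -/
theorem cover_core (K : Set E3) (hKconv : Convex ℝ K) (hKc : IsCompact K) (hKne : K.Nonempty)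
    (e : E3) (he : ‖e‖ = 1) {m : ℕ} (n : Fin m → E3) (hn : ∀ i, ‖n i‖ = 1)
    (hne : ∀ i, ⟪n i, e⟫ = 0) (S : Fin m → Set (ℝ × ℝ))
    (hcov : ∀ x ∈ K, ∃ i, (⟪x, e⟫, ⟪x, n i⟫) ∈ S i) :
    (1 / 2 : ENNReal) * (⨅ v : Metric.sphere (0 : E3) 1,
        volume ((ℝ ∙ (v : E3))ᗮ.orthogonalProjectionOnto '' K)) ≤ ∑ i, volume (S i) := by
  set A : ENNReal := ⨅ v : Metric.sphere (0 : E3) 1,
    volume ((ℝ ∙ (v : E3))ᗮ.orthogonalProjectionOnto '' K) with hA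
  obtain ⟨x₀, hx₀⟩ := hKne
  obtain ⟨i₀, -⟩ := hcov x₀ hx₀
  have hAfin : A ≠ ⊤ := by
    have h1 : A ≤ volume (shadow K e (n i₀)) := amin_transfer K e (n i₀) he (hn i₀) (hne i₀)
    exact (h1.trans_lt (isCompact_shadow hKc e (n i₀)).measure_lt_top).ne
  have hm₀ : ∀ n' : E3, ‖n'‖ = 1 → ⟪n', e⟫ = 0 →
      ENNReal.ofReal A.toReal ≤ volume (shadow K e n') := fun n' hn' hne' =>
    ENNReal.ofReal_toReal_le.trans (amin_transfer K e n' he hn' hne')
  have hmain := slab_cover_bound K hKc hKconv ⟨x₀, hx₀⟩ e n hn hne S hcov A.toReal hm₀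
  have hhalf : (1 / 2 : ENNReal) * A = ENNReal.ofReal (A.toReal / 2) := by
    rw [ENNReal.ofReal_div_of_pos (by norm_num : (0 : ℝ) < 2), ENNReal.ofReal_toReal hAfin,
      ENNReal.ofReal_ofNat, one_div, ENNReal.div_eq_inv_mul]
  rw [hhalf]
  exact hmain

/-- Bang's half-area bound for cylinders whose axes `u i` are all orthogonal to one nonzero
vector `e`.  Bases are arbitrary subsets of the planes `(ℝ ∙ u i)ᗮ`, measured by Lebesgue
(outer) measure of these planes. -/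
theorem coplanar_cover (K : Set E3) (hKconv : Convex ℝ K) (hKc : IsCompact K) {m : ℕ}
    (u : Fin m → E3) (hu : ∀ i, ‖u i‖ = 1) (e : E3) (he : e ≠ 0) (hue : ∀ i, ⟪u i, e⟫ = 0)
    (B : ∀ i, Set ↥(ℝ ∙ u i)ᗮ)
    (hcov : K ⊆ ⋃ i, {x | (ℝ ∙ u i)ᗮ.orthogonalProjectionOnto x ∈ B i}) :
    (1 / 2 : ENNReal) * (⨅ v : Metric.sphere (0 : E3) 1,
        volume ((ℝ ∙ (v : E3))ᗮ.orthogonalProjectionOnto '' K)) ≤ ∑ i, volume (B i) := by
  set e' : E3 := (‖e‖)⁻¹ • e with he'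
  have hepos : 0 < ‖e‖ := norm_pos_iff.2 he
  have he'1 : ‖e'‖ = 1 := by
    rw [he', norm_smul, norm_inv, norm_norm, inv_mul_cancel₀ hepos.ne']
  have hue' : ∀ i, ⟪u i, e'⟫ = 0 := fun i => by
    rw [he', inner_smul_right, hue i, mul_zero]
  rcases K.eq_empty_or_nonempty with hKe | hKne
  · have h0 : (⨅ v : Metric.sphere (0 : E3) 1,
        volume ((ℝ ∙ (v : E3))ᗮ.orthogonalProjectionOnto '' K)) ≤ 0 := by
      refine (iInf_le _ (⟨e', by simpa using he'1⟩ : Metric.sphere (0 : E3) 1)).trans ?_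
      rw [hKe, image_empty, measure_empty]
    rw [le_antisymm h0 zero_le, mul_zero]
    exact zero_le
  · choose n hn hne S hSvol hS using fun i =>
      cyl_transfer (u i) e' (hu i) he'1 (hue' i) (B i)
    have hcov' : ∀ x ∈ K, ∃ i, (⟪x, e'⟫, ⟪x, n i⟫) ∈ S i := by
      intro x hx
      obtain ⟨i, hi⟩ := mem_iUnion.1 (hcov hx)
      exact ⟨i, hS i x hi⟩
    have := cover_core K hKconv hKc hKne e' he'1 n hn hne S hcov'
    rwa [Finset.sum_congr rfl fun i _ => hSvol i] at this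

/-- Bang's half-area bound for every covering of a compact convex set by two cylinders. -/
theorem two_cylinders (K : Set E3) (hKconv : Convex ℝ K) (hKc : IsCompact K)
    (u₁ u₂ : E3) (hu₁ : ‖u₁‖ = 1) (hu₂ : ‖u₂‖ = 1)
    (B₁ : Set ↥(ℝ ∙ u₁)ᗮ) (B₂ : Set ↥(ℝ ∙ u₂)ᗮ)
    (hcov : K ⊆ {x | (ℝ ∙ u₁)ᗮ.orthogonalProjectionOnto x ∈ B₁}
      ∪ {x | (ℝ ∙ u₂)ᗮ.orthogonalProjectionOnto x ∈ B₂}) :
    (1 / 2 : ENNReal) * (⨅ v : Metric.sphere (0 : E3) 1,
        volume ((ℝ ∙ (v : E3))ᗮ.orthogonalProjectionOnto '' K)) ≤ volume B₁ + volume B₂ := by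
  obtain ⟨e, he, he₁, he₂⟩ := exists_common_normal u₁ u₂
  set e' : E3 := (‖e‖)⁻¹ • e with he'
  have hepos : 0 < ‖e‖ := norm_pos_iff.2 he
  have he'1 : ‖e'‖ = 1 := by
    rw [he', norm_smul, norm_inv, norm_norm, inv_mul_cancel₀ hepos.ne']
  have hue₁ : ⟪u₁, e'⟫ = 0 := by rw [he', inner_smul_right, he₁, mul_zero]
  have hue₂ : ⟪u₂, e'⟫ = 0 := by rw [he', inner_smul_right, he₂, mul_zero]
  rcases K.eq_empty_or_nonempty with hKe | hKne
  · have h0 : (⨅ v : Metric.sphere (0 : E3) 1,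
        volume ((ℝ ∙ (v : E3))ᗮ.orthogonalProjectionOnto '' K)) ≤ 0 := by
      refine (iInf_le _ (⟨e', by simpa using he'1⟩ : Metric.sphere (0 : E3) 1)).trans ?_
      rw [hKe, image_empty, measure_empty]
    rw [le_antisymm h0 zero_le, mul_zero]
    exact zero_le
  · obtain ⟨n₁, hn₁, hne₁, S₁, hS₁vol, hS₁⟩ := cyl_transfer u₁ e' hu₁ he'1 hue₁ B₁
    obtain ⟨n₂, hn₂, hne₂, S₂, hS₂vol, hS₂⟩ := cyl_transfer u₂ e' hu₂ he'1 hue₂ B₂
    have hcov' : ∀ x ∈ K, ∃ i : Fin 2, (⟪x, e'⟫, ⟪x, (![n₁, n₂] : Fin 2 → E3) i⟫)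
        ∈ (![S₁, S₂] : Fin 2 → Set (ℝ × ℝ)) i := by
      intro x hx
      rcases hcov hx with h | h
      · exact ⟨0, hS₁ x h⟩
      · exact ⟨1, hS₂ x h⟩
    have := cover_core K hKconv hKc hKne e' he'1 ![n₁, n₂]
      (by intro i; fin_cases i <;> simp [hn₁, hn₂])
      (by intro i; fin_cases i <;> simp [hne₁, hne₂]) ![S₁, S₂] hcov'
    rw [Fin.sum_univ_two] at this
    simpa [hS₁vol, hS₂vol] using this

end Vale.Agent.Lib.P243
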